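import Vale.Agent.Q258E.Rows
import Vale.Agent.Q258D.C

/-!
# First lemmas on powers of `SL(2, p)` and on classes of lists
-/

set_option linter.all false

namespace Vale.Agent.Q258E

open Vale.Agent.P258.Braid Vale.Agent.N258B Vale.Agent.Q258D Vale.Agent.Q258D.RA

/-! ### Powers -/

theorem Pw.finite {p m : ℕ} {H : Type} [Group H] (hp : p.Prime) (h : Pw p m H) : Finite H := by
  obtain ⟨e⟩ := h
  haveI : NeZero p := ⟨hp.ne_zero⟩
  exact Finite.of_equiv _ e.symm.toEquiv

theorem Pw.one (p : ℕ) : Pw p 1 (SLp p) :=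
  ⟨(MulEquiv.funUnique (Fin 1) (SLp p)).symm⟩

theorem Pw.prod {p m m' : ℕ} {H H' : Type} [Group H] [Group H'] (h : Pw p m H) (h' : Pw p m' H') :
    Pw p (m + m') (H × H') := by
  obtain ⟨e⟩ := h
  obtain ⟨e'⟩ := h'
  let f : (Fin m ⊕ Fin m' → SLp p) ≃* (Fin m → SLp p) × (Fin m' → SLp p) :=
    { Equiv.sumArrowEquivProdArrow _ _ _ with map_mul' := fun _ _ => rfl }
  exact ⟨(MulEquiv.prodCongr e e').trans (f.symm.trans
    (MulEquiv.arrowCongr finSumFinEquiv (MulEquiv.refl _)))⟩

theorem All.mono {m : ℕ} {P Q : ∀ (H : Type) [Group H], (Fin 8 → H) → Prop} (h : All m P)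
    (hPQ : ∀ (H : Type) [Group H] [Finite H] (b : Fin 8 → H), OddB b → NGen b → P H b → Q H b) :
    All m Q := by
  obtain ⟨p0, h⟩ := h
  refine ⟨p0, fun p hp hp0 H _ hH b hb hn => ?_⟩
  haveI := hH.finite hp
  exact hPQ H b hb hn (h p hp hp0 H hH b hb hn)

theorem All.and {m : ℕ} {P Q : ∀ (H : Type) [Group H], (Fin 8 → H) → Prop} (h : All m P)
    (h' : All m Q) : All m fun H _ b => P H b ∧ Q H b := by
  obtain ⟨p0, h⟩ := h
  obtain ⟨p1, h'⟩ := h'
  exact ⟨max p0 p1, fun p hp hp0 H _ hH b hb hn =>
    ⟨h p hp (le_of_max_le_left hp0) H hH b hb hn, h' p hp (le_of_max_le_right hp0) H hH b hb hn⟩⟩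

/-! ### Classes of lists -/

variable {H : Type} [Group H] {b : Fin 8 → H}

theorem cls_nil : cls b [] = 1 := map_one _

theorem cls_append (l l' : List (X H)) : cls b (l ++ l') = cls b l * cls b l' := by
  unfold cls; rw [FreeMonoid.ofList_append, map_mul]

theorem cls_cons (s : X H) (l : List (X H)) : cls b (s :: l) = gn b s * cls b l := by
  unfold cls; rw [FreeMonoid.ofList_cons, map_mul]; rfl

theorem cnt_cls (l : List (X H)) (c : Fin 8) : cnt (cls b l) c = (l.map Prod.fst).count c :=
  cnt_mk l c

theorem cls_surj (a : M b) : ∃ l, cls b l = a := by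
  obtain ⟨u, rfl⟩ := mkM_surj a
  exact ⟨FreeMonoid.toList u, rfl⟩

theorem in_cls {K : Subgroup H} {l : List (X H)} : In K (cls b l) ↔ ∀ x ∈ l, px b x ∈ K := by
  induction l with
  | nil => simpa [cls_nil] using in_one K
  | cons s l ih => rw [cls_cons, in_mul, in_gn, ih]; simp

/-- lists with given colours are functions on the positions -/
def frames (cl : List (Fin 8)) : {l : List (X H) // l.map Prod.fst = cl} ≃ (Fin cl.length → H) where
  toFun l i := (l.1[i.val]'(by have := congrArg List.length l.2; simp at this; omega)).2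
  invFun f := ⟨List.ofFn fun i => (cl[i.val], f i), by
    refine List.ext_getElem (by simp) fun i h1 h2 => by simp⟩
  left_inv := by
    rintro ⟨l, rfl⟩
    refine Subtype.ext (List.ext_getElem (by simp) fun i h1 h2 => by simp)
  right_inv f := by
    funext i
    simp

theorem card_cols (cl : List (Fin 8)) :
    Nat.card {l : List (X H) // l.map Prod.fst = cl} = Nat.card H ^ cl.length := by
  rw [Nat.card_congr (frames cl), Nat.card_fun, Nat.card_eq_fintype_card (α := Fin _),
    Fintype.card_fin]

theorem finite_cols [Finite H] (cl : List (Fin 8)) (Q : List (X H) → Prop) :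
    Finite {l : List (X H) // l.map Prod.fst = cl ∧ Q l} := by
  have : Finite {l : List (X H) // l.map Prod.fst = cl} := Finite.of_equiv _ (frames cl).symm
  exact Finite.of_injective
    (fun l => (⟨l.1, l.2.1⟩ : {l : List (X H) // l.map Prod.fst = cl}))
    fun a a' h => Subtype.ext (by simpa using h)

theorem finite_XL [Finite H] (cl : List (Fin 8)) (g : H) (Q : List (X H) → Prop) :
    Finite {l : List (X H) // XL b cl g l ∧ Q l} := by
  have := finite_cols cl fun l => RA.pm b (cls b l) = g ∧ Q l
  exact Finite.of_equiv _ (Equiv.subtypeEquivRight fun l => and_assoc.symm)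

/-- a permutation of the colours is realised by a bijection that keeps the classes -/
theorem perm_equiv {cl cl' : List (Fin 8)} (h : cl.Perm cl') :
    ∃ e : {l : List (X H) // l.map Prod.fst = cl} ≃ {l : List (X H) // l.map Prod.fst = cl'},
      ∀ l, cls b (e l).1 = cls b l.1 := by
  induction h with
  | nil => exact ⟨Equiv.refl _, fun _ => rfl⟩
  | @cons c cl cl' _ ih =>
    obtain ⟨e, he⟩ := ih
    let sp : ∀ d : List (Fin 8), {l : List (X H) // l.map Prod.fst = c :: d} ≃
        H × {l : List (X H) // l.map Prod.fst = d} := fun d =>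
      { toFun := fun l => match l with
          | ⟨s :: l, h⟩ => (s.2, ⟨l, (List.cons.inj h).2⟩)
        invFun := fun x => ⟨(c, x.1) :: x.2.1, by rw [List.map_cons, x.2.2]⟩
        left_inv := fun l => match l with
          | ⟨s :: l, h⟩ => Subtype.ext (by
              have := (List.cons.inj h).1
              simp only [List.cons.injEq, and_true]
              exact Prod.ext this.symm rfl)
        right_inv := fun x => rfl }
    refine ⟨(sp cl).trans ((Equiv.prodCongr (Equiv.refl H) e).trans (sp cl').symm), fun l => ?_⟩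
    obtain ⟨x, rfl⟩ := (sp cl).symm.surjective l
    simp only [Equiv.trans_apply, Equiv.apply_symm_apply]
    change cls b ((c, x.1) :: (e x.2).1) = cls b ((c, x.1) :: x.2.1)
    rw [cls_cons, cls_cons, he]
  | swap c d cl =>
    refine ⟨{ toFun := fun l => match l with
                | ⟨s :: t :: l, h⟩ => ⟨lx (px b s) t :: s :: l, by
                    simp only [List.map_cons, List.cons.injEq] at h ⊢
                    exact ⟨h.2.1, h.1, h.2.2⟩⟩
              invFun := fun l => match l with
                | ⟨t :: s :: l, h⟩ => ⟨s :: lx (px b s)⁻¹ t :: l, by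
                    simp only [List.map_cons, List.cons.injEq] at h ⊢
                    exact ⟨h.2.1, h.1, h.2.2⟩⟩
              left_inv := fun l => match l with
                | ⟨s :: t :: l, h⟩ => Subtype.ext (by
                    simp only [← lx_mul, inv_mul_cancel, lx_one])
              right_inv := fun l => match l with
                | ⟨t :: s :: l, h⟩ => Subtype.ext (by
                    simp only [← lx_mul, mul_inv_cancel, lx_one]) }, fun l => ?_⟩
    match l with
    | ⟨s :: t :: l, h⟩ =>
      change cls b (lx (px b s) t :: s :: l) = cls b (s :: t :: l)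
      rw [cls_cons, cls_cons, cls_cons, cls_cons, ← mul_assoc, ← mul_assoc, gn_rel s t]
  | trans _ _ ih ih' =>
    obtain ⟨e, he⟩ := ih
    obtain ⟨e', he'⟩ := ih'
    exact ⟨e.trans e', fun l => (he' _).trans (he l)⟩

/-- a class has representatives with any order of the colours -/
theorem exists_rep {a : M b} {cl : List (Fin 8)} (h : ∀ c, cnt a c = cl.count c) :
    ∃ l : List (X H), l.map Prod.fst = cl ∧ cls b l = a := by
  obtain ⟨l, rfl⟩ := cls_surj a
  have hp : (l.map Prod.fst).Perm cl := List.perm_iff_count.2 fun c => by rw [← cnt_cls, h]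
  obtain ⟨e, he⟩ := perm_equiv (b := b) hp
  exact ⟨(e ⟨l, rfl⟩).1, (e ⟨l, rfl⟩).2, he _⟩

/-- counts of lists by properties of their classes do not depend on the order of the colours -/
theorem card_perm' {cl cl' : List (Fin 8)} (h : cl.Perm cl') (Q : M b → Prop) :
    Nat.card {l : List (X H) // l.map Prod.fst = cl ∧ Q (cls b l)} =
      Nat.card {l : List (X H) // l.map Prod.fst = cl' ∧ Q (cls b l)} := by
  obtain ⟨e, he⟩ := perm_equiv (b := b) h
  refine Nat.card_congr
    { toFun := fun l => ⟨(e ⟨l.1, l.2.1⟩).1, (e _).2, by rw [he]; exact l.2.2⟩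
      invFun := fun l => ⟨(e.symm ⟨l.1, l.2.1⟩).1, (e.symm _).2, by
        rw [← he, Equiv.apply_symm_apply]; exact l.2.2⟩
      left_inv := fun l => Subtype.ext (by simp)
      right_inv := fun l => Subtype.ext (by simp) }

theorem card_perm {cl cl' : List (Fin 8)} (h : cl.Perm cl') (g : H) (Q : M b → Prop) :
    Nat.card {l // XL b cl g l ∧ Q (cls b l)} = Nat.card {l // XL b cl' g l ∧ Q (cls b l)} := by
  have := card_perm' (b := b) h fun a => RA.pm b a = g ∧ Q a
  simpa only [XL, and_assoc] using this

/-! ### Rows and lists -/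

theorem clr_toSt (l : List (X H)) : clr b (toSt b l) = cls b l := by
  unfold clr toSt
  rw [List.map_map]
  congr 1
  conv_rhs => rw [← List.map_id l]
  rfl

theorem based_toSt (l : List (X H)) : Based b (toSt b l) := by
  intro s hs
  obtain ⟨x, -, rfl⟩ := List.mem_map.1 hs
  rfl

theorem labs_toSt (l : List (X H)) : labs (toSt b l) = l.map Prod.fst := by
  simp [labs, toSt, mk, Function.comp_def]

theorem cnt_clr (l : List (St 8 H)) (c : Fin 8) : cnt (clr b l) c = (labs l).count c := by
  rw [clr, cnt_cls]; simp [labs, Function.comp_def]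

theorem pm_clr {l : List (St 8 H)} (h : Based b l) : RA.pm b (clr b l) = pr l := by
  rw [clr, cls, pm_mk, based_eq h]

theorem in_clr {K : Subgroup H} {l : List (St 8 H)} (h : Based b l) :
    In K (clr b l) ↔ span l ≤ K := by
  rw [clr, in_cls, span_le]
  simp only [List.forall_mem_map]
  refine forall₂_congr fun s hs => ?_
  rw [h s hs]
  exact K.inv_mem_iff

theorem gen_iff {l : List (St 8 H)} (h : Based b l) : Gen l ↔ GenM (clr b l) := by
  refine ⟨fun hg K hK => ?_, fun hg => hg _ ((in_clr h).2 le_rfl)⟩
  rw [eq_top_iff, ← hg]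
  exact (in_clr h).1 hK

theorem clr_cons (s : St 8 H) (l : List (St 8 H)) :
    clr b (s :: l) = gn b (s.lab, s.tr) * clr b l := cls_cons _ _

theorem clr_cross (e : Bool) : ∀ (i : ℕ) (l : List (St 8 H)), Based b l →
    clr b (cross i e l) = clr b l
  | 0, [], _ => rfl
  | 0, [_], _ => rfl
  | 0, s :: t :: l, h => by
    have hs : s.col = s.tr⁻¹ * b s.lab * s.tr := congrArg St.col (h s (by simp))
    have ht : t.col = t.tr⁻¹ * b t.lab * t.tr := congrArg St.col (h t (by simp))
    simp only [cross, clr_cons, ← mul_assoc]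
    congr 1
    cases e
    · rw [gn_rel]
      simp only [half, lx, px]
      rw [← ht]
      congr 3
      group
    · rw [gn_rel (s.lab, s.tr)]
      simp only [half, lx, px]
      rw [← hs]
      congr 3
      group
  | _ + 1, [], _ => rfl
  | i + 1, s :: l, h => by
    simp only [cross, clr_cons, clr_cross e i l fun y hy => h y (by simp [hy])]

/-- braids keep the class -/
theorem clr_bact {N : ℕ} (β : BraidGroup N) {l : List (St 8 H)} (h : Based b l) :
    clr b (bact H N β l) = clr b l :=
  (bact_ind β l (fun l' => Based b l' ∧ clr b l' = clr b l) ⟨h, rfl⟩ fun i e l' h' =>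
    ⟨cross_based e i l' h'.1, (clr_cross e i l' h'.1).trans h'.2⟩).2

/-- rows of the same class differ by a braid -/
theorem exists_bact {N : ℕ} {l l' : List (St 8 H)} (h : Based b l) (h' : Based b l')
    (hl : l.length = N) (hc : clr b l = clr b l') : ∃ g : BraidGroup N, bact H N g l = l' := by
  obtain ⟨w, hw⟩ := br_of_eq hc
  rw [FreeMonoid.toList_ofList, FreeMonoid.toList_ofList, based_eq h, based_eq h',
    run_eq_bact, hl] at hw
  exact ⟨_, hw⟩

theorem InC.bact {cl : List (Fin 8)} {l : List (St 8 H)} (h : InC b cl l) {N : ℕ}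
    {β : BraidGroup N} (hβ : β ∈ Tw N 1) : InC b cl (bact H N β l) :=
  ⟨h.1.bact hβ, by rw [clr_bact β h.1.1]; exact h.2⟩

theorem InC.inO (hb : OddB b) {cl : List (Fin 8)} {l : List (St 8 H)} (h : InC b cl l) :
    InO b cl l :=
  ⟨h.1, (gen_iff h.1.1).2 h.2.2, by rw [← pm_clr h.1.1]; exact pm_caps hb h.2.1⟩

/-- rows and lists -/
theorem card_InX (cl : List (Fin 8)) (Q : M b → Prop) :
    Nat.card {l // InX b cl l ∧ Q (clr b l)} =
      Nat.card {l : List (X H) // l.map Prod.fst = cl ∧ Q (cls b l)} := by
  refine Nat.card_congr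
    { toFun := fun l => ⟨l.1.map fun s : St 8 H => (s.lab, s.tr),
        Eq.trans (by simp [labs, Function.comp_def]) l.2.1.2, l.2.2⟩
      invFun := fun l => ⟨toSt b l.1, ⟨based_toSt _, (labs_toSt _).trans l.2.1⟩, by
        rw [clr_toSt]; exact l.2.2⟩
      left_inv := fun l => Subtype.ext (based_eq l.2.1.1)
      right_inv := fun l => Subtype.ext ?_ }
  simp [toSt, mk, Function.comp_def]

theorem count_cs (k : ℕ) (c : Fin 8) : (cs k).count c = k := RC.count_cs k c

theorem length_cs (k : ℕ) : (cs k).length = 8 * k := by simp [cs]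

theorem InX.len {k : ℕ} {l : List (St 8 H)} (h : InX b (cs k) l) : l.length = 8 * k := by
  rw [← labs_length, h.2, length_cs]

end Vale.Agent.Q258E
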