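import Vale.Agent.Q258E.Rows

/-!
# Row Cv: the collision bound for nested products of powers
-/

set_option linter.all false

namespace Vale.Agent.Q258E

open Finset Vale.Agent.Q258D

namespace Cv

open Classical in
/-- the indicator of a proposition -/
noncomputable def ind (P : Prop) : ℝ := if P then 1 else 0

theorem ind_nonneg (P : Prop) : 0 ≤ ind P := by unfold ind; split_ifs <;> norm_num

theorem ind_le (P : Prop) : ind P ≤ 1 := by unfold ind; split_ifs <;> norm_num

theorem ind_congr {P Q : Prop} (h : P ↔ Q) : ind P = ind Q := by rw [propext h]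

theorem card_eq {α : Type} [Fintype α] (P : α → Prop) :
    (Nat.card {x // P x} : ℝ) = ∑ x, ind (P x) := by
  classical
  rw [Nat.card_eq_fintype_card, Fintype.card_subtype, card_filter]
  push_cast
  refine sum_congr rfl fun x _ => ?_
  unfold ind; split_ifs <;> rfl

theorem sum_ind_le {α : Type} [Fintype α] (P : α → Prop) :
    ∑ x, ind (P x) ≤ (Nat.card α : ℝ) := by
  calc ∑ x, ind (P x) ≤ ∑ _x : α, (1 : ℝ) := sum_le_sum fun x _ => ind_le _
    _ = _ := by simp

theorem ind_forall {ι : Type} [Fintype ι] (P : ι → Prop) : ind (∀ i, P i) = ∏ i, ind (P i) := by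
  by_cases h : ∀ i, P i
  · simp [ind, h]
  · obtain ⟨i, hi⟩ := not_forall.1 h
    rw [prod_eq_zero (mem_univ i) (by simp [ind, hi])]
    simp [ind, h]

theorem sum_cons {α : Type} [Fintype α] {n : ℕ} (F : (Fin (n + 1) → α) → ℝ) :
    ∑ x, F x = ∑ a : α, ∑ x : Fin n → α, F (Fin.cons a x) := by
  rw [← (Fin.consEquiv fun _ => α).sum_comp, Fintype.sum_prod_type]
  rfl

variable {G : Type} [Group G] [Fintype G]

/-- the number of products of conjugates with a given value -/
noncomputable def BB {n : ℕ} (c : Fin n → G) (g : G) : ℝ :=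
  ∑ x : Fin n → G, ind ((List.ofFn fun i => (x i)⁻¹ * c i * x i).prod = g)

omit [Fintype G] in
theorem prod_conj (h : G) (l : List G) : (l.map fun a => h⁻¹ * a * h).prod = h⁻¹ * l.prod * h := by
  induction l with
  | nil => simp
  | cons a l ih => rw [List.map_cons, List.prod_cons, List.prod_cons, ih]; group

theorem BB_conj {n : ℕ} (c : Fin n → G) (g h : G) : BB c (h⁻¹ * g * h) = BB c g := by
  unfold BB
  rw [← Equiv.sum_comp (Equiv.mulRight fun _ : Fin n => h)]
  refine sum_congr rfl fun x _ => ind_congr ?_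
  have : (List.ofFn fun i => ((Equiv.mulRight fun _ : Fin n => h) x i)⁻¹ * c i *
      (Equiv.mulRight fun _ : Fin n => h) x i) =
      (List.ofFn fun i => (x i)⁻¹ * c i * x i).map fun a => h⁻¹ * a * h := by
    rw [List.map_ofFn]
    congr 1
    funext i
    simp only [Equiv.coe_mulRight, Pi.mul_apply, Function.comp_apply]
    group
  rw [this, prod_conj]
  simp

omit [Fintype G] in
theorem conj_pow' (x y : G) (a : ℕ) : (x⁻¹ * y * x) ^ a = x⁻¹ * y ^ a * x := by
  have := conj_pow (i := a) (a := x⁻¹) (b := y)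
  simpa using this

theorem nest_BB {n : ℕ} (y : Fin n → G) (a a' : Fin n → ℕ) (g : G) :
    ∑ x : Fin n → G, ind (nest (List.ofFn fun i => ((x i)⁻¹ * y i * x i, a i, a' i)) = g) =
      BB (fun i => (y i ^ a i)⁻¹ * y i ^ a' i) g := by
  induction n generalizing g with
  | zero => simp [BB, nest]
  | succ n ih =>
    unfold BB
    rw [sum_cons, sum_cons]
    refine sum_congr rfl fun x0 _ => ?_
    have h1 := ih (fun i => y i.succ) (fun i => a i.succ) (fun i => a' i.succ)
      ((x0⁻¹ * y 0 * x0) ^ a 0 * g * ((x0⁻¹ * y 0 * x0) ^ a' 0)⁻¹)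
    have h2 : (x0⁻¹ * y 0 * x0) ^ a 0 * g * ((x0⁻¹ * y 0 * x0) ^ a' 0)⁻¹ =
        (((x0⁻¹ * y 0 * x0) ^ a' 0)⁻¹)⁻¹ *
          ((x0⁻¹ * ((y 0 ^ a 0)⁻¹ * y 0 ^ a' 0) * x0)⁻¹ * g) * ((x0⁻¹ * y 0 * x0) ^ a' 0)⁻¹ := by
      rw [conj_pow', conj_pow']; group
    rw [h2, BB_conj, ← h2] at h1
    calc _ = ∑ x : Fin n → G, ind (nest (List.ofFn fun i =>
          ((x i)⁻¹ * y i.succ * x i, a i.succ, a' i.succ)) =
          (x0⁻¹ * y 0 * x0) ^ a 0 * g * ((x0⁻¹ * y 0 * x0) ^ a' 0)⁻¹) := by
          refine sum_congr rfl fun x _ => ind_congr ?_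
          rw [List.ofFn_succ, nest]
          simp only [Fin.cons_zero, Fin.cons_succ]
          constructor
          · intro h; rw [← h]; group
          · intro h; rw [h]; group
      _ = _ := by
          rw [h1]
          refine sum_congr rfl fun x _ => ind_congr ?_
          rw [List.ofFn_succ, List.prod_cons]
          simp only [Fin.cons_zero, Fin.cons_succ]
          constructor
          · intro h; rw [h]; group
          · intro h; rw [← h]; group

/-- averaging over conjugations -/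
theorem avg {n : ℕ} (a a' : Fin n → ℕ) (g : G) :
    (Nat.card G : ℝ) ^ n * ∑ y : Fin n → G, ind (nest (List.ofFn fun i => (y i, a i, a' i)) = g) =
      ∑ y : Fin n → G, BB (fun i => (y i ^ a i)⁻¹ * y i ^ a' i) g := by
  simp only [← nest_BB]
  rw [sum_comm]
  have : ∀ x : Fin n → G, ∑ y : Fin n → G,
      ind (nest (List.ofFn fun i => ((x i)⁻¹ * y i * x i, a i, a' i)) = g) =
      ∑ y : Fin n → G, ind (nest (List.ofFn fun i => (y i, a i, a' i)) = g) := fun x =>
    ((Equiv.mulLeft x⁻¹).trans (Equiv.mulRight x)).sum_comp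
      fun y => ind (nest (List.ofFn fun i => (y i, a i, a' i)) = g)
  simp only [this]
  simp

/-- few of the quotients of powers are noncentral -/
def Bad {n : ℕ} (y : Fin n → G) (a a' : Fin n → ℕ) : Prop :=
  ¬ 6 ≤ Nat.card {i // (y i ^ a i)⁻¹ * y i ^ a' i ∉ Subgroup.center G}

theorem one_coord {n : ℕ} {e : ℝ} (he : 0 ≤ e)
    (hQ : ∀ c : Fin n → G, 6 ≤ Nat.card {i // c i ∉ Subgroup.center G} → ∀ g,
      (Nat.card G * Nat.card {x : Fin n → G //
        (List.ofFn fun i => (x i)⁻¹ * c i * x i).prod = g} : ℝ) ≤ (1 + e) * (Nat.card G : ℝ) ^ n)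
    (a a' : Fin n → ℕ) (g : G) :
    (Nat.card G : ℝ) * ∑ y : Fin n → G, ind (nest (List.ofFn fun i => (y i, a i, a' i)) = g) ≤
      (1 + e) * (Nat.card G : ℝ) ^ n + Nat.card G * ∑ y : Fin n → G, ind (Bad y a a') := by
  have hq : (0 : ℝ) < Nat.card G := by exact_mod_cast Nat.card_pos
  have hN : (Nat.card (Fin n → G) : ℝ) = (Nat.card G : ℝ) ^ n := by simp
  refine le_of_mul_le_mul_left ?_ (pow_pos hq n)
  rw [mul_left_comm, avg, mul_sum]
  calc _ ≤ ∑ y : Fin n → G, ((1 + e) * (Nat.card G : ℝ) ^ n +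
        Nat.card G * (Nat.card G : ℝ) ^ n * ind (Bad y a a')) := by
        refine sum_le_sum fun y _ => ?_
        by_cases h : Bad y a a'
        · have h1 : BB (fun i => (y i ^ a i)⁻¹ * y i ^ a' i) g ≤ (Nat.card G : ℝ) ^ n :=
            hN ▸ sum_ind_le _
          have h2 : ind (Bad y a a') = 1 := if_pos h
          rw [h2, mul_one]
          have := mul_le_mul_of_nonneg_left h1 hq.le
          have h3 : 0 ≤ (1 + e) * (Nat.card G : ℝ) ^ n := by positivity
          linarith
        · have h1 := hQ _ (not_not.1 h) g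
          rw [card_eq] at h1
          have h2 : ind (Bad y a a') = 0 := if_neg h
          rw [h2, mul_zero, add_zero]
          exact h1
    _ = _ := by
        rw [sum_add_distrib, sum_const, ← mul_sum, card_univ, nsmul_eq_mul,
          ← Nat.card_eq_fintype_card, hN]
        ring

omit [Fintype G] in
theorem map_nest {H : Type} [Group H] (φ : H →* G) {n : ℕ} (y : Fin n → H) (a a' : Fin n → ℕ) :
    φ (nest (List.ofFn fun i => (y i, a i, a' i))) =
      nest (List.ofFn fun i => (φ (y i), a i, a' i)) := by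
  induction n with
  | zero => simp [nest]
  | succ n ih =>
    rw [List.ofFn_succ, List.ofFn_succ, nest, nest, map_mul, map_mul, map_inv, map_pow, map_pow, ih]

theorem factor {H : Type} [Group H] [Fintype H] {m n : ℕ} (φ : H ≃* (Fin m → G))
    (a a' : Fin n → ℕ) (g : H) :
    ∑ y : Fin n → H, ind (nest (List.ofFn fun i => (y i, a i, a' i)) = g) =
      ∏ ν, ∑ y : Fin n → G, ind (nest (List.ofFn fun i => (y i, a i, a' i)) = φ g ν) := by
  classical
  rw [prod_univ_sum, Fintype.piFinset_univ]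
  refine Fintype.sum_equiv ((Equiv.piCongrRight fun _ => φ.toEquiv).trans (Equiv.piComm _)) _ _
    fun y => ?_
  rw [← ind_forall]
  refine ind_congr ?_
  rw [← φ.injective.eq_iff, funext_iff]
  refine forall_congr' fun ν => ?_
  have := map_nest ((Pi.evalMonoidHom (fun _ : Fin m => G) ν).comp φ.toMonoidHom) y a a'
  exact Eq.congr_left this

theorem add_pow_le' {u t : ℝ} (hu : 1 ≤ u) (ht : 0 ≤ t) (m : ℕ) :
    (u + t) ^ m ≤ u ^ m + m * t * (u + t) ^ m := by
  induction m with
  | zero => simp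
  | succ m ih =>
    have h1 : u ^ m ≤ (u + t) ^ (m + 1) :=
      (pow_le_pow_left₀ (by linarith) (by linarith) m).trans
        (pow_le_pow_right₀ (by linarith) (Nat.le_succ m))
    have h2 := mul_le_mul_of_nonneg_right ih (by linarith : 0 ≤ u + t)
    have h3 := mul_le_mul_of_nonneg_left h1 ht
    push_cast
    rw [pow_succ (u + t), pow_succ u] at *
    nlinarith

theorem bad_le {n K : ℕ} (hn : n = K + 5) {lam : ℝ} (hl : 0 ≤ lam) (y : Fin n → G)
    (a a' : Fin n → ℕ) : lam ^ K * ind (Bad y a a') ≤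
      ∏ i, (1 + lam * ind ((y i ^ a i)⁻¹ * y i ^ a' i ∈ Subgroup.center G)) := by
  classical
  by_cases h : Bad y a a'
  · have h2 : ind (Bad y a a') = 1 := if_pos h
    rw [h2, mul_one]
    let P : Fin n → Prop := fun i => (y i ^ a i)⁻¹ * y i ^ a' i ∈ Subgroup.center G
    have h3 : K ≤ (univ.filter P).card := by
      have h4 := card_filter_add_card_filter_not (s := univ) P
      rw [card_univ, Fintype.card_fin] at h4
      unfold Bad at h
      rw [Nat.card_eq_fintype_card, Fintype.card_subtype] at h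
      have h5 : (univ.filter fun i => ¬ P i).card ≤ 5 := by
        have : (univ.filter fun i => ¬ P i).card < 6 := by simpa using h
        omega
      omega
    calc lam ^ K ≤ (1 + lam) ^ K := pow_le_pow_left₀ hl (by linarith) K
      _ ≤ (1 + lam) ^ (univ.filter P).card := pow_le_pow_right₀ (by linarith) h3
      _ = ∏ i, (if P i then 1 + lam else 1) := by rw [← prod_filter, prod_const]
      _ = _ := prod_congr rfl fun i _ => by
        unfold ind
        by_cases hi : P i
        · rw [if_pos hi, if_pos hi, mul_one]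
        · rw [if_neg hi, if_neg hi, mul_zero, add_zero]
  · have h2 : ind (Bad y a a') = 0 := if_neg h
    rw [h2, mul_zero]
    exact prod_nonneg fun i _ => add_nonneg zero_le_one (mul_nonneg hl (ind_nonneg _))

theorem sum_bad {n K E : ℕ} (hn : n = K + 5) {lam : ℝ} (hl : 0 ≤ lam)
    (h : ∀ a : ℕ, lam * Nat.card {x : G × Fin E //
      (x.1 ^ a)⁻¹ * x.1 ^ x.2.val ∈ Subgroup.center G} ≤ Nat.card G * E) :
    lam ^ K * ∑ a : Fin n → Fin E, ∑ a' : Fin n → Fin E, ∑ y : Fin n → G,
      ind (Bad y (fun i => (a i).val) fun i => (a' i).val) ≤ (2 * (Nat.card G * E * E)) ^ n := by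
  let ψ : Fin E × G × Fin E → ℝ := fun w =>
    1 + lam * ind ((w.2.1 ^ w.1.val)⁻¹ * w.2.1 ^ w.2.2.val ∈ Subgroup.center G)
  have h1 : ∑ w, ψ w ≤ 2 * (Nat.card G * E * E) := by
    rw [Fintype.sum_prod_type]
    calc _ ≤ ∑ _a : Fin E, (2 * (Nat.card G * E) : ℝ) := by
          refine sum_le_sum fun a _ => ?_
          have := h a.val
          rw [card_eq] at this
          simp only [ψ]
          rw [sum_add_distrib, ← mul_sum, sum_const, card_univ, Fintype.card_prod, Fintype.card_fin,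
            ← Nat.card_eq_fintype_card, nsmul_eq_mul, mul_one]
          push_cast
          linarith
      _ = _ := by simp; ring
  have h0 : 0 ≤ ∑ w, ψ w :=
    sum_nonneg fun w _ => add_nonneg zero_le_one (mul_nonneg hl (ind_nonneg _))
  refine le_trans ?_ (pow_le_pow_left₀ h0 h1 n)
  rw [Fintype.sum_pow, ← (Equiv.arrowProdEquivProdArrow _ _ _).symm.sum_comp, Fintype.sum_prod_type,
    mul_sum]
  refine sum_le_sum fun a _ => ?_
  rw [← (Equiv.arrowProdEquivProdArrow _ _ _).symm.sum_comp, Fintype.sum_prod_type, sum_comm,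
    mul_sum]
  refine sum_le_sum fun y _ => ?_
  rw [mul_sum]
  exact sum_le_sum fun a' _ => bad_le hn hl y _ _

theorem card_le (p : ℕ) [Fact p.Prime] : Nat.card (SLp p) ≤ p ^ 4 := by
  have := Nat.card_le_card_of_injective (Subtype.val : SLp p → Matrix (Fin 2) (Fin 2) (ZMod p))
    Subtype.val_injective
  refine this.trans (le_of_eq ?_)
  change Nat.card (Fin 2 → Fin 2 → ZMod p) = _
  simp [← pow_mul]

theorem main {H : Type} [Group H] [Fintype H] {m n K : ℕ} (φ : H ≃* (Fin m → G)) (hn : n = K + 5)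
    {e lam : ℝ} (he : 0 ≤ e) (he1 : e ≤ 1) (hl : 0 < lam)
    (hQ : ∀ c : Fin n → G, 6 ≤ Nat.card {i // c i ∉ Subgroup.center G} → ∀ g,
      (Nat.card G * Nat.card {x : Fin n → G //
        (List.ofFn fun i => (x i)⁻¹ * c i * x i).prod = g} : ℝ) ≤ (1 + e) * (Nat.card G : ℝ) ^ n)
    (h : ∀ a : ℕ, lam * Nat.card {x : G × Fin (Nat.card H) //
      (x.1 ^ a)⁻¹ * x.1 ^ x.2.val ∈ Subgroup.center G} ≤ Nat.card G * Nat.card H)
    (g : (Fin n → Fin (Nat.card H)) → (Fin n → Fin (Nat.card H)) → H) :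
    (Nat.card H * Nat.card {x : (Fin n → H) × (Fin n → Fin (Nat.card H)) ×
        (Fin n → Fin (Nat.card H)) //
      nest (List.ofFn fun i => (x.1 i, (x.2.1 i).val, (x.2.2 i).val)) = g x.2.1 x.2.2} : ℝ) ≤
      ((1 + e) ^ m + m * (3 * (Nat.card G : ℝ)) ^ m * Nat.card G * 2 ^ n / lam ^ K) *
        (Nat.card H : ℝ) ^ (3 * n) := by
  have hq : (1 : ℝ) ≤ Nat.card G := by exact_mod_cast Nat.card_pos
  have hE : (Nat.card H : ℝ) = (Nat.card G : ℝ) ^ m := by
    rw [Nat.card_congr φ.toEquiv]; simp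
  have hN : (Nat.card (Fin n → G) : ℝ) = (Nat.card G : ℝ) ^ n := by simp
  have hb := sum_bad (G := G) hn hl.le h
  set q : ℝ := (Nat.card G : ℝ) with hq'
  have hqn : 0 < q ^ n := by positivity
  have key : ∀ (a a' : Fin n → ℕ) (g : H),
      (Nat.card H : ℝ) * ∑ y : Fin n → H, ind (nest (List.ofFn fun i => (y i, a i, a' i)) = g) ≤
        (q ^ n) ^ m * ((1 + e) ^ m + m * (3 * q) ^ m * q / q ^ n *
          ∑ y : Fin n → G, ind (Bad y a a')) := by
    intro a a' g
    set β := ∑ y : Fin n → G, ind (Bad y a a') with hβ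
    have b0 : 0 ≤ β := sum_nonneg fun _ _ => ind_nonneg _
    have b1 : β ≤ q ^ n := hN ▸ sum_ind_le _
    have t0 : 0 ≤ q * β / q ^ n := by positivity
    have t1 : q * β / q ^ n ≤ q := by
      rw [div_le_iff₀ hqn]; exact mul_le_mul_of_nonneg_left b1 (by linarith)
    rw [factor φ, hE]
    calc _ = ∏ ν : Fin m, (q * ∑ y : Fin n → G,
          ind (nest (List.ofFn fun i => (y i, a i, a' i)) = φ g ν)) := by
          rw [prod_mul_distrib, prod_const, card_univ, Fintype.card_fin]
      _ ≤ ∏ _ν : Fin m, (q ^ n * ((1 + e) + q * β / q ^ n)) := by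
          refine prod_le_prod (fun ν _ => mul_nonneg (by linarith)
            (sum_nonneg fun _ _ => ind_nonneg _)) fun ν _ => ?_
          refine (one_coord he hQ a a' _).trans (le_of_eq ?_)
          rw [← hq', ← hβ]
          field_simp
      _ = (q ^ n) ^ m * ((1 + e) + q * β / q ^ n) ^ m := by
          rw [prod_const, card_univ, Fintype.card_fin, mul_pow]
      _ ≤ _ := by
          refine mul_le_mul_of_nonneg_left ?_ (by positivity)
          refine (add_pow_le' (by linarith) t0 m).trans ?_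
          have h1 : ((1 + e) + q * β / q ^ n) ^ m ≤ (3 * q) ^ m :=
            pow_le_pow_left₀ (by positivity) (by linarith) m
          have h2 := mul_le_mul_of_nonneg_left h1 (by positivity : 0 ≤ m * (q * β / q ^ n))
          refine add_le_add le_rfl (h2.trans (le_of_eq ?_))
          ring
  rw [card_eq, Fintype.sum_prod_type, sum_comm, Fintype.sum_prod_type, mul_sum]
  simp only [mul_sum (a := (Nat.card H : ℝ)) (s := (univ : Finset (Fin n → Fin (Nat.card H))))]
  refine (sum_le_sum fun a _ => sum_le_sum fun a' _ => key _ _ (g a a')).trans ?_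
  simp only [← mul_sum, sum_add_distrib, sum_const, card_univ, nsmul_eq_mul, Fintype.card_fun,
    Fintype.card_fin]
  push_cast
  set B := ∑ a : Fin n → Fin (Nat.card H), ∑ a' : Fin n → Fin (Nat.card H), ∑ y : Fin n → G,
      ind (Bad y (fun i => (a i).val) fun i => (a' i).val) with hB
  have hl' : 0 < lam ^ K := pow_pos hl K
  have h1 : B ≤ (2 * (q * Nat.card H * Nat.card H)) ^ n / lam ^ K := by
    rw [le_div_iff₀ hl', mul_comm]; exact hb
  have h2 : (q ^ n) ^ m = (Nat.card H : ℝ) ^ n := by rw [hE, ← pow_mul, ← pow_mul, mul_comm]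
  rw [h2]
  refine (mul_le_mul_of_nonneg_left (add_le_add le_rfl (mul_le_mul_of_nonneg_left h1
    (by positivity))) (by positivity)).trans (le_of_eq ?_)
  rw [mul_pow 2, mul_pow (q * _), mul_pow q, mul_comm 3 n, pow_mul]
  field_simp

end Cv

open Cv

theorem rowCv (hQ : RowQ1) (hO : RowOr) : RowCv := by
  intro m
  obtain ⟨C, hC⟩ := hO
  refine ⟨3 * (4 * m + 5) + 5, fun η hη => ?_⟩
  obtain ⟨e, he0, he1, he⟩ : ∃ e : ℝ, 0 < e ∧ e ≤ 1 ∧ (1 + e) ^ m ≤ 1 + η / 2 := by
    have hc : ContinuousAt (fun e : ℝ => (1 + e) ^ m) 0 := by fun_prop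
    have h1 : ∀ᶠ e in nhds (0 : ℝ), (1 + e) ^ m < 1 + η / 2 :=
      hc.eventually (gt_mem_nhds (by simp; linarith))
    obtain ⟨r, hr, h2⟩ := Metric.eventually_nhds_iff.1 h1
    refine ⟨min 1 (r / 2), by positivity, min_le_left _ _, (h2 ?_).le⟩
    rw [Real.dist_eq, sub_zero, abs_of_pos (by positivity)]
    exact (min_le_right _ _).trans_lt (by linarith)
  obtain ⟨p1, hp1⟩ := hQ e he0
  set A : ℝ := m * 3 ^ m * 2 ^ (3 * (4 * m + 5) + 5) * (C + 1) ^ (4 * m + 5) with hA
  obtain ⟨p2, hp2⟩ := exists_nat_ge (2 * A / η)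
  refine ⟨max 5 (max p1 p2), fun p hp hp0 H _ ⟨φ⟩ b _ _ g => ?_⟩
  haveI : Fact p.Prime := ⟨hp⟩
  classical
  haveI : Finite H := Finite.of_equiv _ φ.toEquiv.symm
  letI := Fintype.ofFinite H
  letI := Fintype.ofFinite (SLp p)
  have h5 : 5 ≤ p := (le_max_left _ _).trans hp0
  have h6 : p1 ≤ p := (le_max_left _ _).trans ((le_max_right _ _).trans hp0)
  have h7 : p2 ≤ p := (le_max_right _ _).trans ((le_max_right _ _).trans hp0)
  have hpR : (0 : ℝ) < p := by exact_mod_cast hp.pos
  rcases Nat.eq_zero_or_pos m with rfl | hm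
  · have hE : Nat.card H = 1 := by rw [Nat.card_congr φ.toEquiv]; simp
    rw [card_eq]
    refine (mul_le_mul_of_nonneg_left (sum_ind_le _) (by positivity)).trans ?_
    simp only [Nat.card_prod, Nat.card_fun, Nat.card_fin, hE]
    simp only [Nat.cast_one, one_pow, mul_one]
    linarith
  have hE : Nat.card H = Nat.card (SLp p) ^ m := by rw [Nat.card_congr φ.toEquiv]; simp
  have hpow : ∀ y : SLp p, y ^ Nat.card H = 1 := fun y => by
    rw [hE]
    obtain ⟨c, hc⟩ := dvd_pow_self (Nat.card (SLp p)) hm.ne'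
    rw [hc, pow_mul, pow_card_eq_one', one_pow]
  set lam : ℝ := ((p : ℝ) / (C + 1)) ^ ((3 : ℕ) : ℝ)⁻¹ with hlam
  have hl0 : 0 < lam := by positivity
  have hl3 : lam ^ 3 = p / (C + 1) := Real.rpow_inv_natCast_pow (by positivity) (by norm_num)
  refine (main φ rfl he0.le he1 hl0 (fun c hc g => (hp1 p h6 _ c hc g).2) (fun a => ?_) g).trans ?_
  · have h1 : (p : ℝ) * (Nat.card {x : SLp p × Fin (Nat.card H) //
        (x.1 ^ a)⁻¹ * x.1 ^ x.2.val ∈ Subgroup.center (SLp p)} : ℝ) ^ 3 ≤
        C * ((Nat.card (SLp p) : ℝ) * Nat.card H) ^ 3 := by exact_mod_cast hC p h5 _ hpow a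
    refine le_of_pow_le_pow_left₀ (n := 3) (by norm_num) (by positivity) ?_
    rw [mul_pow, hl3, div_mul_eq_mul_div, div_le_iff₀ (by positivity)]
    have : (0 : ℝ) ≤ ((Nat.card (SLp p) : ℝ) * Nat.card H) ^ 3 := by positivity
    linarith
  · refine mul_le_mul_of_nonneg_right ?_ (by positivity)
    have hq : (Nat.card (SLp p) : ℝ) ≤ (p : ℝ) ^ 4 := by exact_mod_cast card_le p
    have h1 : (m : ℝ) * (3 * (Nat.card (SLp p) : ℝ)) ^ m * Nat.card (SLp p) *
        2 ^ (3 * (4 * m + 5) + 5) / lam ^ (3 * (4 * m + 5)) ≤ A / p := by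
      rw [pow_mul lam, hl3]
      calc _ ≤ (m : ℝ) * (3 * (p : ℝ) ^ 4) ^ m * (p : ℝ) ^ 4 *
            2 ^ (3 * (4 * m + 5) + 5) / ((p : ℝ) / (C + 1)) ^ (4 * m + 5) := by gcongr
        _ = A / p := by
          rw [hA, div_pow, mul_pow, ← pow_mul]
          field_simp
          ring
    have h2 : A / p ≤ η / 2 := by
      rw [div_le_iff₀ hpR]
      have h3 : 2 * A / η ≤ p := hp2.trans (by exact_mod_cast h7)
      rw [div_le_iff₀ hη] at h3
      linarith
    linarith

end Vale.Agent.Q258E
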