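import Vale.Agent.Q258D.DefsF

/-!
# Counting words
-/

namespace Vale.Agent.Q258E

open Vale.Agent.P258.Braid Vale.Agent.N258B Vale.Agent.Q258D

/-- The number of words of length `n` in the generators of the braid group on `N` strands and
their inverses whose braid is pure and that have the property `P`. -/
noncomputable def words (N n : ℕ) (P : Word → Prop) : ℕ :=
  Nat.card {w : Word // w.length = n ∧ InCoset (Tw N 1) [] w ∧ P w}

end Vale.Agent.Q258E
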