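import Vale.Agent.Q258E.Rows
import Vale.Agent.Q258D.D4

/-!
# Small generating subsets and random generation in the powers of `SL(2, p)`
-/

namespace Vale.Agent.Q258E

open Vale.Agent.Q258D Vale.Agent.Q258D.RA

namespace EH

open Function

/-! ### Counting -/

/-- moving one coordinate -/
theorem upd {I Y : Type} [DecidableEq I] (i : I) (Q : (I → Y) → Prop) :
    Nat.card Y * Nat.card {x // Q x} = Nat.card {q : Y × (I → Y) // Q (update q.2 i q.1)} := by
  rw [← Nat.card_prod]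
  exact Nat.card_congr
    { toFun := fun z => ⟨(z.2.1 i, update z.2.1 i z.1), by simpa using z.2.2⟩
      invFun := fun q => (q.1.2 i, ⟨update q.1.2 i q.1.1, q.2⟩)
      left_inv := fun z => by simp
      right_inv := fun q => by simp }

/-- counting pairs along the first entry -/
theorem fib {A X : Type} [Finite A] [Finite X] (P : A → X → Prop) (B : A → Prop) (p n : ℕ)
    (h : ∀ a, ¬ B a → p * Nat.card {x // P a x} ≤ n) :
    p * Nat.card {q : A × X // P q.1 q.2} ≤
      p * Nat.card {a // B a} * Nat.card X + Nat.card A * n := by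
  classical
  have := Fintype.ofFinite A
  have := Fintype.ofFinite X
  rw [Nat.card_congr (Equiv.subtypeProdEquivSigmaSubtype P), Nat.card_sigma, Finset.mul_sum]
  calc ∑ a, p * Nat.card {x // P a x}
      ≤ ∑ a, ((if B a then p * Nat.card X else 0) + n) := Finset.sum_le_sum fun a _ => by
        split_ifs with c
        · exact (Nat.mul_le_mul_left _
            (Nat.card_le_card_of_injective _ Subtype.val_injective)).trans (Nat.le_add_right _ _)
        · simpa using h a c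
    _ = _ := by
        rw [Finset.sum_add_distrib, ← Finset.sum_filter]
        simp only [Finset.sum_const, smul_eq_mul, Nat.card_eq_fintype_card, Fintype.card_subtype,
          Finset.card_univ]
        ring

/-- a bound on every line gives a bound on the whole space -/
theorem line {I Y : Type} [Finite I] [Finite Y] [Nonempty Y] [DecidableEq I] (i : I)
    (Q : (I → Y) → Prop) (p C : ℕ)
    (h : ∀ x, p * Nat.card {y // Q (update x i y)} ≤ C * Nat.card Y) :
    p * Nat.card {x // Q x} ≤ C * Nat.card (I → Y) := by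
  have h1 := fib (fun (x : I → Y) (y : Y) => Q (update x i y)) (fun _ => False) p _ fun x _ => h x
  have h2 : Nat.card {q : (I → Y) × Y // Q (update q.1 i q.2)} =
      Nat.card {q : Y × (I → Y) // Q (update q.2 i q.1)} :=
    Nat.card_congr ((Equiv.prodComm _ _).subtypeEquiv fun _ => Iff.rfl)
  rw [h2, ← upd] at h1
  refine Nat.le_of_mul_le_mul_left ?_ (Nat.card_pos (α := Y))
  simp only [Nat.card_eq_zero.2 (Or.inl (inferInstance : IsEmpty {_a : I → Y // False}))] at h1
  nlinarith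

/-! ### Escape from proper subgroups -/

/-- a rank function on subgroups that grows outside a thin proper subgroup -/
def Esc {H ι : Type} [Group H] (nc : ι → H → Prop) (R p C : ℕ) : Prop :=
  ∃ ρ : Subgroup H → ℕ, (∀ K, ρ K ≤ R) ∧ ∀ K, K ≠ ⊤ → ∃ (L : Subgroup H) (ν : ι), L ≠ ⊤ ∧
    (∀ K', K ≤ K' → ¬ K' ≤ L → ρ K < ρ K') ∧
    ∀ c, nc ν c → p * Nat.card {x : H // x⁻¹ * c * x ∈ L} ≤ C * Nat.card H

section Abstract

variable {H ι : Type} [Group H] {nc : ι → H → Prop} {R p C : ℕ}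

theorem Esc.small (h : Esc nc R p C) (S : Set H) (hS : Subgroup.closure S = ⊤) :
    ∃ T : Finset H, (T : Set H) ⊆ S ∧ T.card ≤ R ∧ Subgroup.closure (T : Set H) = ⊤ := by
  classical
  obtain ⟨ρ, h1, h2⟩ := h
  have key : ∀ (r : ℕ) (K : Subgroup H), R ≤ ρ K + r → ∃ T : Finset H, (T : Set H) ⊆ S ∧
      T.card ≤ r ∧ K ⊔ Subgroup.closure (T : Set H) = ⊤ := by
    intro r
    induction r with
    | zero =>
      intro K hK
      refine ⟨∅, by simp, le_rfl, ?_⟩
      by_contra c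
      obtain ⟨L, -, hL, h3, -⟩ := h2 K (by simpa using c)
      have h4 := h3 ⊤ le_top fun e => hL (top_le_iff.1 e)
      have h5 := h1 ⊤
      omega
    | succ r ih =>
      intro K hK
      by_cases c : K = ⊤
      · exact ⟨∅, by simp, Nat.zero_le _, by simp [c]⟩
      obtain ⟨L, -, hL, h3, -⟩ := h2 K c
      obtain ⟨s, hs, hsL⟩ : ∃ s ∈ S, s ∉ L := by
        by_contra c'
        push Not at c'
        exact hL (top_le_iff.1 (hS ▸ (Subgroup.closure_le L).2 c'))
      have h4 := h3 (K ⊔ Subgroup.closure {s}) le_sup_left fun e =>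
        hsL (e (Subgroup.mem_sup_right (Subgroup.subset_closure rfl)))
      obtain ⟨T, t1, t2, t3⟩ := ih (K ⊔ Subgroup.closure {s}) (by omega)
      refine ⟨insert s T, ?_, (Finset.card_insert_le _ _).trans (by omega), ?_⟩
      · rw [Finset.coe_insert]
        exact Set.insert_subset hs t1
      · rw [Finset.coe_insert, Set.insert_eq, Subgroup.closure_union, ← sup_assoc, t3]
  obtain ⟨T, t1, t2, t3⟩ := key R ⊥ (Nat.le_add_left _ _)
  exact ⟨T, t1, t2, by simpa using t3⟩

theorem Esc.rare [Finite H] (h : Esc nc R p C) {I : Type} [Finite I] (c : I → H)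
    (hc : ∀ ν, R ≤ Nat.card {i // nc ν (c i)}) :
    p * Nat.card {x : I → H // Subgroup.closure (Set.range fun i => (x i)⁻¹ * c i * x i) ≠ ⊤} ≤
      R * C * Nat.card (I → H) := by
  classical
  have := Fintype.ofFinite I
  obtain ⟨ρ, h1, h2⟩ := h
  have key : ∀ (r : ℕ) (J : Finset I) (K : Subgroup H), R ≤ ρ K + r →
      (∀ ν, r ≤ (J.filter fun i => nc ν (c i)).card) →
      p * Nat.card {x : I → H // ∃ M : Subgroup H, M ≠ ⊤ ∧ K ≤ M ∧
        ∀ i ∈ J, (x i)⁻¹ * c i * x i ∈ M} ≤ r * C * Nat.card (I → H) := by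
    have top : ∀ J : Finset I, Nat.card {x : I → H // ∃ M : Subgroup H, M ≠ ⊤ ∧ ⊤ ≤ M ∧
        ∀ i ∈ J, (x i)⁻¹ * c i * x i ∈ M} = 0 := fun J =>
      Nat.card_eq_zero.2 (Or.inl ⟨fun ⟨_, _, m1, m2, _⟩ => m1 (top_le_iff.1 m2)⟩)
    intro r
    induction r with
    | zero =>
      intro J K hK _
      have e : K = ⊤ := by
        by_contra c
        obtain ⟨L, -, hL, h3, -⟩ := h2 K c
        have h4 := h3 ⊤ le_top fun e => hL (top_le_iff.1 e)
        have h5 := h1 ⊤
        omega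
      rw [e, top]
      exact Nat.zero_le _
    | succ r ih =>
      intro J K hK hJ
      by_cases e : K = ⊤
      · rw [e, top]
        exact Nat.zero_le _
      obtain ⟨L, ν, -, h3, h4⟩ := h2 K e
      obtain ⟨i, hi⟩ := Finset.card_pos.1 (lt_of_lt_of_le (Nat.succ_pos r) (hJ ν))
      rw [Finset.mem_filter] at hi
      refine Nat.le_of_mul_le_mul_left ?_ (Nat.card_pos (α := H))
      rw [mul_left_comm, upd i]
      refine (fib (fun (y : H) (x : I → H) => ∃ M : Subgroup H, M ≠ ⊤ ∧ K ≤ M ∧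
        ∀ k ∈ J, (update x i y k)⁻¹ * c k * update x i y k ∈ M) (fun y => y⁻¹ * c i * y ∈ L) p
          (r * C * Nat.card (I → H)) fun y hy => ?_).trans ?_
      · have h5 := h3 (K ⊔ Subgroup.closure {y⁻¹ * c i * y}) le_sup_left fun e =>
          hy (e (Subgroup.mem_sup_right (Subgroup.subset_closure rfl)))
        refine le_trans (Nat.mul_le_mul_left _ (D3.card_mono ?_))
          (ih (J.erase i) (K ⊔ Subgroup.closure {y⁻¹ * c i * y}) (by omega) fun μ => ?_)
        · rintro x ⟨M, m1, m2, m3⟩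
          refine ⟨M, m1, sup_le m2 ((Subgroup.closure_le M).2 ?_), fun k hk => ?_⟩
          · rintro _ rfl
            simpa using m3 i hi.1
          · rw [Finset.mem_erase] at hk
            simpa [update_of_ne hk.1] using m3 k hk.2
        · have h6 := hJ μ
          have h7 := Finset.pred_card_le_card_erase (s := J.filter fun i => nc μ (c i)) (a := i)
          rw [Finset.filter_erase]
          omega
      · have h5 := Nat.mul_le_mul_right (Nat.card (I → H)) (h4 _ hi.2)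
        nlinarith
  refine le_trans (Nat.mul_le_mul_left _ (D3.card_mono ?_))
    (key R Finset.univ ⊥ (Nat.le_add_left _ _) fun ν => ?_)
  · intro x hx
    exact ⟨_, hx, bot_le, fun i _ => Subgroup.subset_closure ⟨i, rfl⟩⟩
  · have := hc ν
    rwa [Nat.card_eq_fintype_card, Fintype.card_subtype] at this

theorem Esc.equiv {H' : Type} [Group H'] (e : H' ≃* H) (h : Esc nc R p C) :
    Esc (fun ν c => nc ν (e c)) R p C := by
  obtain ⟨ρ, h1, h2⟩ := h
  refine ⟨fun K => ρ (K.map e.toMonoidHom), fun K => h1 _, fun K hK => ?_⟩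
  obtain ⟨L, ν, l1, l2, l3⟩ := h2 (K.map e.toMonoidHom) fun c => hK (eq_top_iff.2 fun x _ => by
    obtain ⟨y, hy, hx⟩ : e x ∈ K.map e.toMonoidHom := c ▸ Subgroup.mem_top _
    exact e.injective hx ▸ hy)
  refine ⟨L.comap e.toMonoidHom, ν, fun c => l1 (Subgroup.comap_injective
    (f := e.toMonoidHom) e.surjective c), fun K' k1 k2 => l2 _ (Subgroup.map_mono k1) fun c =>
      k2 (Subgroup.map_le_iff_le_comap.1 c), fun c hc => ?_⟩
  rw [Nat.card_congr e.toEquiv, Nat.card_congr (e.toEquiv.subtypeEquiv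
    (q := fun x : H => x⁻¹ * e c * x ∈ L) fun x => by simp [Subgroup.mem_comap])]
  exact l3 _ hc

end Abstract

/-! ### Powers of a group -/

section Power

variable {G ι : Type} [Group G]

/-- two coordinates -/
def pr2 (ν μ : ι) : (ι → G) →* G × G :=
  (Pi.evalMonoidHom (fun _ => G) ν).prod (Pi.evalMonoidHom (fun _ => G) μ)

/-- a subgroup of a power of a perfect group with full images in all pairs of coordinates -/
theorem hall [Finite ι] (hc : commutator G = ⊤) (K : Subgroup (ι → G))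
    (h1 : ∀ ν a, ∃ y ∈ K, y ν = a) (h2 : ∀ ν μ, ν ≠ μ → K.map (pr2 ν μ) = ⊤) : K = ⊤ := by
  classical
  have := Fintype.ofFinite ι
  have key : ∀ (ν : ι) (s : Finset ι), ν ∉ s → ∀ a, ∃ y ∈ K, y ν = a ∧ ∀ μ ∈ s, y μ = 1 := by
    intro ν s
    induction s using Finset.induction_on with
    | empty => exact fun _ a => (h1 ν a).imp fun y hy => ⟨hy.1, hy.2, by simp⟩
    | insert μ s _ ih =>
      intro hν
      rw [Finset.mem_insert, not_or] at hν
      let N : Subgroup G :=
        { carrier := {a | ∃ y ∈ K, y ν = a ∧ ∀ κ ∈ insert μ s, y κ = 1}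
          one_mem' := ⟨1, K.one_mem, rfl, fun _ _ => rfl⟩
          mul_mem' := by
            rintro _ _ ⟨y, y1, rfl, y2⟩ ⟨z, z1, rfl, z2⟩
            exact ⟨y * z, K.mul_mem y1 z1, rfl, fun κ hκ => by simp [y2 κ hκ, z2 κ hκ]⟩
          inv_mem' := by
            rintro _ ⟨y, y1, rfl, y2⟩
            exact ⟨y⁻¹, K.inv_mem y1, rfl, fun κ hκ => by simp [y2 κ hκ]⟩ }
      have h3 : commutator G ≤ N := by
        rw [commutator_def, Subgroup.commutator_le]
        intro a _ b _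
        obtain ⟨y, y1, rfl, y2⟩ := ih hν.2 a
        obtain ⟨z, z1, z2⟩ : (b, (1 : G)) ∈ K.map (pr2 ν μ) := h2 ν μ hν.1 ▸ Subgroup.mem_top _
        have z3 : z ν = b := congrArg Prod.fst z2
        have z4 : z μ = 1 := congrArg Prod.snd z2
        refine ⟨y * z * y⁻¹ * z⁻¹, K.mul_mem (K.mul_mem (K.mul_mem y1 z1) (K.inv_mem y1))
          (K.inv_mem z1), by rw [← z3]; rfl, fun κ hκ => ?_⟩
        rcases Finset.mem_insert.1 hκ with rfl | hκ
        · simp [z4]
        · simp [y2 κ hκ]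
      exact fun a => h3 (hc ▸ Subgroup.mem_top a)
  refine eq_top_iff.2 fun x _ => Subgroup.pi_mem_of_mulSingle_mem x fun ν => ?_
  obtain ⟨y, y1, y2, y3⟩ := key ν (Finset.univ.erase ν) (by simp) (x ν)
  convert y1 using 1
  funext μ
  by_cases c : μ = ν
  · rw [c, Pi.mulSingle_eq_same, y2]
  · rw [Pi.mulSingle_eq_of_ne c, y3 μ (by simp [c])]

/-- the elements that agree with an element of `K` at `μ`, and at `ν` up to the centre -/
def near (K : Subgroup (ι → G)) (ν μ : ι) : Subgroup (ι → G) where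
  carrier := {x | ∃ y ∈ K, y μ = x μ ∧ (y ν)⁻¹ * x ν ∈ Subgroup.center G}
  one_mem' := ⟨1, K.one_mem, rfl, by simp⟩
  mul_mem' := by
    rintro x x' ⟨y, y1, y2, y3⟩ ⟨z, z1, z2, z3⟩
    refine ⟨y * z, K.mul_mem y1 z1, by simp [y2, z2], ?_⟩
    have := (Subgroup.center G).mul_mem
      ((Subgroup.normal_of_characteristic (Subgroup.center G)).conj_mem _ y3 (z ν)⁻¹) z3
    convert this using 1
    simp only [Pi.mul_apply]
    group
  inv_mem' := by
    rintro x ⟨y, y1, y2, y3⟩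
    refine ⟨y⁻¹, K.inv_mem y1, by simp [y2], ?_⟩
    have := (Subgroup.normal_of_characteristic (Subgroup.center G)).conj_mem _
      ((Subgroup.center G).inv_mem y3) (x ν)
    convert this using 1
    simp only [Pi.inv_apply]
    group

theorem cent_of (hc : commutator G = ⊤)
    (hn : ∀ K : Subgroup G, K.Normal → K = ⊤ ∨ K ≤ Subgroup.center G) {K : Subgroup (ι → G)}
    (h1 : ∀ ν a, ∃ y ∈ K, y ν = a) {ν μ : ι} (h2 : K.map (pr2 ν μ) ≠ ⊤) {y z : ι → G}
    (hy : y ∈ K) (hz : z ∈ K) (e : y μ = z μ) : (y ν)⁻¹ * z ν ∈ Subgroup.center G := by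
  have h3 := D4.sub_of hc hn h2
    (fun a => (h1 ν a).elim fun y hy => ⟨y μ, y, hy.1, Prod.ext hy.2 rfl⟩)
    (fun a => (h1 μ a).elim fun y hy => ⟨y ν, y, hy.1, Prod.ext rfl hy.2⟩)
  refine (h3.2.2 _ ((y μ)⁻¹ * z μ) ⟨y⁻¹ * z, K.mul_mem (K.inv_mem hy) hz, rfl⟩).2 ?_
  rw [e, inv_mul_cancel]
  exact Subgroup.one_mem _

theorem conj_le [Finite G] (c a : G) :
    Nat.card {x : G // x⁻¹ * c * x = a} ≤ Nat.card {x : G // x * c = c * x} := by
  rcases isEmpty_or_nonempty {x : G // x⁻¹ * c * x = a} with e | ⟨⟨x0, h0⟩⟩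
  · simp
  · refine Nat.card_le_card_of_injective (fun x => ⟨x.1 * x0⁻¹, ?_⟩) fun x y e => ?_
    · have e1 : x0⁻¹ * c * x0 = x.1⁻¹ * c * x.1 := h0.trans x.2.symm
      calc x.1 * x0⁻¹ * c = x.1 * (x0⁻¹ * c * x0) * x0⁻¹ := by group
        _ = c * (x.1 * x0⁻¹) := by rw [e1]; group
    · exact Subtype.ext (mul_right_cancel (congrArg Subtype.val e :))

theorem esc [Finite G] [Fintype ι] {R p C : ℕ} (hc : commutator G = ⊤)
    (hn : ∀ K : Subgroup G, K.Normal → K = ⊤ ∨ K ≤ Subgroup.center G)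
    (hx : ∃ a : G, a ∉ Subgroup.center G) (hz : Nat.card {x // x ∈ Subgroup.center G} ≤ 2)
    (hp : p * p ≤ Nat.card G)
    (hC : ∀ a : G, a ∉ Subgroup.center G → Nat.card {x : G // x * a = a * x} ≤ 2 * p)
    (ρ : Subgroup G → ℕ) (r1 : Monotone ρ) (r2 : ∀ K, ρ K ≤ R)
    (r3 : ∀ K, K ≠ ⊤ → ∃ L, L ≠ ⊤ ∧ ∀ K', K ≤ K' → ¬ K' ≤ L → ρ K < ρ K')
    (r4 : ∀ L : Subgroup G, L ≠ ⊤ → ∀ c, c ∉ Subgroup.center G →
      p * Nat.card {x : G // x⁻¹ * c * x ∈ L} ≤ C * Nat.card G) :
    Esc (fun (ν : ι) (c : ι → G) => c ν ∉ Subgroup.center G)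
      (Fintype.card ι * R + Fintype.card ι * Fintype.card ι) p (C + 4) := by
  classical
  let π := fun ν : ι => Pi.evalMonoidHom (fun _ : ι => G) ν
  let A : Subgroup (ι → G) → Finset (ι × ι) := fun K =>
    Finset.univ.filter fun q => K.map (pr2 q.1 q.2) = ⊤
  have hA : ∀ K K', K ≤ K' → A K ⊆ A K' := fun K K' h q hq => by
    simp only [A, Finset.mem_filter, Finset.mem_univ, true_and] at hq ⊢
    exact top_le_iff.1 (hq ▸ Subgroup.map_mono h)
  refine ⟨fun K => ∑ ν, ρ (K.map (π ν)) + (A K).card, fun K => Nat.add_le_add ?_ ?_,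
    fun K hK => ?_⟩
  · simpa using Finset.sum_le_card_nsmul Finset.univ (fun ν => ρ (K.map (π ν))) R fun ν _ => r2 _
  · simpa using Finset.card_le_univ (A K)
  by_cases c : ∃ ν, K.map (π ν) ≠ ⊤
  · obtain ⟨ν, hν⟩ := c
    obtain ⟨L, l1, l2⟩ := r3 _ hν
    refine ⟨L.comap (π ν), ν, fun c => l1 (Subgroup.comap_injective (f := π ν)
      (fun a => ⟨fun _ => a, rfl⟩) c), fun K' k1 k2 => ?_, fun c hc => ?_⟩
    · refine Nat.add_lt_add_of_lt_of_le (Finset.sum_lt_sum (fun μ _ => r1 (Subgroup.map_mono k1))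
        ⟨ν, Finset.mem_univ _, l2 _ (Subgroup.map_mono k1) fun c =>
          k2 (Subgroup.map_le_iff_le_comap.1 c)⟩) (Finset.card_le_card (hA _ _ k1))
    · refine line ν _ p _ fun x => le_trans (Nat.mul_le_mul_left _ (D3.card_mono fun y hy => ?_))
        ((r4 L l1 _ hc).trans (Nat.mul_le_mul_right _ (Nat.le_add_right _ _)))
      simpa [π, Subgroup.mem_comap] using hy
  · push Not at c
    have h1 : ∀ ν a, ∃ y ∈ K, y ν = a := fun ν a =>
      (show a ∈ K.map (π ν) from c ν ▸ Subgroup.mem_top a)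
    obtain ⟨ν, μ, hνμ, h2⟩ : ∃ ν μ, ν ≠ μ ∧ K.map (pr2 ν μ) ≠ ⊤ := by
      by_contra c'
      push Not at c'
      exact hK (hall hc K h1 c')
    refine ⟨near K ν μ, ν, fun e => ?_, fun K' k1 k2 => ?_, fun c hcν => ?_⟩
    · obtain ⟨a, ha⟩ := hx
      obtain ⟨y, y1, y2, y3⟩ : Pi.mulSingle ν a ∈ near K ν μ := e ▸ Subgroup.mem_top _
      rw [Pi.mulSingle_eq_of_ne hνμ.symm] at y2
      rw [Pi.mulSingle_eq_same] at y3
      have h3 := cent_of hc hn h1 h2 K.one_mem y1 y2.symm
      have h4 := (Subgroup.center G).mul_mem h3 y3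
      simp only [Pi.one_apply, inv_one, one_mul, mul_inv_cancel_left] at h4
      exact ha h4
    · refine Nat.add_lt_add_of_le_of_lt (Finset.sum_le_sum fun μ _ => r1 (Subgroup.map_mono k1))
        (Finset.card_lt_card ((Finset.ssubset_iff_of_subset (hA _ _ k1)).2 ⟨(ν, μ), ?_, ?_⟩))
      · simp only [A, Finset.mem_filter, Finset.mem_univ, true_and]
        by_contra e
        refine k2 fun x hx => ?_
        obtain ⟨y, y1, y2⟩ := h1 μ (x μ)
        exact ⟨y, y1, y2, cent_of hc hn (fun κ a => (h1 κ a).imp fun y hy => ⟨k1 hy.1, hy.2⟩) e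
          (k1 y1) hx y2⟩
      · simpa [A] using h2
    · refine line ν _ p _ fun x => ?_
      obtain ⟨y0, y1, y2⟩ := h1 μ ((x μ)⁻¹ * c μ * x μ)
      have h3 : Nat.card {g : G // (update x ν g)⁻¹ * c * update x ν g ∈ near K ν μ} ≤
          2 * p * Nat.card {z : G // z ∈ Subgroup.center G} := by
        refine D3.card_le_fib _ _ (fun g => (y0 ν)⁻¹ * (g⁻¹ * c ν * g)) _ ?_ fun z _ => ?_
        · rintro g ⟨y, y3, y4, y5⟩
          simp only [Pi.mul_apply, Pi.inv_apply, update_self, update_of_ne hνμ.symm] at y4 y5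
          have h4 := (Subgroup.center G).mul_mem (cent_of hc hn h1 h2 y1 y3 (y2.trans y4.symm)) y5
          rwa [mul_assoc, mul_inv_cancel_left] at h4
        · exact (D3.card_mono fun g hg => (eq_mul_of_inv_mul_eq hg.2 :
            g⁻¹ * c ν * g = y0 ν * z)).trans ((conj_le _ _).trans (hC _ hcν))
      have h4 := Nat.mul_le_mul_left p (h3.trans (Nat.mul_le_mul_left _ hz))
      nlinarith [Nat.zero_le (C * Nat.card G)]

end Power

theorem noncentral (p : ℕ) [Fact p.Prime] : ∃ a : SLp p, a ∉ Subgroup.center (SLp p) :=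
  ⟨D1.up 1, fun h => one_ne_zero ((D1.mk4_ent _ _ _ _ _).2.1.symm.trans (D4.ent_center h).1)⟩

theorem escP (h : RowEs) : ∃ R C : ℕ, ∀ (m p : ℕ) [Fact p.Prime], 5 ≤ p →
    Esc (fun (ν : Fin m) (c : Fin m → SLp p) => c ν ∉ Subgroup.center (SLp p))
      (m * R + m * m) p C := by
  obtain ⟨R, C, h⟩ := h
  refine ⟨R, C + 4, fun m p _ hp => ?_⟩
  obtain ⟨⟨ρ, r1, r2, r3⟩, r4⟩ := h p hp
  obtain ⟨d1, -, -, d4, d5, -⟩ := rowD1 p hp
  have h5 : p * p ≤ Nat.card (SLp p) := by
    rw [d1]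
    refine Nat.mul_le_mul_left _ (Nat.le_sub_one_of_lt ?_)
    nlinarith
  simpa using esc (ι := Fin m) d5 d4 (noncentral p) D3.card_center h5
    (rowD3 rowD1 p hp).2.1 ρ r1 r2 r3 r4

theorem cover : ∀ c : Fin 8, ∃ j, c = ev j ∨ c = od j := by decide

/-- a pair of opposite colours whose base elements are not central at a given coordinate -/
theorem pair {H G : Type} [Group H] [Group G] (f : H →* G) (hf : Surjective f)
    (hx : ∃ a : G, a ∉ Subgroup.center G) {b : Fin 8 → H} (h1 : OddB b) (h2 : NGen b) :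
    ∃ j, f (b (ev j)) ∉ Subgroup.center G ∧ f (b (od j)) ∉ Subgroup.center G := by
  have h3 : ∀ j, f (b (od j)) ∈ Subgroup.center G ↔ f (b (ev j)) ∈ Subgroup.center G := fun j => by
    rw [← bar_ev, h1, map_inv, inv_mem_iff]
  by_contra c
  push Not at c
  have h4 : ∀ j, f (b (ev j)) ∈ Subgroup.center G := fun j => by
    by_contra e
    exact e ((h3 j).1 (c j e))
  have h5 : Subgroup.normalClosure (Set.range b) ≤ (Subgroup.center G).comap f := by
    refine Subgroup.normalClosure_le_normal ?_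
    rintro _ ⟨c, rfl⟩
    obtain ⟨j, rfl | rfl⟩ := cover c
    · exact h4 j
    · exact (h3 j).2 (h4 j)
  obtain ⟨a, ha⟩ := hx
  obtain ⟨x, rfl⟩ := hf a
  exact ha (h5 (h2 ▸ Subgroup.mem_top x))

end EH

theorem rowEH (h : RowEs) : RowEH := by
  obtain ⟨R, C, h⟩ := EH.escP h
  intro m
  refine ⟨m * R + m * m, ⟨5, fun p hp h5 H _ ⟨e⟩ _ _ _ => ?_⟩, fun η hη => ?_⟩
  · have := Fact.mk hp
    exact ((h m p h5).equiv e).small
  obtain ⟨n, hn⟩ := exists_nat_ge (((m * R + m * m) * C : ℕ) / η)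
  refine ⟨max 5 n, fun p hp h5 H _ ⟨e⟩ b b1 b2 I _ col hcol => ?_⟩
  have := Fact.mk hp
  have : Finite H := Finite.of_equiv _ e.toEquiv.symm
  have h1 := ((h m p (le_of_max_le_left h5)).equiv e).rare (fun i => b (col i)) fun ν => by
    obtain ⟨j, j1, j2⟩ := EH.pair ((Pi.evalMonoidHom (fun _ => SLp p) ν).comp e.toMonoidHom)
      (fun a => ⟨e.symm fun _ => a, by simp⟩) (EH.noncentral p) b1 b2
    refine (hcol j).trans (D3.card_mono ?_)
    rintro i (c | c) <;> rw [c]
    · exact j1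
    · exact j2
  rw [Nat.card_fun] at h1
  have h2 : (n : ℝ) ≤ p := Nat.cast_le.2 (le_of_max_le_right h5)
  have h3 : (0 : ℝ) < p := Nat.cast_pos.2 hp.pos
  rw [div_le_iff₀ hη] at hn
  have h4 : (((m * R + m * m) * C : ℕ) : ℝ) ≤ p * η :=
    hn.trans (mul_le_mul_of_nonneg_right h2 hη.le)
  have h6 := (Nat.cast_le (α := ℝ)).2 h1
  rw [Nat.cast_mul, Nat.cast_mul _ (_ ^ _), Nat.cast_pow] at h6
  refine le_of_mul_le_mul_left (h6.trans ?_) h3
  rw [← mul_assoc]
  exact mul_le_mul_of_nonneg_right h4 (by positivity)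

end Vale.Agent.Q258E
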