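import Vale.Agent.Q258E.Rows
import Vale.Agent.Q258D.D3
import Vale.Agent.P022K.Dk.Main

/-!
# Escape from the proper subgroups of `SL(2, p)`

By the theorem of Dickson a proper subgroup has at most 120 elements or keeps a set `{x, y}` of
points of the projective line over the algebraic closure. A large subgroup keeps at most four
such pairs `(x, y)`.
-/

namespace Vale.Agent.Q258E

open Vale.Agent.Q258D

namespace Es

open Matrix OnePoint MulAction Vale.Agent.P022K.Dk
open scoped MatrixGroups Classical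

/-- counting along fibres that embed into a fixed set -/
theorem fib {G Y : Type} [Finite G] [Finite Y] (P T : G → Prop) (Q : Y → Prop) (f : G → Y)
    (e : G → G → G) (he : ∀ g, Function.Injective (e g)) (h1 : ∀ g, P g → Q (f g))
    (h2 : ∀ g h, P g → P h → f g = f h → T (e g h)) :
    Nat.card {g // P g} ≤ Nat.card {g // T g} * Nat.card {y // Q y} := by
  refine D3.card_le_fib P Q f _ h1 fun y _ => ?_
  rcases isEmpty_or_nonempty {g // P g ∧ f g = y} with c | ⟨⟨g, h3, h4⟩⟩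
  · simp
  · exact Nat.card_le_card_of_injective
      (fun x => ⟨e g x.1, h2 g x.1 h3 x.2.1 (h4.trans x.2.2.symm)⟩)
      fun a b h => Subtype.ext (he g (congrArg Subtype.val h))

theorem two_pts {X : Type} (x0 : X) (U : X → Prop)
    (h : ∀ a b c, U a → U b → U c → a = b ∨ a = c ∨ b = c) : ∃ a b, ∀ c, U c → c = a ∨ c = b := by
  by_cases h1 : ∃ a b, U a ∧ U b ∧ a ≠ b
  · obtain ⟨a, b, ha, hb, n⟩ := h1
    exact ⟨a, b, fun c hc => ((h a b c ha hb hc).resolve_left n).imp Eq.symm Eq.symm⟩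
  · push Not at h1
    by_cases h2 : ∃ a, U a
    · obtain ⟨a, ha⟩ := h2
      exact ⟨a, a, fun c hc => .inl (h1 c a hc ha)⟩
    · exact ⟨x0, x0, fun c hc => (h2 ⟨c, hc⟩).elim⟩

theorem card_two {S X : Type} [Finite S] (f : S → X) (hf : Function.Injective f) (a b : X)
    (P : S → Prop) (h : ∀ s, P s → f s = a ∨ f s = b) : Nat.card {s // P s} ≤ 2 := by
  refine (Nat.card_le_card_of_injective (β := ({a, b} : Set X)) (fun s => ⟨f s.1, h _ s.2⟩)
    fun s t e => Subtype.ext (hf (congrArg Subtype.val e))).trans ?_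
  rw [Nat.card_coe_set_eq]
  exact (Set.ncard_insert_le _ _).trans (by simp)

section Line

variable {k : Type} [Field k]

theorem fix2 {g : G2 k} (hz : g ∉ Zc k) : ∃ a b : OnePoint k, ∀ c, g • c = c → c = a ∨ c = b := by
  by_cases h : ∃ x : OnePoint k, g • x = x
  · obtain ⟨x, hx⟩ := h
    by_cases hp : g.IsParabolic
    · exact ⟨x, x, fun c hc => .inl ((par_fix hp hx).le hc)⟩
    · obtain ⟨y, -, e⟩ := ss_fix hz hp hx
      exact ⟨x, y, fun c hc => e.le hc⟩
  · exact ⟨∞, ∞, fun c hc => (h ⟨c, hc⟩).elim⟩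

theorem comm2 {g h : G2 k} {x y : OnePoint k} (n : x ≠ y) (g1 : g • x = x) (g2 : g • y = y)
    (h1 : h • x = x) (h2 : h • y = y) : g * h = h * g := by
  obtain ⟨P, rfl, rfl⟩ := trans2 n
  have key : ∀ g : G2 k, g • P • ((0 : k) : OnePoint k) = P • ((0 : k) : OnePoint k) →
      (P⁻¹ * g * P) 0 1 = 0 := fun g hg => by
    rw [← smul_zero_iff, mul_smul, mul_smul, hg, inv_smul_smul]
  have a1 := tri_cj.1 g1
  have a2 := key g g2
  have b1 := tri_cj.1 h1
  have b2 := key h h2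
  have e : P⁻¹ * g * P * (P⁻¹ * h * P) = P⁻¹ * h * P * (P⁻¹ * g * P) := by
    generalize P⁻¹ * g * P = u at a1 a2
    generalize P⁻¹ * h * P = v at b1 b2
    apply ext4 <;> simp only [mul_ap, a1, a2, b1, b2] <;> ring
  calc g * h = P * (P⁻¹ * g * P * (P⁻¹ * h * P)) * P⁻¹ := by group
    _ = h * g := by rw [e]; group

/-- the stabiliser of the set `{x, y}` -/
def Lp (x y : OnePoint k) : Subgroup (G2 k) where
  carrier := {g | (g • x = x ∧ g • y = y) ∨ (g • x = y ∧ g • y = x)}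
  mul_mem' := by
    rintro a b (⟨a1, a2⟩ | ⟨a1, a2⟩) (⟨b1, b2⟩ | ⟨b1, b2⟩) <;>
      simp [mul_smul, a1, a2, b1, b2]
  one_mem' := .inl ⟨one_smul _ _, one_smul _ _⟩
  inv_mem' := by
    rintro a (⟨a1, a2⟩ | ⟨a1, a2⟩) <;> simp [inv_smul_eq_iff, a1, a2]

theorem Lp_symm {x y : OnePoint k} {g : G2 k} (h : g ∈ Lp x y) : g ∈ Lp y x :=
  h.imp And.symm And.symm

theorem Lp_fix {x y : OnePoint k} {g h : G2 k} (hg : g ∈ Lp x y) (hh : h ∈ Lp x y)
    (e : (g • x = x) = (h • x = x)) : (g⁻¹ * h) • x = x ∧ (g⁻¹ * h) • y = y := by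
  simp only [mul_smul, inv_smul_eq_iff]
  rcases hg with ⟨a1, a2⟩ | ⟨a1, a2⟩ <;> rcases hh with ⟨b1, b2⟩ | ⟨b1, b2⟩
  · exact ⟨b1.trans a1.symm, b2.trans a2.symm⟩
  · obtain rfl : y = x := b1.symm.trans (e ▸ a1)
    exact ⟨b1.trans a1.symm, b2.trans a2.symm⟩
  · obtain rfl : y = x := a1.symm.trans (e ▸ b1)
    exact ⟨b1.trans a1.symm, b2.trans a2.symm⟩
  · exact ⟨b1.trans a1.symm, b2.trans a2.symm⟩

theorem dih_pair {G : Subgroup (G2 k)} (h : Dih G) : ∃ x y : OnePoint k, G ≤ Lp x y := by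
  obtain ⟨P, h⟩ := h
  refine ⟨P • ∞, P • ((0 : k) : OnePoint k), fun g hg => ?_⟩
  have e : ∀ z : OnePoint k, g • P • z = P • (P⁻¹ * g * P) • z := fun z => by
    rw [mul_smul, mul_smul, smul_inv_smul]
  rcases h _ (mem_cj'.2 hg) with ⟨h1, h2⟩ | ⟨h1, h2⟩
  · exact .inl ⟨by rw [e, smul_infty_eq_self_iff.2 h2], by rw [e, smul_zero_iff.2 h1]⟩
  · exact .inr ⟨by rw [e, smul_inf_zero.2 h1], by rw [e, smul_zero_inf.2 h2]⟩

variable {F : Type} [Field F] [Algebra F k]

variable (k) in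
/-- extension of scalars -/
noncomputable abbrev ph : SL(2, F) →* G2 k := SpecialLinearGroup.mapGL k

theorem ph_ap (a : SL(2, F)) (i j : Fin 2) : ph k a i j = algebraMap F k (a.1 i j) := rfl

theorem cen {a : SL(2, F)} (h : ph k a ∈ Zc k) : a ∈ Subgroup.center SL(2, F) := by
  obtain ⟨h1, h2, h3⟩ := mem_Zc.1 h
  rw [ph_ap] at h1 h2
  rw [ph_ap, ph_ap] at h3
  exact D3.central_of ((map_eq_zero _).1 h1) ((map_eq_zero _).1 h2)
    ((algebraMap F k).injective h3).symm

/-- every orbit on the projective line is long -/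
theorem long (x : OnePoint k) : ∃ u : F → SL(2, F), Function.Injective fun s => ph k (u s) • x := by
  cases x with
  | infty =>
    refine ⟨fun s => D1.mk4 s (-1) 1 0 (by simp), fun s t h => ?_⟩
    simpa [smul_infty_eq_ite, ph_ap, D1.mk4_ent] using h
  | coe z =>
    refine ⟨D1.up, fun s t h => ?_⟩
    simpa [smul_some_eq_ite, ph_ap, D1.up, D1.mk4_ent] using h

variable [Finite F]

theorem Lp_ne (hF : 2 < Nat.card F) (x y : OnePoint k) :
    (Lp x y).comap (ph k (F := F)) ≠ ⊤ := fun h => by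
  obtain ⟨u, hu⟩ := long (F := F) x
  have := card_two _ hu x y (fun _ => True) fun s _ =>
    (show ph k (u s) ∈ Lp x y from h.ge (Subgroup.mem_top (u s))).imp And.left And.left
  rw [Nat.card_congr (Equiv.subtypeUnivEquiv fun _ => trivial)] at this
  omega

variable (k) in
/-- the pairs kept by a subgroup -/
def Pr (K : Subgroup SL(2, F)) : Set (OnePoint k × OnePoint k) :=
  {q | K ≤ (Lp q.1 q.2).comap (ph k)}

theorem Pr_le {K : Subgroup SL(2, F)} (hK : 16 < Nat.card K) :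
    (Pr k K).Finite ∧ (Pr k K).ncard ≤ 4 := by
  obtain ⟨a, b, h⟩ := two_pts (∞ : OnePoint k) (fun x => ∃ y, (x, y) ∈ Pr k K) (by
    rintro a b c ⟨a', ha⟩ ⟨b', hb⟩ ⟨c', hc⟩
    by_contra n
    push Not at n
    have h1 := fib (· ∈ K) (· ∈ Subgroup.center SL(2, F)) (fun _ => True)
      (fun g => (ph k g • a = a, ph k g • b = b, ph k g • c = c)) (fun g h => g⁻¹ * h)
      (fun _ => mul_right_injective _) (fun _ _ => trivial) fun g h hg hh e => by
        simp only [Prod.mk.injEq] at e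
        refine cen (k := k) (by_contra fun hz => ?_)
        rw [map_mul, map_inv] at hz
        obtain ⟨u, v, h2⟩ := fix2 hz
        have e1 := h2 _ (Lp_fix (ha hg) (ha hh) e.1).1
        have e2 := h2 _ (Lp_fix (hb hg) (hb hh) e.2.1).1
        have e3 := h2 _ (Lp_fix (hc hg) (hc hh) e.2.2).1
        grind
    rw [Nat.card_congr (Equiv.subtypeUnivEquiv fun _ => trivial)] at h1
    have h2 := D3.card_center (F := F)
    have h3 : Nat.card (Prop × Prop × Prop) = 8 := by simp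
    have h4 : Nat.card {g // g ∈ K} = Nat.card K := rfl
    rw [h3] at h1
    omega)
  have s : Pr k K ⊆ ({a, b} : Set (OnePoint k)) ×ˢ ({a, b} : Set (OnePoint k)) := fun q hq =>
    ⟨h _ ⟨_, hq⟩, h _ ⟨q.1, fun g hg => Lp_symm (hq hg)⟩⟩
  have f : (({a, b} : Set (OnePoint k)) ×ˢ ({a, b} : Set (OnePoint k))).Finite :=
    (Set.toFinite _).prod (Set.toFinite _)
  have c : ({a, b} : Set (OnePoint k)).ncard ≤ 2 := (Set.ncard_insert_le _ _).trans (by simp)
  refine ⟨f.subset s, (Set.ncard_le_ncard s f).trans ?_⟩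
  rw [Set.ncard_prod]
  exact Nat.mul_le_mul c c

/-- conjugates that fix a given point -/
theorem cnt_fix {c : SL(2, F)} (hc : c ∉ Subgroup.center SL(2, F)) (z : OnePoint k) :
    Nat.card F * Nat.card {x : SL(2, F) // ph k (x⁻¹ * c * x) • z = z} ≤ 2 * Nat.card SL(2, F) := by
  obtain ⟨u, hu⟩ := long (F := F) z
  refine D3.avg0 u _ 2 fun x => ?_
  obtain ⟨a, b, h⟩ := fix2 (g := ph k (x⁻¹ * c * x)) fun h => hc (D3.conj_central (cen h))
  refine card_two _ hu a b _ fun s hs => h _ ?_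
  rw [show (x * u s)⁻¹ * c * (x * u s) = (u s)⁻¹ * (x⁻¹ * c * x) * u s by group, map_mul, map_mul,
    map_inv, mul_smul, mul_smul, inv_smul_eq_iff] at hs
  exact hs

theorem cnt_sub {c : SL(2, F)} (hc : c ∉ Subgroup.center SL(2, F)) (L : Subgroup SL(2, F)) :
    Nat.card {x : SL(2, F) // x⁻¹ * c * x ∈ L} ≤ 2 * Nat.card F * Nat.card L :=
  (fib _ (fun x => x * c = c * x) (· ∈ L) (fun x => x⁻¹ * c * x) (fun g h => h * g⁻¹)
    (fun _ => mul_left_injective _) (fun _ h => h) fun g h _ _ e => by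
      calc h * g⁻¹ * c = h * (g⁻¹ * c * g) * g⁻¹ := by group
        _ = c * (h * g⁻¹) := by rw [show g⁻¹ * c * g = h⁻¹ * c * h from e]; group).trans
    (Nat.mul_le_mul_right _ (D3.count3 hc))

theorem card_pair {x y : OnePoint k} (n : x ≠ y) {L : Subgroup SL(2, F)}
    (h : L ≤ (Lp x y).comap (ph k)) : Nat.card L ≤ 4 * Nat.card F := by
  have h1 := fib (· ∈ L) (fun g => ph k g • x = x ∧ ph k g • y = y) (fun _ => True)
    (fun g => ph k g • x = x) (fun g h => g⁻¹ * h) (fun _ => mul_right_injective _)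
    (fun _ _ => trivial) fun g g' hg hg' e => by
      rw [map_mul, map_inv]
      exact Lp_fix (h hg) (h hg') e
  rw [Nat.card_congr (Equiv.subtypeUnivEquiv fun _ => trivial)] at h1
  have h2 : Nat.card {g : SL(2, F) // ph k g • x = x ∧ ph k g • y = y} ≤ 2 * Nat.card F := by
    by_cases c : ∀ g : SL(2, F), ph k g • x = x ∧ ph k g • y = y → g ∈ Subgroup.center SL(2, F)
    · have := Nat.card_pos (α := F)
      exact ((D3.card_mono c).trans D3.card_center).trans (by omega)
    · push Not at c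
      obtain ⟨a, ha, hz⟩ := c
      refine (D3.card_mono fun g hg => ?_).trans (D3.count3 hz)
      refine SpecialLinearGroup.mapGL_injective (S := k) ?_
      rw [map_mul, map_mul]
      exact comm2 n hg.1 hg.2 ha.1 ha.2
  have h3 : Nat.card Prop = 2 := by simp
  have h4 : Nat.card {g // g ∈ L} = Nat.card L := rfl
  rw [h3] at h1
  omega

end Line

variable (k : Type) [Field k] [IsAlgClosed k] {p : ℕ} [Fact p.Prime] [Algebra (ZMod p) k]

/-- the proper subgroups -/
theorem classify {K : Subgroup (SLp p)} (hK : K ≠ ⊤) :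
    Nat.card K ≤ 120 ∨ ∃ x y : OnePoint k, K ≤ (Lp x y).comap (ph k) := by
  have inj : Function.Injective (ph k (F := ZMod p)) := SpecialLinearGroup.mapGL_injective
  have e : Nat.card (K.map (ph k)) = Nat.card K := Subgroup.card_map_of_injective inj
  have : Finite (K.map (ph k)) := Nat.finite_of_card_ne_zero (e ▸ Nat.card_pos.ne')
  rcases dickson (K.map (ph k)) with h | h | h | ⟨E, P, -, h, -⟩
  · obtain ⟨x, h⟩ := red_iff'.1 h
    exact .inr ⟨x, x, fun g hg => .inl ⟨h _ ⟨g, hg, rfl⟩, h _ ⟨g, hg, rfl⟩⟩⟩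
  · obtain ⟨x, y, h⟩ := dih_pair h
    exact .inr ⟨x, y, Subgroup.map_le_iff_le_comap.1 h⟩
  · left
    have e1 : Nat.card ((Subgroup.center (SLp p)).map (ph k)) =
        Nat.card (Subgroup.center (SLp p)) := Subgroup.card_map_of_injective inj
    have : Finite ((Subgroup.center (SLp p)).map (ph k)) :=
      Nat.finite_of_card_ne_zero (e1 ▸ Nat.card_pos.ne')
    have h1 : Nat.card ↥(K.map (ph k) ⊓ Zc k) ≤ 2 :=
      (Subgroup.card_le_of_le (K := (Subgroup.center (SLp p)).map (ph k)) (by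
        rintro _ ⟨⟨a, -, rfl⟩, h⟩
        exact ⟨a, cen h, rfl⟩)).trans (e1.le.trans D3.card_center)
    have h2 : pord (K.map (ph k)) ≤ 60 := by rcases h.1 with h | h | h <;> simp [h.1]
    rw [← e, ← card_rel]
    exact Nat.mul_le_mul h1 h2
  · have h1 : P * ph k (D1.up (1 : ZMod p)) * P⁻¹ ∈ K.map (ph k) := h _ (fun i j => by
      fin_cases i <;> fin_cases j <;> simp [ph_ap, D1.up, D1.mk4_ent]) (by
        simp [ph_ap, D1.up, D1.mk4_ent])
    have h2 : orderOf (P * ph k (D1.up (1 : ZMod p)) * P⁻¹) = p := orderOf_eq_prime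
      (by rw [conj_pow, ← map_pow, D1.up_pow, ZMod.natCast_self, zero_mul, D1.up_zero, map_one,
        mul_one, mul_inv_cancel]) fun c => by
        rw [mul_inv_eq_one, mul_eq_left, map_eq_one_iff _ inj] at c
        exact one_ne_zero (congrArg (fun a : SLp p => a.1 0 1) c)
    have h4 := Subgroup.orderOf_dvd_natCard _ h1
    rw [h2, e] at h4
    obtain ⟨x, hx⟩ := (D1.borel K h4).resolve_left hK
    have h3 : ∀ g ∈ K, ph k g • ph k x • (∞ : OnePoint k) = ph k x • ∞ := fun g hg =>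
      tri_cj.2 (by rw [← map_inv, ← map_mul, ← map_mul, ph_ap, hx g hg, map_zero])
    exact .inr ⟨_, _, fun g hg => .inl ⟨h3 g hg, h3 g hg⟩⟩

include k in
theorem part1 (hp : 5 ≤ p) : ∃ ρ : Subgroup (SLp p) → ℕ, Monotone ρ ∧ (∀ K, ρ K ≤ 125) ∧
    ∀ K, K ≠ ⊤ → ∃ L, L ≠ ⊤ ∧ ∀ K', K ≤ K' → ¬ K' ≤ L → ρ K < ρ K' := by
  have sub : ∀ K K' : Subgroup (SLp p), K ≤ K' → Pr k K' ⊆ Pr k K := fun K K' h q hq => h.trans hq
  have bd : ∀ K : Subgroup (SLp p), ¬ Nat.card K ≤ 120 → (Pr k K).Finite ∧ (Pr k K).ncard ≤ 4 :=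
    fun K h => Pr_le (lt_trans (by norm_num) (not_le.1 h))
  refine ⟨fun K => if Nat.card K ≤ 120 then Nat.card K else 125 - (Pr k K).ncard,
    fun K K' h => ?_, fun K => ?_, fun K hK => ?_⟩
  · have h1 := Subgroup.card_le_of_le h
    dsimp only
    split_ifs with c c' c'
    · exact h1
    · have := (bd _ c').2
      omega
    · omega
    · have := Set.ncard_le_ncard (sub _ _ h) (bd _ c).1
      omega
  · dsimp only
    split_ifs <;> omega
  · by_cases c : Nat.card K ≤ 120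
    · refine ⟨K, hK, fun K' h n => ?_⟩
      have h1 : ¬ Nat.card K' ≤ Nat.card K := fun h1 => n (Subgroup.eq_of_le_of_card_ge h h1).ge
      dsimp only
      rw [if_pos c]
      split_ifs with c'
      · omega
      · have := (bd _ c').2
        omega
    · obtain ⟨x, y, hxy⟩ := (classify k hK).resolve_left c
      refine ⟨_, Lp_ne (by rw [Nat.card_zmod]; omega) x y, fun K' h n => ?_⟩
      have h1 := Subgroup.card_le_of_le h
      obtain ⟨h2, h3⟩ := bd _ c
      have h4 := Set.ncard_lt_ncard ((Set.ssubset_iff_of_subset (sub _ _ h)).2 ⟨(x, y), hxy, n⟩) h2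
      dsimp only
      rw [if_neg c, if_neg (by omega)]
      omega

include k in
theorem part2 (hp : 5 ≤ p) (L : Subgroup (SLp p)) (hL : L ≠ ⊤) (c : SLp p)
    (hc : c ∉ Subgroup.center (SLp p)) :
    p * Nat.card {x : SLp p // x⁻¹ * c * x ∈ L} ≤ 240 * Nat.card (SLp p) := by
  have h1 := cnt_sub hc L
  obtain ⟨q, hq⟩ : ∃ q, p ^ 2 = q + 1 := Nat.exists_eq_succ_of_ne_zero (by positivity)
  have h2 : Nat.card (SLp p) = p * q := by rw [D1.card_eq, hq, Nat.add_sub_cancel]
  rw [Nat.card_zmod] at h1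
  rcases classify k hL with h | ⟨x, y, h⟩
  · rw [h2, mul_left_comm]
    exact Nat.mul_le_mul_left _ (by nlinarith)
  · by_cases n : x = y
    · subst n
      have h3 := cnt_fix (k := k) hc x
      rw [Nat.card_zmod] at h3
      exact ((Nat.mul_le_mul_left p (D3.card_mono fun g hg => (h hg).elim And.left And.left)).trans
        h3).trans (Nat.mul_le_mul_right _ (by norm_num))
    · have h3 := card_pair n h
      rw [Nat.card_zmod] at h3
      rw [h2, mul_left_comm]
      exact Nat.mul_le_mul_left _ (by nlinarith)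

end Es

theorem rowEs : RowEs :=
  ⟨125, 240, fun p _ hp => ⟨Es.part1 (AlgebraicClosure (ZMod p)) hp,
    Es.part2 (AlgebraicClosure (ZMod p)) hp⟩⟩

end Vale.Agent.Q258E
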