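import Vale.Agent.Q258E.Core
import Vale.Agent.Q258D.Main

/-!
# One prime, with a number of bands that does not depend on the prime
-/

set_option linter.all false

namespace Vale.Agent.Q258E

open Vale.Agent.P258.Braid Vale.Agent.N258B Vale.Agent.Q258D Vale.Agent.Q258D.RA

namespace GP

open G1

variable {H : Type} [Group H]

/-- the orbit lemma -/
theorem orbit {k : ℕ} (S Γ : Subgroup (BraidGroup (8 * k))) [S.Normal] [S.FiniteIndex]
    (hS : S ≤ (bact H (8 * k)).ker) (hΓ : Γ ≤ Tw (8 * k) 1) (b : Fin 8 → H)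
    (hT : ∀ l l', InC b (cs k) l → InC b (cs k) l' → ∃ g ∈ Γ, bact H (8 * k) g l = l')
    {β : BraidGroup (8 * k)} (hβ : β ∈ Tw (8 * k) 1) [Finite {l // InC b (cs k) l}]
    {u : List (St 8 H)} (hu : InC b (cs k) u) (A : List (St 8 H) → Prop) :
    Nat.card {ω : Om S Γ β // A (bact H (8 * k) ω.1.out u)} * Nat.card {l // InC b (cs k) l} =
      Nat.card (Om S Γ β) * Nat.card {l // InC b (cs k) l ∧ A l} := by
  refine card_mul (fun ω : Om S Γ β => bact H (8 * k) ω.1.out u) (InC b (cs k)) ?_ u hu ?_ A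
  · rintro ⟨q, γ, hγ, hq⟩
    dsimp only
    rw [bact_out hS hq]
    exact hu.bact ((Tw _ 1).mul_mem hβ (hΓ hγ))
  · intro x y hx hy
    obtain ⟨g, hg, hxy⟩ := hT _ _ (hx.bact ((Tw _ 1).inv_mem hβ)) (hy.bact ((Tw _ 1).inv_mem hβ))
    have key : ∀ γ : BraidGroup (8 * k), β * g * β⁻¹ * (β * γ) = β * (g * γ) := fun γ => by group
    refine Nat.card_le_card_of_injective (fun ω => ⟨⟨((β * g * β⁻¹ : BraidGroup (8 * k)) : _ ⧸ S) *
      ω.1.1, ?_⟩, ?_⟩) ?_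
    · obtain ⟨⟨q, γ, hγ, hq⟩, -⟩ := ω
      subst hq
      exact ⟨g * γ, Γ.mul_mem hg hγ, by rw [← key, QuotientGroup.mk_mul]⟩
    · obtain ⟨⟨q, γ, hγ, hq⟩, h⟩ := ω
      dsimp only at h ⊢
      rw [bact_out hS hq] at h
      rw [bact_out hS (g := β * g * β⁻¹ * (β * γ)) (by rw [QuotientGroup.mk_mul, hq]), bact_mul, h,
        bact_mul, bact_mul, hxy, ← bact_mul, mul_inv_cancel, map_one]
      rfl
    · intro ω ω' h
      have h1 := congrArg (fun z => z.1.1) h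
      exact Subtype.ext (Subtype.ext (mul_left_cancel h1))

/-- the probability of one colouring -/
theorem prob (hU2 : RowU2) (hU3 : RowU3) (m j : ℕ) : ∃ k0, ∀ k ≥ k0, ∀ η : ℝ, 0 < η → ∃ p0,
    ∀ p : ℕ, p.Prime → p0 ≤ p → p % 4 = 1 → ∀ M : ℕ, ¬ p ∣ M → ∀ (H : Type) [Group H], Pw p m H →
      ∀ (S : Subgroup (BraidGroup (8 * k))) [S.Normal] [S.FiniteIndex],
        S ≤ (bact H (8 * k)).ker → ∀ β ∈ Tw (8 * k) 1, RG.Prob H k S (Der (8 * k) M j) β η := by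
  obtain ⟨k1, hk1⟩ := hU2 m
  obtain ⟨k2, hk2⟩ := hU3 j m
  refine ⟨k1 + k2 + 1, fun k hk η hη => ?_⟩
  obtain ⟨ε, hε, hε1, h1, h2⟩ :
      ∃ ε : ℝ, 0 < ε ∧ ε < 1 ∧ 2 * ε ≤ η ∧ 1 ≤ (1 + η) * (1 - ε) := by
    have hp : (0 : ℝ) < 2 + 2 * η := by linarith
    refine ⟨η / (2 + 2 * η), div_pos hη hp, (div_lt_one hp).2 (by linarith), ?_, ?_⟩
    · rw [← mul_div_assoc, div_le_iff₀ hp]
      nlinarith
    · have : (1 + η) * (1 - η / (2 + 2 * η)) = 1 + η / 2 := by field_simp; ring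
      rw [this]
      linarith
  obtain ⟨p1, hp1⟩ := hk1 k (by omega) ε hε
  obtain ⟨p2, hp2⟩ := hk2 k (by omega)
  refine ⟨p1 + p2, fun p hp hp0 hp4 M hM H _ hH S _ _ hS β hβ mk u hm hu hg => ?_⟩
  haveI := hH.finite hp
  obtain ⟨hc, -⟩ := rowB3 H
  have hb : OddB (bs (ym mk)) := oddB_bs _
  have huX : InX (bs (ym mk)) (cs k) u := RG.InT.inX hu
  have hN : NGen (bs (ym mk)) := F5.ngen_of huX.1 hg
  obtain ⟨ho1, ho2, hT, hB, hn1, -⟩ := hp1 p hp (by omega) H hH _ hb hN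
  have hn1 := hn1 (em mk)
  have huO : InC (bs (ym mk)) (cs k) u := hT u hu hg
  obtain ⟨hfin, hA, -⟩ := hc k (by omega) (bs (ym mk)) (em mk)
  have hBX : ∀ v, InB k (bs (ym mk)) (em mk) v → InX (bs (ym mk)) (cs k) v := by
    rintro v ⟨f, -, rfl⟩
    exact inX_row _ _ _
  haveI : Finite {l // InC (bs (ym mk)) (cs k) l} := RG.fin_mono hfin fun _ h => h.1
  haveI : Finite {v // InB k (bs (ym mk)) (em mk) v} := RG.fin_mono hfin hBX
  have horb := orbit S (Der (8 * k) M j) hS (der_le _ _ _) _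
    (hp2 p hp (by omega) hp4 M hM H hH _ hb hN) hβ huO (InB k (bs (ym mk)) (em mk))
  have e1 : Nat.card {ω : Om S (Der (8 * k) M j) β // IsSol k ω.1.out mk u} =
      Nat.card {ω : Om S (Der (8 * k) M j) β //
        InB k (bs (ym mk)) (em mk) (bact H (8 * k) ω.1.out u)} :=
    Nat.card_congr (Equiv.subtypeEquivRight fun ω => ⟨fun h => h.2, fun h => ⟨hu, h⟩⟩)
  have e2 : Nat.card {l // InC (bs (ym mk)) (cs k) l ∧ InB k (bs (ym mk)) (em mk) l} =
      Nat.card {l // InB k (bs (ym mk)) (em mk) l ∧ Gen l} :=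
    Nat.card_congr (Equiv.subtypeEquivRight fun l => ⟨fun h => ⟨h.2, (h.1.inO hb).2.1⟩, fun h =>
      ⟨hB _ _ h.1 (rowF1.2.1 H k (by omega) mk hm l h.1) h.2, h.1⟩⟩)
  rw [← e1, e2] at horb
  have hsp := card_split (InB k (bs (ym mk)) (em mk)) Gen
  generalize Nat.card {ω : Om S (Der (8 * k) M j) β // IsSol k ω.1.out mk u} = P at *
  generalize Nat.card (Om S (Der (8 * k) M j) β) = W at *
  generalize Nat.card {l // InC (bs (ym mk)) (cs k) l} = o at *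
  generalize Nat.card {l // InB k (bs (ym mk)) (em mk) l ∧ Gen l} = a' at *
  generalize Nat.card {l // InB k (bs (ym mk)) (em mk) l ∧ ¬ Gen l} = n at *
  generalize Nat.card {l // InB k (bs (ym mk)) (em mk) l} = a at *
  have hh : (0 : ℝ) < Nat.card H := by exact_mod_cast Nat.card_pos
  generalize Nat.card H = h at *
  have r1 : (P : ℝ) * o = W * a' := by exact_mod_cast horb
  have r2 : (a : ℝ) = a' + n := by exact_mod_cast hsp
  have r3 : (h : ℝ) ^ 4 * a = h ^ (4 * k) := by exact_mod_cast hA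
  have r4 : (h : ℝ) ^ (8 * k) = h ^ (4 * k + 4) * a := by
    rw [pow_add, mul_assoc, r3, ← pow_add]
    congr 1
    ring
  have hq : (0 : ℝ) < (h : ℝ) ^ (4 * k + 4) := pow_pos hh _
  refine arith (a := (h : ℝ) ^ (4 * k + 4) * a') hε hε1 h1 h2 (by positivity) (by positivity)
    (pow_pos hh (8 * k)) ho1 ho2 ?_ ?_ ?_
  · rw [r4]
    have : (1 - ε) * a ≤ a' := by linarith
    nlinarith [mul_le_mul_of_nonneg_left this hq.le]
  · rw [r4]
    have : (a' : ℝ) ≤ a := by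
      have : (0 : ℝ) ≤ n := by positivity
      linarith
    exact mul_le_mul_of_nonneg_left this hq.le
  · calc (h : ℝ) ^ (4 * k + 3) * P * (h * o) = h ^ (4 * k + 4) * (P * o) := by ring
      _ = _ := by rw [r1]; ring

/-- rows at the top that do not generate -/
theorem top_count (hU2 : RowU2) (m : ℕ) : ∃ k0, ∀ k ≥ k0, ∀ η : ℝ, 0 < η → All m fun H _ b =>
    (Nat.card {u // InT k b u ∧ ¬ Gen u} : ℝ) ≤ η * Nat.card {u // InT k b u} := by
  obtain ⟨k0, h⟩ := hU2 m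
  exact ⟨k0, fun k hk η hη => (h k hk η hη).mono fun _ _ _ _ _ _ h => h.2.2.2.2.2⟩

/-- pairs of rows at the top that do not generate the square -/
theorem pair_count (hU2 : RowU2) : ∃ k0, ∀ k ≥ k0, ∀ η : ℝ, 0 < η → ∃ p0, ∀ (p : ℕ) [Fact p.Prime],
    p0 ≤ p → ∀ b b' : Fin 8 → SLp p, OddB b → OddB b' → NGen b → NGen b' →
      (Nat.card {x : List (St 8 (SLp p)) × List (St 8 (SLp p)) //
        InT k b x.1 ∧ InT k b' x.2 ∧ ¬ Gen (zip2 x.1 x.2)} : ℝ) ≤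
          η * (Nat.card (SLp p) : ℝ) ^ (8 * k) := by
  obtain ⟨k0, h2⟩ := top_count hU2 (1 + 1)
  refine ⟨k0 + 1, fun k hk η hη => ?_⟩
  obtain ⟨p0, h2⟩ := h2 k (by omega) η hη
  refine ⟨p0 + 5, fun p _ hp0 b b' o o' n n' => ?_⟩
  have hp := (rowD1 p (by omega)).2.2.2.2.1
  obtain ⟨h1, -⟩ := rowB3 (SLp p × SLp p)
  obtain ⟨f1, -, f2⟩ := h1 k (by omega) (fun c => (b c, b' c)) 1
  have h3 := h2 p Fact.out (by omega) _ ((Pw.one p).prod (Pw.one p)) (fun c => (b c, b' c))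
    (fun c => Prod.ext (o c) (o' c)) (F5.ngen_prod hp hp n n')
  beta_reduce at h3
  rw [f2, Nat.card_prod, ← pow_two, ← pow_mul, ← mul_assoc, Nat.cast_pow] at h3
  refine le_trans (Nat.cast_le.2 ?_) h3
  have f3 : Finite {u // InT k (fun c => (b c, b' c)) u ∧ ¬ Gen u} :=
    RG.fin_mono f1 fun _ h => F5.inT_labs h.1
  refine Nat.card_le_card_of_injective
    (fun x => ⟨zip2 x.1.1 x.1.2, F5.inT_zip x.2.1 x.2.2.1, x.2.2.2⟩) fun x y e => ?_
  have e1 : zip2 x.1.1 x.1.2 = zip2 y.1.1 y.1.2 := congrArg Subtype.val e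
  have e2 := (F5.inT_labs x.2.1).2.trans (F5.inT_labs x.2.2.1).2.symm
  have e3 := (F5.inT_labs y.2.1).2.trans (F5.inT_labs y.2.2.1).2.symm
  exact Subtype.ext (Prod.ext (by rw [← zip2_fst (F5.len_of e2), e1, zip2_fst (F5.len_of e3)])
    (by rw [← zip2_snd e2, e1, zip2_snd e3]))

end GP

/-- one prime -/
def RowG2 : Prop :=
  ∃ δ : ℝ, 0 < δ ∧ δ < 1 ∧ ∀ j : ℕ, ∃ k0, ∀ k ≥ k0, ∃ p0, ∀ (p : ℕ) [Fact p.Prime], p0 ≤ p →
    p % 4 = 1 → ∀ M : ℕ, ¬ p ∣ M → p ^ 2 - 1 ∣ M →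
      ∀ (S : Subgroup (BraidGroup (8 * k))) [S.Normal] [S.FiniteIndex],
        S ≤ (bact (SLp p) (8 * k)).ker → ∀ β ∈ Tw (8 * k) 1, AM k β →
        (Nat.card {ω : Om S (Der (8 * k) M (j + 1)) β //
          NS k (SLp p) ω.1.out 2 = NS k (SLp p) ω.1.out (-2)} : ℝ) ≤
            (1 - δ) * Nat.card (Om S (Der (8 * k) M (j + 1)) β)

open RG GP in
theorem rowG2 (hU2 : RowU2) (hU3 : RowU3) : RowG2 := by
  have hB := rowB3
  have h1 := rowD1
  have h3 := rowD3 h1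
  have h4 := rowD4 h1 h3
  have hF1 := rowF1
  have hF3 := rowF3'
  have hF4 := rowF4 h1 rowF2
  have hF5 := rowF5
  obtain ⟨C4, h4c⟩ := h4.2
  obtain ⟨C6, p6, h6⟩ := rowD6 h1 h3 (rowD5 h1 h3)
  obtain ⟨C5, h5⟩ := rowD5 h1 h3
  obtain ⟨δ, η, hδ, hδ1, hη, hη1, hP⟩ := rowP (1 + 2 * C4 + 2 * C5 + 2 * C6) (by
    have : (0 : ℝ) ≤ 2 * C4 + 2 * C5 + 2 * C6 := by positivity
    linarith)
  obtain ⟨p7, hp7⟩ := exists_nat_ge (16 * C5 / δ)
  refine ⟨δ / 2, by positivity, by linarith, fun j => ?_⟩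
  obtain ⟨k1, g1⟩ := prob hU2 hU3 1 (j + 1)
  obtain ⟨k2, g2⟩ := prob hU2 hU3 (1 + 1) (j + 1)
  obtain ⟨k3, g3⟩ := prob hU2 hU3 (1 + 1 + 1) (j + 1)
  obtain ⟨k4, g4⟩ := top_count hU2 1
  obtain ⟨k5, g5⟩ := pair_count hU2
  refine ⟨1 + k1 + k2 + k3 + k4 + k5, fun k hk0 => ?_⟩
  have hk : 0 < k := by omega
  obtain ⟨p1, g1⟩ := g1 k (by omega) η hη
  obtain ⟨p2, g2⟩ := g2 k (by omega) η hη
  obtain ⟨p3, g3⟩ := g3 k (by omega) η hη
  obtain ⟨p4, g4⟩ := g4 k (by omega) (1 / 2) (by norm_num)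
  obtain ⟨p5, g5⟩ := g5 k (by omega) (η / (1 + 2 * C5) ^ 2) (by positivity)
  refine ⟨5 + p1 + p2 + p3 + p4 + p5 + p6 + p7, fun p _ hp0 hp4 M hM hM' S _ _ hS β hβ hA => ?_⟩
  have hp : 5 ≤ p := by omega
  obtain ⟨hng, hlo⟩ := h6 p (by omega)
  have hp7' : (16 * C5 : ℝ) ≤ p * δ := (div_le_iff₀ hδ).1 (hp7.trans
    (Nat.cast_le.2 (by omega)))
  obtain ⟨F, hF, hFc⟩ := h4c p hp
  have hperf := (h1 p hp).2.2.2.2.1
  have hZ : Nat.card (Subgroup.center (SLp p)) ≤ 2 := by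
    have : Nat.card (Subgroup.center (SLp p)) ≤ Nat.card ({1, -1} : Set (SLp p)) :=
      card_mono fun a ha => ((h1 p hp).2.1 a).1 ha
    exact this.trans (by
      rw [Nat.card_coe_set_eq]
      exact (Set.ncard_insert_le _ _).trans (by rw [Set.ncard_singleton]))
  have hpos : (0 : ℝ) < Nat.card (SLp p) := Nat.cast_pos.2 Nat.card_pos
  haveI : Nontrivial (SLp p) := by
    rw [← Finite.one_lt_card_iff_nontrivial, (h1 p hp).1]
    have : 25 ≤ p ^ 2 := Nat.pow_le_pow_left hp 2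
    calc 1 < 5 * 24 := by norm_num
      _ ≤ _ := Nat.mul_le_mul hp (by omega)
  have w1 := Pw.one p
  have g1 := g1 p Fact.out (by omega) hp4 M hM _ w1 S hS β hβ
  have g2 := g2 p Fact.out (by omega) hp4 M hM _ (w1.prod w1) S (ker_prod hS hS) β hβ
  have g3 := g3 p Fact.out (by omega) hp4 M hM _ ((w1.prod w1).prod w1) S
    (ker_prod (ker_prod hS hS) hS) β hβ
  have g4 := g4 p Fact.out (by omega) _ w1
  have g5 := g5 p (by omega)
  haveI := finVV (H := SLp p) hB hk Good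
  haveI := finVV (H := SLp p) hB hk fun m => ¬ Good m
  choose γ hγ hr using fun ω : Om S (Der (8 * k) M (j + 1)) β => om_rep hS ω
  have hs : ∀ (ω : Om S (Der (8 * k) M (j + 1)) β) (m : Mk (SLp p)) u,
      IsSol k ω.1.out m u ↔ IsSol k (β * γ ω) m u := fun ω m u => isSol_congr (by rw [hr]) m
  have ht : ∀ ω, β * γ ω ∈ Tw (8 * k) 1 := fun ω => mul_mem hβ (der_le _ _ _ (hγ ω))
  have hge : (Nat.card {m : Mk (SLp p) // Good m ∧ Eqn m} : ℝ) ≤
      2 * C5 * (Nat.card (SLp p) : ℝ) ^ 4 := by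
    have e : ∀ s : ℤ, s = 2 ∨ s = -2 → Nat.card {m : Mk (SLp p) // m.1 ^ s * lam m = 1 ∧ Good m} ≤
        C5 * Nat.card (SLp p) ^ 4 := fun s hs => (card_mono fun _ h => h.1).trans (h5 p hp s hs).1
    have := (card_eqn Good).trans (Nat.add_le_add (e 2 (Or.inl rfl)) (e _ (Or.inr rfl)))
    have : (Nat.card {m : Mk (SLp p) // Good m ∧ Eqn m} : ℝ) ≤
      C5 * (Nat.card (SLp p) : ℝ) ^ 4 + C5 * (Nat.card (SLp p) : ℝ) ^ 4 := by exact_mod_cast this
    linarith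
  have hbe : (p * Nat.card {m : Mk (SLp p) // ¬ Good m ∧ Eqn m} : ℝ) ≤
      2 * C5 * (Nat.card (SLp p) : ℝ) ^ 4 := by
    have := (Nat.mul_le_mul_left p (card_eqn fun m : Mk (SLp p) => ¬ Good m)).trans
      ((Nat.mul_add _ _ _).le.trans
        (Nat.add_le_add (h5 p hp 2 (Or.inl rfl)).2 (h5 p hp _ (Or.inr rfl)).2))
    have : (p * Nat.card {m : Mk (SLp p) // ¬ Good m ∧ Eqn m} : ℝ) ≤
      C5 * (Nat.card (SLp p) : ℝ) ^ 4 + C5 * (Nat.card (SLp p) : ℝ) ^ 4 := by exact_mod_cast this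
    linarith
  have hlo' : (Nat.card (SLp p) : ℝ) ^ 4 ≤
      C6 * Nat.card {m : Mk (SLp p) // Good m ∧ Eqn m} := by
    exact_mod_cast hlo.trans (Nat.mul_le_mul_left _ (card_mono
      (Q := fun m => Good m ∧ Eqn m) fun _ h => ⟨h.2, Or.inl h.1⟩))
  have hvlo : (Nat.card {m : Mk (SLp p) // Good m ∧ Eqn m} : ℝ) *
      (1 / 2 * (Nat.card (SLp p) : ℝ) ^ (4 * k)) ≤ Nat.card (VV (SLp p) k Good) :=
    le_pair (fun m => Good m ∧ Eqn m) (TG k) (finTG hB hk) _ fun m hm => by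
      haveI := finT hB hk (bs (ym m))
      have e1 := g4 _ (oddB_bs _) (hng m hm.1)
      beta_reduce at e1
      have e2 := card_split (InT k (bs (ym m))) Gen
      rw [((hB _).1 k hk _ fun _ => 1).2.2] at e1 e2
      have e3 : ((Nat.card (SLp p) : ℝ)) ^ (4 * k) = Nat.card {u // TG k m u} +
        Nat.card {u // InT k (bs (ym m)) u ∧ ¬ Gen u} := by exact_mod_cast e2
      push_cast at e1
      linarith
  have hvhi := card_VV_le (H := SLp p) hB hk Good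
  have hwhi := card_VV_le (H := SLp p) hB hk fun m => ¬ Good m
  have hrel := rel_le (H := SLp p) hB hk _ fun m m' hm hm' =>
    g5 _ _ (oddB_bs _) (oddB_bs _) (hng m hm) (hng m' hm')
  have hmk := markov (fun (w : VV (SLp p) k fun m => ¬ Good m)
      (ω : Om S (Der (8 * k) M (j + 1)) β) => IsSol k ω.1.out w.1.1 w.1.2)
    (fun ω => ∃ w : VV (SLp p) k fun m => ¬ Good m, IsSol k ω.1.out w.1.1 w.1.2)
    (Nat.card (SLp p) / 2)
    (2 * Nat.card (Om S (Der (8 * k) M (j + 1)) β) / (Nat.card (SLp p) : ℝ) ^ (4 * k + 3))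
    (fun ω ⟨w, hw⟩ => by
      have := (orbit_ge hB hF5 hk hZ _ (fun _ _ e => mt e.1) _ w hw).trans
        (Nat.mul_le_mul_left _ (card_mono fun _ h => h.2))
      rw [div_le_iff₀' two_pos]
      exact_mod_cast this)
    fun w => by
      rw [le_div_iff₀' (by positivity)]
      refine (g1 _ _ w.2.1.2.comm w.2.2.1 w.2.2.2).2.trans ?_
      gcongr
      linarith
  have hmain := hP (Om S (Der (8 * k) M (j + 1)) β) (VV (SLp p) k Good)
    (fun v ω => IsSol k ω.1.out v.1.1 v.1.2) (fun v => v.1.1.1 ^ (2 : ℤ) * lam v.1.1 = 1)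
    (fun v v' => ¬ Gen (zip2 v.1.2 v'.1.2)) (Nat.card (SLp p))
    ((Nat.card (SLp p) : ℝ) ^ (4 * k + 3)) hpos (by positivity)
    (fun v => g1 _ _ v.2.1.2.comm v.2.2.1 v.2.2.2)
    (fun v v' h => prob_two hF5 g2 v v' (not_not.1 h))
    (fun v v' v'' h h' h'' =>
      prob_three hF5 hperf g3 v v' v'' (not_not.1 h) (not_not.1 h') (not_not.1 h''))
    (fun v ω hv => ⟨by exact_mod_cast orbit_ge hB hF5 hk hZ _ (fun _ _ e => e.2) _ v hv, by
      have e := (partners_le hB hF3 hk hZ hF (ht ω) v ((hs _ _ _).1 hv)).trans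
        (Nat.mul_le_mul_left _ hFc)
      simp only [hs]
      refine (Nat.cast_le.2 e).trans ?_
      push_cast
      rw [← mul_assoc]
      gcongr
      have : (0 : ℝ) ≤ 1 + 2 * C5 + 2 * C6 := by positivity
      linarith⟩)
    (fun v v' ω hv hv' h =>
      same_sign hF3 hF5 hk hZ hF (ht ω) v v' ((hs _ _ _).1 hv) ((hs _ _ _).1 hv') h)
    (by
      calc _ = (Nat.card (SLp p) : ℝ) ^ 4 * (Nat.card (SLp p) : ℝ) ^ (4 * k) := by ring
        _ ≤ C6 * Nat.card {m : Mk (SLp p) // Good m ∧ Eqn m} *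
            (Nat.card (SLp p) : ℝ) ^ (4 * k) := by gcongr
        _ = 2 * C6 * (Nat.card {m : Mk (SLp p) // Good m ∧ Eqn m} *
            (1 / 2 * (Nat.card (SLp p) : ℝ) ^ (4 * k))) := by ring
        _ ≤ _ := by
          gcongr
          have : (0 : ℝ) ≤ 1 + 2 * C4 + 2 * C5 := by positivity
          linarith)
    (by
      calc _ ≤ 2 * C5 * (Nat.card (SLp p) : ℝ) ^ 4 * (Nat.card (SLp p) : ℝ) ^ (4 * k) :=
            hvhi.trans (by gcongr)
        _ = 2 * C5 * (Nat.card (SLp p) * (Nat.card (SLp p) : ℝ) ^ (4 * k + 3)) := by ring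
        _ ≤ _ := by
          gcongr
          have : (0 : ℝ) ≤ 1 + 2 * C4 + 2 * C6 := by positivity
          linarith)
    (by
      calc _ ≤ ((1 + 2 * C5) * (Nat.card (SLp p) : ℝ) ^ 4) ^ 2 *
            (η / (1 + 2 * C5) ^ 2 * (Nat.card (SLp p) : ℝ) ^ (8 * k)) := by
            refine hrel.trans ?_
            gcongr
            refine hge.trans ?_
            gcongr
            linarith
        _ = _ := by field_simp; ring)
    ((Nat.card {x : Mk (SLp p) × List (St 8 (SLp p)) //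
        (x.1.1 ^ (-2 : ℤ) * lam x.1 = 1 ∧ IsSol k β x.1 x.2) ∧ ¬ Gen x.2} : ℤ) -
      Nat.card {x : Mk (SLp p) × List (St 8 (SLp p)) //
        (x.1.1 ^ (2 : ℤ) * lam x.1 = 1 ∧ IsSol k β x.1 x.2) ∧ ¬ Gen x.2})
  have hbad : (Nat.card {ω : Om S (Der (8 * k) M (j + 1)) β //
      ∃ w : VV (SLp p) k fun m => ¬ Good m, IsSol k ω.1.out w.1.1 w.1.2} : ℝ) ≤
      δ / 2 * Nat.card (Om S (Der (8 * k) M (j + 1)) β) := by
    have hp' : (0 : ℝ) < p := by exact_mod_cast (by omega : 0 < p)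
    have e1 : (Nat.card (VV (SLp p) k fun m => ¬ Good m) : ℝ) ≤
        δ / 8 * (Nat.card (SLp p) : ℝ) ^ 4 * (Nat.card (SLp p) : ℝ) ^ (4 * k) := by
      refine hwhi.trans ?_
      gcongr
      refine le_of_mul_le_mul_left (hbe.trans ?_) hp'
      rw [← mul_assoc]
      exact mul_le_mul_of_nonneg_right (by linarith) (by positivity)
    refine le_of_mul_le_mul_right (hmk.trans ?_) (half_pos hpos)
    calc _ ≤ δ / 8 * (Nat.card (SLp p) : ℝ) ^ 4 * (Nat.card (SLp p) : ℝ) ^ (4 * k) *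
          (2 * Nat.card (Om S (Der (8 * k) M (j + 1)) β) /
            (Nat.card (SLp p) : ℝ) ^ (4 * k + 3)) := by gcongr
      _ = _ := by field_simp; ring
  have hsum := add_le_add hmain hbad
  rw [← Nat.cast_add] at hsum
  refine le_trans (Nat.cast_le.2 ((card_mono fun ω h => ?_).trans (card_or _ _)))
    (hsum.trans_eq (by ring))
  refine or_iff_not_imp_right.2 fun hb => ?_
  have hrg : ∀ (m : Mk (SLp p)) u, Commute m.1 (lam m) → ¬ Gen u →
      (IsSol k ω.1.out m u ↔ IsSol k β m u) := fun m u hc hu =>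
    (hs ω m u).trans (rigid h1 hF1 hF4 hp hk hM' hβ hA (hγ ω) m u hc hu)
  rw [ns_eq hB hk hrg (not_exists.1 hb) 2 (Or.inl rfl) _ fun _ => Iff.rfl,
    ns_eq hB hk hrg (not_exists.1 hb) (-2) (Or.inr rfl)
      (fun v => ¬ v.1.1.1 ^ (2 : ℤ) * lam v.1.1 = 1)
      fun v => Iff.intro v.2.1.2.resolve_left fun e e' => not_both v.2.1.1 e' e] at h
  omega

end Vale.Agent.Q258E
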