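import Vale.Agent.Q258E.GP
import Vale.Agent.Q258D.Fin

/-!
# Many primes, and the topological theorem
-/

set_option linter.all false

namespace Vale.Agent.Q258E

open Vale.Agent.P258.Braid Vale.Agent.N258B Vale.Agent.Q258D Topology

/-- many primes -/
def RowH2 : Prop :=
  ∀ j : ℕ, ∃ k0, ∀ k ≥ k0, ∀ M : ℕ, 0 < M → ∀ ε : ℝ, 0 < ε →
    ∃ S : Subgroup (BraidGroup (8 * k)), S.Normal ∧ S.FiniteIndex ∧
      ∀ β ∈ Tw (8 * k) 1, AM k β →
        (Nat.card {q : BraidGroup (8 * k) ⧸ S // ∃ γ ∈ Der (8 * k) M (j + 1),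
          (∀ (G : Type) [Group G] [Finite G], NS k G (β * γ) 2 = NS k G (β * γ) (-2)) ∧
          ((β * γ : BraidGroup (8 * k)) : _ ⧸ S) = q} : ℝ) ≤
            ε * Nat.card (Om S (Der (8 * k) M (j + 1)) β)

/-- the statement for several primes -/
def Cl (k M j : ℕ) (c : ℝ) : Prop :=
  ∃ L, 0 < L ∧ M ∣ L ∧ ∃ (S0 : Subgroup (BraidGroup (8 * k))) (P : BraidGroup (8 * k) → Prop),
    S0.Normal ∧ S0.FiniteIndex ∧
    (∀ β, (∀ (G : Type) [Group G] [Finite G], NS k G β 2 = NS k G β (-2)) → P β) ∧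
    (∀ β, ∀ s ∈ S0, P (β * s) ↔ P β) ∧ (∀ β, ∀ g ∈ Tw (8 * k) L, P (β * g) ↔ P β) ∧
    ∀ (S : Subgroup (BraidGroup (8 * k))) [S.Normal] [S.FiniteIndex], S ≤ S0 →
      ∀ β ∈ Tw (8 * k) 1, AM k β →
        (Nat.card {ω : Om S (Der (8 * k) M (j + 1)) β // P ω.1.out} : ℝ) ≤
          c * Nat.card (Om S (Der (8 * k) M (j + 1)) β)

open RH in
theorem rowH2 (hG : RowG2) : RowH2 := by
  have hF1 := rowF1
  obtain ⟨δ, d0, d1, hG⟩ := hG
  intro j
  obtain ⟨k0, hG⟩ := hG j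
  refine ⟨k0, fun k hk M hM ε hε => ?_⟩
  obtain ⟨p0, hG⟩ := hG k hk
  have key : ∀ n : ℕ, Cl k M j ((1 - δ) ^ n) := by
    intro n
    induction n with
    | zero =>
      refine ⟨M, hM, dvd_rfl, ⊤, fun _ => True, inferInstance, inferInstance,
        fun _ _ => trivial, fun _ _ _ => Iff.rfl, fun _ _ _ => Iff.rfl, fun S _ _ _ β _ _ => ?_⟩
      rw [pow_zero, one_mul]
      exact (Nat.cast_inj.2 (Nat.card_congr (Equiv.subtypeUnivEquiv fun _ => trivial))).le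
    | succ n ih =>
      obtain ⟨L, L0, ML, S0, P, hS1, hS2, i1, i2, i3, i4⟩ := ih
      obtain ⟨p, hp, hlt, h4⟩ := Nat.exists_prime_gt_modEq_one (k := 4) (L + p0) (by norm_num)
      have : Fact p.Prime := ⟨hp⟩
      have nd : ¬ p ∣ L * (p ^ 2 - 1) := by
        intro h
        rcases (Nat.Prime.dvd_mul hp).1 h with h | h
        · have := Nat.le_of_dvd L0 h
          omega
        · have h2 : p ∣ p ^ 2 := dvd_pow_self p (by norm_num)
          have h3 : 1 ≤ p ^ 2 := Nat.one_le_pow _ _ hp.pos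
          have h5 := Nat.dvd_sub h2 h
          rw [Nat.sub_sub_self h3] at h5
          exact hp.one_lt.ne' (Nat.dvd_one.1 h5)
      have hk1 := hG p (by omega) h4 (L * (p ^ 2 - 1)) nd (Dvd.intro_left _ rfl)
      have := bact_ker_finiteIndex (SLp p) (8 * k)
      refine ⟨L * Nat.card (SLp p), Nat.mul_pos L0 Nat.card_pos, ML.mul_right _,
        S0 ⊓ (bact (SLp p) (8 * k)).ker,
        fun β => P β ∧ NS k (SLp p) β 2 = NS k (SLp p) β (-2), inferInstance, inferInstance,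
        fun β h => ⟨i1 β h, h _⟩, fun β s hs => ?_, fun β g hg => ?_,
        fun S _ _ hS' β hβ hA => ?_⟩
      · beta_reduce
        rw [i2 β s hs.1, ns_ker β hs.2, ns_ker β hs.2]
      · have h2 := tw_ker hF1 (SLp p) _ (tw_mono _ (Dvd.intro_left L rfl) hg)
        beta_reduce
        rw [i3 β g (tw_mono _ (Dvd.intro _ rfl) hg), ns_ker β h2, ns_ker β h2]
      · have h1 := step (S := S) (der_mono (8 * k) (ML.mul_right (p ^ 2 - 1)) (j + 1)) (P := P)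
          (Bd := fun β => NS k (SLp p) β 2 = NS k (SLp p) β (-2)) (β := β) (c := 1 - δ)
          (fun β s hs => i2 β s (hS' hs).1)
          (fun β g hg => i3 β g (tw_mono _ (Dvd.intro _ rfl) (der_le_tw _ _ _ hg)))
          fun γ hγ => hk1 S (fun s hs => (hS' hs).2) _
            ((Tw _ 1).mul_mem hβ (der_le _ _ _ hγ))
            (hF1.2.2.2.1 k β γ (der_succ_le _ _ _ hγ) hA)
        have h2 := i4 S (fun s hs => (hS' hs).1) β hβ hA
        refine h1.trans ?_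
        rw [pow_succ', mul_assoc]
        exact mul_le_mul_of_nonneg_left h2 (by linarith)
  obtain ⟨n, hn⟩ := exists_pow_lt_of_lt_one hε (show 1 - δ < 1 by linarith)
  obtain ⟨L, -, -, S0, P, hS1, hS2, i1, i2, -, i4⟩ := key n
  refine ⟨S0, hS1, hS2, fun β hβ hA => ?_⟩
  have h2 := i4 S0 le_rfl β hβ hA
  rw [card_om _ _ β fun q => P q.out] at h2
  refine le_trans (le_trans ?_ h2) (mul_le_mul_of_nonneg_right hn.le (Nat.cast_nonneg _))
  refine Nat.cast_le.2 (Nat.card_le_card_of_injective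
    (Subtype.map id ?_) (Subtype.map_injective _ Function.injective_id))
  rintro _ ⟨γ, hγ, h, rfl⟩
  exact ⟨⟨γ, hγ, rfl⟩, (out_iff i2 _).2 (i1 _ h)⟩

theorem pure_of {N : ℕ} {w : Word} (h : InCoset (Tw N 1) [] w) : toBraid N w ∈ Tw N 1 := by
  have := h.2
  rwa [show toBraid N [] = 1 from rfl, inv_one, one_mul] at this

theorem pure_to {N : ℕ} {w : Word} (h : ∀ x ∈ w, x.1 + 1 < N) (h' : toBraid N w ∈ Tw N 1) :
    InCoset (Tw N 1) [] w :=
  ⟨h, by rwa [show toBraid N [] = 1 from rfl, inv_one, one_mul]⟩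

theorem alex_nil (h1 : RowE1) {k : ℕ} (hk0 : 0 < k) : ForSome k [] Alex := by
  have h3 := rowE3 h1
  have h2 := rowE2 h1 h3
  obtain ⟨c, hc⟩ := exists_chart
  have he := hc.comp (isOpen_pattern (8 * k) 0 (surf k [])).isOpenEmbedding_subtypeVal
  have h := h2 k hk0 [] (by simp) (one_mem _) (c ∘ Subtype.val)
  obtain ⟨ν, hν⟩ := h.1 he
  exact ⟨_, ν, hν, (h.2 ν hν).1.2 (h3 k hk0).2⟩

theorem alex_coset (h1 : RowE1) {k : ℕ} (hk0 : 0 < k) (M j : ℕ) {w0 w : Word}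
    (hw0 : InCoset (Tw (8 * k) 1) [] w0) (h0 : ForSome k w0 Alex)
    (hw : InCoset (Der (8 * k) M (j + 1)) w0 w) : ForAll k w Alex := by
  have h3 := rowE3 h1
  have h2 := rowE2 h1 h3
  obtain ⟨e0, ν0, f0, g0⟩ := h0
  have p0 := pure_of hw0
  have a0 := ((h2 k hk0 w0 hw0.1 p0 e0).2 ν0 f0).1.1 g0
  have pw : toBraid (8 * k) w ∈ Tw (8 * k) 1 := by simpa using mul_mem p0 (der_le _ _ _ hw.2)
  refine fun e => ⟨(h2 k hk0 w hw.1 pw e).1, fun ν hν => ((h2 k hk0 w hw.1 pw e).2 ν hν).1.2 ?_⟩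
  simpa using rowF1.2.2.2.1 k _ _ (der_succ_le _ _ _ hw.2) a0

theorem some_of_all {k : ℕ} {w : Word} {P : (Circle × ℂ → S3) → Prop} (h : ForAll k w P) :
    ForSome k w P := by
  obtain ⟨c, hc⟩ := exists_chart
  have he := hc.comp (isOpen_pattern (8 * k) 0 (surf k w)).isOpenEmbedding_subtypeVal
  obtain ⟨ν, hν⟩ := (h (c ∘ Subtype.val)).1 he
  exact ⟨_, ν, hν, (h _).2 ν hν⟩

/-- the count of cosets -/
theorem coset_count (h1 : RowE1) (hH : RowH2) (j : ℕ) :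
    ∃ k0, ∀ k ≥ k0, ∀ M : ℕ, 0 < M → ∀ ε : ℝ, 0 < ε →
      ∃ S : Subgroup (BraidGroup (8 * k)), S.Normal ∧ S.FiniteIndex ∧
      ∀ w0 : Word, InCoset (Tw (8 * k) 1) [] w0 → ForSome k w0 Alex →
        (cosets S (Der (8 * k) M (j + 1)) w0 fun w => ForSome k w Bad : ℝ) ≤
          ε * cosets S (Der (8 * k) M (j + 1)) w0 fun _ => True := by
  have h3 := rowE3 h1
  have h2 := rowE2 h1 h3
  obtain ⟨k0, hH⟩ := hH j
  refine ⟨k0 + 1, fun k hk M hM ε hε => ?_⟩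
  have hk0 : 0 < k := by omega
  obtain ⟨S, s1, s2, hS⟩ := hH k (by omega) M hM ε hε
  refine ⟨S, s1, s2, fun w0 hw0 ⟨e0, ν0, f0, g0⟩ => ?_⟩
  have p0 := pure_of hw0
  have a0 := ((h2 k hk0 w0 hw0.1 p0 e0).2 ν0 f0).1.1 g0
  have pw : ∀ w, InCoset (Der (8 * k) M (j + 1)) w0 w → toBraid (8 * k) w ∈ Tw (8 * k) 1 :=
    fun w hw => by simpa using mul_mem p0 (der_le _ _ _ hw.2)
  rw [cosets_true]
  refine le_trans (Nat.cast_le.2 (RG.card_mono ?_)) (hS _ p0 a0)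
  rintro q ⟨w, hw, ⟨e, ν, hν, hd⟩, rfl⟩
  refine ⟨_, hw.2, fun G _ _ => ?_, by rw [mul_inv_cancel_left]⟩
  rw [mul_inv_cancel_left]
  exact by_contra fun h => hd (((h2 k hk0 w hw.1 (pw w hw) e).2 ν hν).2 G h)

theorem words_eq (N n : ℕ) (P : Word → Prop) :
    words N n P = wds N n fun w => toBraid N w ∈ Tw N 1 ∧ P w :=
  Nat.card_congr (Equiv.subtypeEquivRight fun w =>
    ⟨fun h => ⟨h.1, h.2.1.1, pure_of h.2.1, h.2.2⟩,
      fun h => ⟨h.1, pure_to h.2.1 h.2.2.1, h.2.2.2⟩⟩)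

theorem fin_wds (N n : ℕ) (P : Word → Prop) :
    Finite {w : Word // w.length = n ∧ (∀ x ∈ w, x.1 + 1 < N) ∧ P w} := by
  have h1 : Finite {l : List (Fin N × Bool) // l.length = n} :=
    (inferInstance : Finite (List.Vector (Fin N × Bool) n))
  refine RG.fin_mono (Q := fun w : Word => ∃ l : List (Fin N × Bool), l.length = n ∧
    l.map (fun x => (x.1.val, x.2)) = w) ?_ fun w h => ?_
  · exact Finite.of_surjective (fun l : {l : List (Fin N × Bool) // l.length = n} =>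
      (⟨_, l.1, l.2, rfl⟩ : {w : Word // ∃ l : List (Fin N × Bool), l.length = n ∧
        l.map (fun x => (x.1.val, x.2)) = w})) fun ⟨_, l, h, rfl⟩ => ⟨⟨l, h⟩, rfl⟩
  · refine ⟨w.pmap (fun x hx => (⟨x.1, hx⟩, x.2)) fun x hx => Nat.lt_of_succ_lt (h.2.1 x hx),
      by rw [List.length_pmap, h.1], ?_⟩
    rw [List.map_pmap]
    simp

theorem wds_mono (N n : ℕ) {P Q : Word → Prop} (h : ∀ w, (∀ x ∈ w, x.1 + 1 < N) → P w → Q w) :
    wds N n P ≤ wds N n Q := by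
  haveI := fin_wds N n Q
  exact RG.card_mono fun w hw => ⟨hw.1, hw.2.1, h w hw.2.1 hw.2.2⟩

end Vale.Agent.Q258E
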