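import Vale.Agent.Q258E.Rows
import Vale.Agent.Q258D.D3

/-!
# Row Or: powers of elements of `SL(2, p)` are rarely central
-/

namespace Vale.Agent.Q258E

open Vale.Agent.Q258D

namespace Or

open Finset Polynomial D1 D3
open scoped MatrixGroups

/-- Exponents giving central quotients are far apart. -/
theorem spaced {G : Type} [Group G] (y : G) {D E : ℕ} (hE : y ^ E = 1)
    (hy : ∀ d, 0 < d → d ≤ D → y ^ d ∉ Subgroup.center G) (c : G) :
    (D + 1) * Nat.card {e : Fin E // c * y ^ e.val ∈ Subgroup.center G} ≤ 2 * E := by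
  rcases E.eq_zero_or_pos with rfl | h0
  · simp
  have h1 : D + 1 ≤ E := by
    by_contra h
    exact hy E h0 (by omega) (hE ▸ one_mem _)
  have key : ∀ e e' : ℕ, c * y ^ e ∈ Subgroup.center G → c * y ^ e' ∈ Subgroup.center G →
      e / (D + 1) = e' / (D + 1) → ¬ e < e' := fun e e' h h' h2 h3 => by
    obtain ⟨d, rfl⟩ := Nat.exists_eq_add_of_le h3.le
    have h4 := Nat.div_add_mod e (D + 1)
    have h5 := Nat.div_add_mod (e + d) (D + 1)
    have h6 : (e + d) % (D + 1) < D + 1 := Nat.mod_lt _ D.succ_pos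
    rw [← h2] at h5
    refine hy d (by omega) (by omega) ?_
    have h7 := mul_mem (inv_mem h) h'
    rwa [show (c * y ^ e)⁻¹ * (c * y ^ (e + d)) = y ^ d by rw [pow_add]; group] at h7
  have h2 : Nat.card {e : Fin E // c * y ^ e.val ∈ Subgroup.center G} ≤
      Nat.card (Fin (E / (D + 1) + 1)) :=
    Nat.card_le_card_of_injective (fun e => ⟨e.1.val / (D + 1),
      Nat.lt_succ_of_le (Nat.div_le_div_right e.1.2.le)⟩) fun e e' h => by
      have h3 : e.1.val / (D + 1) = e'.1.val / (D + 1) := congrArg Fin.val h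
      have h4 := key _ _ e.2 e'.2 h3
      have h5 := key _ _ e'.2 e.2 h3.symm
      exact Subtype.ext (Fin.ext (by omega))
  rw [Nat.card_fin] at h2
  have h3 := Nat.mul_div_le E (D + 1)
  nlinarith

variable {F : Type} [Field F]

/-- Cayley-Hamilton for powers. -/
theorem pow_eq (d : ℕ) : ∃ f g : F[X], f.Monic ∧ f.natDegree = d ∧ g.natDegree ≤ d ∧
    ∀ y : SL(2, F), ∀ t, t = y.1 0 0 + y.1 1 1 →
      (y ^ (d + 1)).1 0 0 = f.eval t * y.1 0 0 - g.eval t ∧
      (y ^ (d + 1)).1 0 1 = f.eval t * y.1 0 1 ∧ (y ^ (d + 1)).1 1 0 = f.eval t * y.1 1 0 ∧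
      (y ^ (d + 1)).1 1 1 = f.eval t * y.1 1 1 - g.eval t := by
  induction d with
  | zero => exact ⟨1, 0, monic_one, by simp, by simp, fun y t _ => by simp⟩
  | succ d ih =>
    obtain ⟨f, g, h1, h2, h3, h4⟩ := ih
    have h5 : (X * f).natDegree = d + 1 := by rw [natDegree_X_mul h1.ne_zero, h2]
    have h6 : g.natDegree < (X * f).natDegree := by omega
    refine ⟨X * f - g, f, (monic_X.mul h1).sub_of_left (degree_lt_degree h6),
      (natDegree_sub_eq_left_of_natDegree_lt h6).trans h5, by omega, fun y t ht => ?_⟩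
    obtain ⟨e1, e2, e3, e4⟩ := h4 y t ht
    have h7 := det2 y
    simp only [pow_succ y (d + 1), mul2, e1, e2, e3, e4, eval_sub, eval_mul, eval_X]
    refine ⟨?_, ?_, ?_, ?_⟩
    · linear_combination (-f.eval t) * h7 - f.eval t * y.1 0 0 * ht
    · linear_combination (-f.eval t * y.1 0 1) * ht
    · linear_combination (-f.eval t * y.1 1 0) * ht
    · linear_combination (-f.eval t) * h7 - f.eval t * y.1 1 1 * ht

/-- The traces of the noncentral elements with a small central power. -/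
theorem traces (D : ℕ) : ∃ T : Finset F, T.card ≤ D * D ∧ ∀ y : SL(2, F),
    y ∉ Subgroup.center SL(2, F) → ∀ d, 0 < d → d ≤ D → y ^ d ∈ Subgroup.center SL(2, F) →
      y.1 0 0 + y.1 1 1 ∈ T := by
  classical
  choose f g h1 h2 _ h4 using pow_eq (F := F)
  refine ⟨(range D).biUnion fun d => (f d).roots.toFinset, ?_, fun y hy d h0 hd h => ?_⟩
  · refine (card_biUnion_le_card_mul _ _ D fun d hd => ?_).trans (by simp)
    exact (Multiset.toFinset_card_le _).trans ((card_roots' _).trans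
      ((h2 d).le.trans (mem_range.1 hd).le))
  · obtain ⟨d, rfl⟩ := Nat.exists_eq_succ_of_ne_zero h0.ne'
    refine mem_biUnion.2 ⟨d, mem_range.2 hd, ?_⟩
    rw [Multiset.mem_toFinset, mem_roots (h1 d).ne_zero]
    by_contra h5
    obtain ⟨e1, e2, e3, e4⟩ := h4 d y _ rfl
    have h6 : (y ^ (d + 1)).1 0 1 = 0 ∧ (y ^ (d + 1)).1 1 0 = 0 ∧
        (y ^ (d + 1)).1 1 1 = (y ^ (d + 1)).1 0 0 := by
      rcases (center_iff _).1 h with h | h <;> rw [h] <;> simp
    refine hy (central_of (mul_left_cancel₀ h5 ?_) (mul_left_cancel₀ h5 ?_)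
      (mul_left_cancel₀ h5 ?_))
    · rw [← e2, h6.1, mul_zero]
    · rw [← e3, h6.2.1, mul_zero]
    · linear_combination e1 - e4 + h6.2.2

/-- Few elements have a small central power. -/
theorem few (p : ℕ) [Fact p.Prime] (hp : 5 ≤ p) (D : ℕ) :
    Nat.card {y : SLp p // ∃ d, 0 < d ∧ d ≤ D ∧ y ^ d ∈ Subgroup.center (SLp p)} ≤
      2 + 2 * p ^ 2 * (D * D) := by
  classical
  obtain ⟨T, h1, h2⟩ := traces (F := ZMod p) D
  have h3 := card_le_fib (fun y : SLp p => trc y ∈ T) (fun t => t ∈ T) trc (2 * p ^ 2)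
    (fun _ h => h) fun t _ => (card_mono fun _ h => h.2).trans ((rowD3 rowD1 p hp).1 t)
  have h4 := card_center (F := ZMod p)
  have h5 : Nat.card {t // t ∈ T} = T.card := by simp
  rw [h5] at h3
  simp only [Nat.card_eq_fintype_card, Fintype.card_subtype] at h3 h4 ⊢
  refine le_trans (card_le_card (t := univ.filter (· ∈ Subgroup.center (SLp p)) ∪
    univ.filter (trc · ∈ T)) fun y hy => ?_) ((card_union_le _ _).trans
      (add_le_add h4 (h3.trans (Nat.mul_le_mul_left _ h1))))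
  obtain ⟨d, h6, h7, h8⟩ := (mem_filter.1 hy).2
  by_cases c : y ∈ Subgroup.center (SLp p)
  · simp [c]
  · exact mem_union_right _ (mem_filter.2 ⟨mem_univ _, h2 y c d h6 h7 h8⟩)

/-- Counting pairs. -/
theorem pairs {G S : Type} [Finite G] [Finite S] (P : G × S → Prop) (B : G → Prop) (k m : ℕ)
    (h : ∀ y, ¬ B y → k * Nat.card {s // P (y, s)} ≤ m) :
    k * Nat.card {x // P x} ≤ m * Nat.card G + k * Nat.card S * Nat.card {y // B y} := by
  classical
  have := Fintype.ofFinite G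
  have := Fintype.ofFinite S
  simp only [Nat.card_eq_fintype_card, Fintype.card_subtype] at h ⊢
  calc k * (univ.filter P).card = ∑ y, k * (univ.filter fun s => P (y, s)).card := by
        simp only [card_filter, ← mul_sum]
        rw [Fintype.sum_prod_type]
    _ ≤ ∑ y, (m + if B y then k * Fintype.card S else 0) := sum_le_sum fun y _ => by
        split_ifs with c
        · exact (Nat.mul_le_mul_left _ (card_le_univ _)).trans (Nat.le_add_left _ _)
        · exact h y c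
    _ = _ := by
        rw [sum_add_distrib, ← sum_filter]
        simp [mul_comm]

theorem arith {p D N b g E : ℕ} (h1 : p ≤ (D + 1) ^ 3) (h2 : D ^ 3 < p) (h3 : 0 < D)
    (h4 : (D + 1) * N ≤ 2 * E * g + (D + 1) * E * b) (h5 : b ≤ 2 + 2 * p ^ 2 * (D * D))
    (hp : 5 ≤ p) (hg : g = p * (p ^ 2 - 1)) : p * N ^ 3 ≤ 5832 * (g * E) ^ 3 := by
  have h6 : p ^ 3 ≤ 2 * g := by
    have : 25 ≤ p ^ 2 := by nlinarith
    obtain ⟨q, hq⟩ : ∃ q, p ^ 2 = q + 1 := ⟨p ^ 2 - 1, by omega⟩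
    rw [hg, pow_succ p 2, hq, Nat.add_sub_cancel]
    nlinarith [Nat.mul_le_mul_left p (show q + 1 ≤ 2 * q by omega)]
  have h7 : b ≤ 4 * p ^ 2 * (D * D) := by
    have : 0 < p ^ 2 * (D * D) := by positivity
    nlinarith
  have h8 : (D + 1) * b ≤ 16 * g :=
    calc (D + 1) * b ≤ (2 * D) * (4 * p ^ 2 * (D * D)) := Nat.mul_le_mul (by omega) h7
      _ = 8 * p ^ 2 * D ^ 3 := by ring
      _ ≤ 8 * p ^ 2 * p := Nat.mul_le_mul_left _ h2.le
      _ = 8 * p ^ 3 := by ring
      _ ≤ 16 * g := by omega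
  have h9 : (D + 1) * N ≤ 18 * (g * E) := by nlinarith [Nat.mul_le_mul_left E h8]
  calc p * N ^ 3 ≤ (D + 1) ^ 3 * N ^ 3 := Nat.mul_le_mul_right _ h1
    _ = ((D + 1) * N) ^ 3 := by ring
    _ ≤ (18 * (g * E)) ^ 3 := Nat.pow_le_pow_left h9 3
    _ = _ := by ring

theorem exists_root {p : ℕ} (hp : 5 ≤ p) : ∃ D : ℕ, p ≤ (D + 1) ^ 3 ∧ D ^ 3 < p ∧ 0 < D := by
  have hex : ∃ D : ℕ, p ≤ (D + 1) ^ 3 := ⟨p, (Nat.le_succ p).trans (Nat.le_self_pow (by omega) _)⟩
  have h1 := Nat.find_spec hex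
  rcases h : Nat.find hex with _ | D
  · rw [h] at h1
    omega
  · exact ⟨D + 1, h ▸ h1, not_le.1 (Nat.find_min hex (by omega)), D.succ_pos⟩

theorem count {G : Type} [Group G] [Finite G] {E : ℕ} (hE : ∀ y : G, y ^ E = 1) (a D : ℕ) :
    (D + 1) * Nat.card {x : G × Fin E // (x.1 ^ a)⁻¹ * x.1 ^ x.2.val ∈ Subgroup.center G} ≤
      2 * E * Nat.card G + (D + 1) * E *
        Nat.card {y : G // ∃ d, 0 < d ∧ d ≤ D ∧ y ^ d ∈ Subgroup.center G} := by
  have h4 := pairs (fun x : G × Fin E => (x.1 ^ a)⁻¹ * x.1 ^ x.2.val ∈ Subgroup.center G)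
    (fun y => ∃ d, 0 < d ∧ d ≤ D ∧ y ^ d ∈ Subgroup.center G) (D + 1) (2 * E) fun y hy =>
      spaced y (hE y) (fun d h h' h'' => hy ⟨d, h, h', h''⟩) (y ^ a)⁻¹
  rwa [Nat.card_fin] at h4

end Or

theorem rowOr : RowOr := by
  refine ⟨5832, fun p _ hp E hE a => ?_⟩
  obtain ⟨D, h1, h2, h3⟩ := Or.exists_root hp
  exact Or.arith h1 h2 h3 (Or.count hE a D) (Or.few p hp D) hp (rowD1 p hp).1

end Vale.Agent.Q258E
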