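import Vale.Agent.Q258E.Rows
import Vale.Agent.Q258D.D1

/-!
# Row Q2: the products of lists of bands are equidistributed
-/

namespace Vale.Agent.Q258E

open Vale.Agent.P258.Braid Vale.Agent.N258B Vale.Agent.Q258D Vale.Agent.Q258D.RA

namespace Q2

variable {H : Type} [Group H]

theorem pm_cls (b : Fin 8 → H) (l : List (X H)) : RA.pm b (cls b l) = (l.map (px b)).prod := by
  induction l with
  | nil => exact map_one (RA.pm b)
  | cons s l ih =>
    have : cls b (s :: l) = gn b s * cls b l := by
      unfold cls gn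
      rw [← map_mul]
      rfl
    rw [this, map_mul, pm_gn, ih, List.map_cons, List.prod_cons]

/-- lists with given colours are functions -/
theorem card_XL (b : Fin 8 → H) {n : ℕ} (col : Fin n → Fin 8) (g : H) :
    Nat.card {x : Fin n → H // (List.ofFn fun i => (x i)⁻¹ * (b (col i))⁻¹ * x i).prod = g} =
      Nat.card {l // XL b (List.ofFn col) g l} := by
  have key : ∀ x : Fin n → H, RA.pm b (cls b (List.ofFn fun i => (col i, x i))) =
      (List.ofFn fun i => (x i)⁻¹ * (b (col i))⁻¹ * x i).prod := fun x => by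
    rw [pm_cls, List.map_ofFn]
    congr 2
    funext i
    simp only [Function.comp, px, mul_inv_rev, inv_inv, mul_assoc]
  refine Nat.card_congr (Equiv.ofBijective (fun x => ⟨List.ofFn fun i => (col i, x.1 i),
    by rw [List.map_ofFn]; rfl, (key x.1).trans x.2⟩) ⟨fun x y h => ?_, fun l => ?_⟩)
  · have h2 := List.ofFn_injective (congrArg Subtype.val h)
    exact Subtype.ext (funext fun i => congrArg Prod.snd (congrFun h2 i))
  · obtain ⟨l, h1, h2⟩ := l
    have hn : l.length = n := by simpa using congrArg List.length h1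
    subst hn
    have h3 : l = List.ofFn fun i => (col i, (l.get i).2) := by
      refine List.ext_getElem (by simp) fun i i1 i2 => ?_
      have := congrArg (fun L => L[i]?) h1
      simp only [List.getElem?_map, List.getElem?_eq_getElem i1, Option.map_some,
        List.getElem?_ofFn, i1, dif_pos, Option.some.injEq] at this
      simp only [List.getElem_ofFn, List.get_eq_getElem]
      exact Prod.ext this rfl
    exact ⟨⟨fun i => (l.get i).2, by rw [← key, ← h3]; exact h2⟩, Subtype.ext h3.symm⟩

/-- the count factorises over the coordinates -/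
theorem card_pi {G : Type} [Group G] {m n : ℕ} (e : H ≃* (Fin m → G)) (c : Fin n → H) (g : H) :
    Nat.card {x : Fin n → H // (List.ofFn fun i => (x i)⁻¹ * c i * x i).prod = g} =
      ∏ ν, Nat.card {y : Fin n → G //
        (List.ofFn fun i => (y i)⁻¹ * e (c i) ν * y i).prod = e g ν} := by
  rw [← Nat.card_pi]
  have key : ∀ (x : Fin n → H) (ν : Fin m),
      e (List.ofFn fun i => (x i)⁻¹ * c i * x i).prod ν =
        (List.ofFn fun i => (e (x i) ν)⁻¹ * e (c i) ν * e (x i) ν).prod := fun x ν => by
    have := map_list_prod ((Pi.evalMonoidHom (fun _ : Fin m => G) ν).comp e.toMonoidHom)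
      (List.ofFn fun i => (x i)⁻¹ * c i * x i)
    rw [List.map_ofFn] at this
    refine this.trans ?_
    congr 2
    funext i
    simp
  refine Nat.card_congr
    { toFun := fun x ν => ⟨fun i => e (x.1 i) ν, by rw [← key, x.2]⟩
      invFun := fun y => ⟨fun i => e.symm fun ν => (y ν).1 i, e.injective (funext fun ν => by
        rw [key]
        simpa only [MulEquiv.apply_symm_apply] using (y ν).2)⟩
      left_inv := fun x => Subtype.ext (funext fun i => e.symm_apply_apply _)
      right_inv := fun y => funext fun ν => Subtype.ext (funext fun i => by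
        simp only [MulEquiv.apply_symm_apply]) }

theorem count_le {α : Type} [DecidableEq α] {n : ℕ} (f : Fin n → α) (P : α → Prop) {a a' : α}
    (h : a ≠ a') (ha : P a) (ha' : P a') :
    (List.ofFn f).count a + (List.ofFn f).count a' ≤ Nat.card {i // P (f i)} := by
  classical
  have key : ∀ c, (List.ofFn f).count c = (Finset.univ.filter fun i => f i = c).card := fun c => by
    induction n with
    | zero => simp
    | succ n ih =>
      rw [List.ofFn_succ, List.count_cons, ih, Fin.card_filter_univ_succ']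
      simp only [beq_iff_eq]
      omega
  rw [key, key, Nat.card_eq_fintype_card, Fintype.card_subtype, ← Finset.card_union_of_disjoint]
  · refine Finset.card_le_card fun i hi => ?_
    simp only [Finset.mem_union, Finset.mem_filter, Finset.mem_univ, true_and] at hi ⊢
    rcases hi with hi | hi <;> rw [hi] <;> assumption
  · exact Finset.disjoint_filter.2 fun i _ h1 h2 => h (h1.symm.trans h2)

/-- in each coordinate some base element is not central -/
theorem exists_col {G : Type} [Group G] {m : ℕ} (e : H ≃* (Fin m → G))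
    (hG : Subgroup.center G ≠ ⊤) {b : Fin 8 → H} (hb : NGen b) (ν : Fin m) :
    ∃ c, e (b c) ν ∉ Subgroup.center G := by
  classical
  by_contra h
  push Not at h
  refine hG (eq_top_iff.2 fun y _ => ?_)
  have h2 : Subgroup.normalClosure (Set.range b) ≤ (Subgroup.center G).comap
      ((Pi.evalMonoidHom (fun _ : Fin m => G) ν).comp e.toMonoidHom) :=
    Subgroup.normalClosure_le_normal (by rintro _ ⟨c, rfl⟩; exact h c)
  have h3 := h2 (show e.symm (fun _ => y) ∈ _ by rw [hb]; trivial)
  simpa using h3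

theorem exists_eta (m : ℕ) {η : ℝ} (h : 0 < η) :
    ∃ t : ℝ, 0 < t ∧ t < 1 ∧ (1 + t) ^ m ≤ 1 + η ∧ 1 - η ≤ (1 - t) ^ m := by
  have h1 : ∀ᶠ t in nhds (0 : ℝ), (1 + t) ^ m < 1 + η :=
    (show ContinuousAt (fun t : ℝ => (1 + t) ^ m) 0 by fun_prop).eventually_lt
      continuousAt_const (by simpa using h)
  have h2 : ∀ᶠ t in nhds (0 : ℝ), 1 - η < (1 - t) ^ m :=
    continuousAt_const.eventually_lt
      (show ContinuousAt (fun t : ℝ => (1 - t) ^ m) 0 by fun_prop) (by simpa using h)
  have h3 : ∀ᶠ t in nhds (0 : ℝ), t < 1 := eventually_lt_nhds one_pos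
  obtain ⟨t, ⟨a1, a2, a3⟩, a4⟩ := (((h1.and (h2.and h3)).filter_mono nhdsWithin_le_nhds).and
    (self_mem_nhdsWithin (a := (0 : ℝ)) (s := Set.Ioi 0))).exists
  exact ⟨t, a4, a3, a1.le, a2.le⟩

theorem bar_ne : ∀ c, c ≠ bar c := by decide

end Q2

open Q2 in
theorem rowQ2 (h : RowQ1) : RowQ2 := by
  intro m η hη
  obtain ⟨t, t0, t1, t2, t3⟩ := exists_eta m hη
  obtain ⟨p0, hp0⟩ := h t t0
  refine ⟨max p0 5, fun p hp hle H _ ⟨e⟩ b ho hn cl hcl g => ?_⟩
  have : Fact p.Prime := ⟨hp⟩
  have D := rowD1 p (le_of_max_le_right hle)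
  have hG : Subgroup.center (SLp p) ≠ ⊤ := fun h0 => by
    have h1 : commutator (SLp p) = ⊥ := by
      rw [commutator_eq_bot_iff_center_eq_top]
      exact h0
    rw [D.2.2.2.2.1] at h1
    have h2 : Nat.card (SLp p) = 1 := by
      rw [← Subgroup.card_top, h1, Subgroup.card_bot]
    rw [D.1] at h2
    exact hp.ne_one (Nat.eq_one_of_mul_eq_one_right h2)
  obtain ⟨n, col, rfl⟩ : ∃ n, ∃ col : Fin n → Fin 8, cl = List.ofFn col :=
    ⟨_, cl.get, (List.ofFn_get cl).symm⟩
  have six : ∀ ν, 6 ≤ Nat.card {i // e (b (col i))⁻¹ ν ∉ Subgroup.center (SLp p)} := fun ν => by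
    obtain ⟨c, hc⟩ := exists_col e hG hn ν
    have := count_le col (fun c => e (b c)⁻¹ ν ∉ Subgroup.center (SLp p)) (bar_ne c)
      (by simpa using hc) (by rw [ho]; simpa using hc)
    have h1 := hcl c
    have h2 := hcl (bar c)
    omega
  have main := fun ν => hp0 p (le_of_max_le_left hle) n _ (six ν) (e g ν)
  have hH : (Nat.card H : ℝ) = ∏ _ν : Fin m, (Nat.card (SLp p) : ℝ) := by
    rw [Nat.card_congr e.toEquiv, Nat.card_pi, Nat.cast_prod]
  have hpow : (0 : ℝ) ≤ (Nat.card H : ℝ) ^ n := by positivity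
  have hc : ∀ s : ℝ, s ^ m * (Nat.card H : ℝ) ^ n =
      ∏ _ν : Fin m, s * (Nat.card (SLp p) : ℝ) ^ n := fun s => by
    rw [hH, Finset.prod_mul_distrib, Finset.prod_pow]
    simp
  rw [← card_XL, card_pi e, List.length_ofFn, Nat.cast_prod]
  have hd : ∀ N : Fin m → ℝ, (Nat.card H : ℝ) * ∏ ν, N ν = ∏ ν, (Nat.card (SLp p) : ℝ) * N ν :=
    fun N => by rw [hH, Finset.prod_mul_distrib]
  rw [hd]
  constructor
  · refine (mul_le_mul_of_nonneg_right t3 hpow).trans ?_
    rw [hc]
    exact Finset.prod_le_prod (fun _ _ => by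
      have : 0 ≤ 1 - t := by linarith
      positivity) fun ν _ => (main ν).1
  · refine le_trans ?_ (mul_le_mul_of_nonneg_right t2 hpow)
    rw [hc]
    exact Finset.prod_le_prod (fun _ _ => by positivity) fun ν _ => (main ν).2

end Vale.Agent.Q258E
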