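import Vale.Agent.Q258E.Core

/-!
# Row R1: most rows contain a cap (second moment over nested twists)
-/

set_option linter.unusedSectionVars false

namespace Vale.Agent.Q258E

open Vale.Agent.P258.Braid Vale.Agent.N258B Vale.Agent.Q258D Vale.Agent.Q258D.RA

namespace R1

/-! ### Counting -/

theorem card_pairs {Ω A : Type} [Fintype Ω] [Finite A] (E : Ω → A → Prop) :
    (Nat.card {x : Ω × A // E x.1 x.2} : ℝ) = ∑ ω, (Nat.card {a // E ω a} : ℝ) := by
  rw [Nat.card_congr (Equiv.subtypeProdEquivSigmaSubtype E), Nat.card_sigma, Nat.cast_sum]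

theorem card_fib {α β : Type} [Finite α] [Finite β] (f : α → β) {c K : ℝ}
    (h : ∀ y, c * Nat.card {x // f x = y} ≤ K) : c * Nat.card α ≤ Nat.card β * K := by
  have := Fintype.ofFinite β
  rw [← Nat.card_congr (Equiv.sigmaFiberEquiv f), Nat.card_sigma, Nat.cast_sum, Finset.mul_sum,
    Nat.card_eq_fintype_card (α := β), ← nsmul_eq_mul, ← Finset.card_univ]
  exact Finset.sum_le_card_nsmul _ _ _ fun y _ => h y

theorem moment {Ω A : Type} [Finite Ω] [Finite A] (E Bd : Ω → A → Prop) (U : Ω → Prop)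
    (hU : ∀ ω, U ω → ∀ a, E ω a → Bd ω a) {n P : ℝ} (hn : 0 ≤ n) (hP : 0 ≤ P) :
    P ^ 2 * Nat.card {ω // U ω} ≤
      4 * (n ^ 2 * Nat.card {x : Ω × A × A // E x.1 x.2.1 ∧ E x.1 x.2.2} -
        2 * P * n * Nat.card {x : Ω × A // E x.1 x.2} + P ^ 2 * Nat.card Ω) +
      2 * P * n * Nat.card {x : Ω × A // E x.1 x.2 ∧ Bd x.1 x.2} := by
  classical
  have := Fintype.ofFinite Ω
  have h1 : (Nat.card {ω // U ω} : ℝ) = ∑ ω, if U ω then 1 else 0 := by
    rw [Nat.card_eq_fintype_card, Fintype.card_subtype, Finset.sum_boole]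
  have h2 : (Nat.card Ω : ℝ) = ∑ _ω : Ω, 1 := by simp
  rw [card_pairs E, card_pairs fun ω a => E ω a ∧ Bd ω a,
    card_pairs fun ω (a : A × A) => E ω a.1 ∧ E ω a.2, h1, h2]
  simp only [Finset.mul_sum, ← Finset.sum_sub_distrib, ← Finset.sum_add_distrib]
  refine Finset.sum_le_sum fun ω _ => ?_
  rw [Nat.card_congr (Equiv.subtypeProdEquivProd (p := E ω) (q := E ω)), Nat.card_prod,
    Nat.cast_mul]
  split_ifs with h
  · rw [Nat.card_congr (Equiv.subtypeEquivRight (p := fun a => E ω a ∧ Bd ω a) (q := E ω)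
      fun a => ⟨fun k => k.1, fun k => ⟨k, hU ω h a k⟩⟩)]
    nlinarith [sq_nonneg (4 * n * Nat.card {a // E ω a} - 3 * P), sq_nonneg P]
  · have : 0 ≤ 2 * P * n * Nat.card {a // E ω a ∧ Bd ω a} := by positivity
    nlinarith [sq_nonneg (n * Nat.card {a // E ω a} - P)]

theorem exists_e (N : ℕ) {η : ℝ} (hη : 0 < η) :
    ∃ e : ℝ, 0 < e ∧ 4 * ((1 + e) ^ (N + 2) - 2 * (1 - e) + (1 + e)) ≤ η := by
  have h : Continuous fun e : ℝ => 4 * ((1 + e) ^ (N + 2) - 2 * (1 - e) + (1 + e)) := by fun_prop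
  have h1 := (h.tendsto 0).eventually (eventually_lt_nhds (show _ < η by norm_num; exact hη))
  obtain ⟨e, h2, h3⟩ := ((h1.filter_mono nhdsWithin_le_nhds).and
    (self_mem_nhdsWithin (s := Set.Ioi (0 : ℝ)))).exists
  exact ⟨e, h3, h2.le⟩

/-! ### Twists -/

variable {H : Type} [Group H] (b : Fin 8 → H)

/-- Change of the frames by powers of the base elements. -/
def th (a : ℤ) : M b →* M b := liftM (fun x => gn b (x.1, b x.1 ^ a * x.2)) fun s t => by
  rw [gn_rel]
  simp only [lx, px]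
  congr 3
  group

theorem th_gn (a : ℤ) (x : X H) : th b a (gn b x) = gn b (x.1, b x.1 ^ a * x.2) := liftM_gn _ _ _

theorem pm_th (a : ℤ) (x : M b) : RA.pm b (th b a x) = RA.pm b x := by
  induction x using M_ind with
  | h1 => simp
  | h s x ih =>
    simp only [map_mul, th_gn, pm_gn, ih, px]
    group

theorem th_th (x : M b) : th b (-1) (th b 1 x) = x := by
  induction x using M_ind with
  | h1 => simp
  | h s x ih => simp [map_mul, th_gn, ih]

theorem lm_pm (x : M b) : lm b (RA.pm b x) x = th b 1 x := by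
  induction x using M_ind with
  | h1 => simp
  | h s x ih =>
    have h : lm b (px b s) (gn b s) = th b 1 (gn b s) := by
      rw [lm_gn, th_gn]
      simp only [lx, px]
      congr 2
      group
    rw [map_mul (RA.pm b), lm_mul, map_mul (lm b (RA.pm b x)), ih, ← pm_th b 1 x, ← mul_eq, map_mul,
      pm_gn, h, map_mul, mul_eq (th b 1 (gn b s)), pm_th, pm_gn]

/-- The twist of one band. -/
def ph (a : ℤ) (y : H) (x : X H) : X H := (x.1, b x.1 ^ (-a) * x.2 * y ^ (-a))

theorem cls_ph (a : ℤ) (y : H) (l : List (X H)) :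
    cls b (l.map (ph b a y)) = th b (-a) (lm b (y ^ a) (cls b l)) := by
  induction l with
  | nil => simp [cls_nil]
  | cons s l ih =>
    rw [List.map_cons, cls_cons, cls_cons, map_mul, map_mul, ih, lm_gn, th_gn]
    simp [ph, lx, mul_assoc]

/-- The product over the first `k` bands. -/
def Y (k : ℕ) (l : List (X H)) : H := RA.pm b (cls b (l.take k))

/-- `a` full twists of the first `k` bands. -/
def tz (k : ℕ) (a : ℤ) (l : List (X H)) : List (X H) :=
  (l.take k).map (ph b a (Y b k l)) ++ l.drop k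

theorem take_map {α : Type} (f : α → α) : ∀ (k : ℕ) (l : List α),
    ((l.take k).map f ++ l.drop k).take k = (l.take k).map f ∧
      ((l.take k).map f ++ l.drop k).drop k = l.drop k
  | 0, _ => by simp
  | _ + 1, [] => by simp
  | k + 1, s :: l => by simpa using take_map f k l

theorem Y_tz {k k' : ℕ} (h : k ≤ k') (a : ℤ) (l : List (X H)) : Y b k' (tz b k a l) = Y b k' l := by
  obtain ⟨d, rfl⟩ := Nat.exists_eq_add_of_le h
  rw [Y, Y, List.take_add, List.take_add, tz, (take_map _ k l).1, (take_map _ k l).2, cls_append,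
    cls_append, map_mul, map_mul, cls_ph, pm_th, pm_lm, Y]
  group

theorem tz_tz (k : ℕ) (a a' : ℤ) (l : List (X H)) :
    tz b k a (tz b k a' l) = tz b k (a + a') l := by
  rw [tz, Y_tz b le_rfl, tz, (take_map _ k l).1, (take_map _ k l).2, List.map_map, tz]
  congr 2
  funext x
  simp only [Function.comp, ph]
  congr 1
  group

theorem tz_zero (k : ℕ) (l : List (X H)) : tz b k 0 l = l := by
  have : ph b 0 (Y b k l) = id := funext fun x => by simp [ph]
  rw [tz, this, List.map_id, List.take_append_drop]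

theorem cls_tz (k a : ℕ) (l : List (X H)) : cls b (tz b k a l) = cls b l := by
  induction a with
  | zero => rw [Nat.cast_zero, tz_zero]
  | succ a ih =>
    rw [Nat.cast_succ, add_comm, ← tz_tz, ← ih]
    generalize tz b k a l = l'
    rw [tz, cls_append, cls_ph, zpow_one, Y, lm_pm, th_th, ← cls_append, List.take_append_drop]

theorem col_tz (k : ℕ) (a : ℤ) (l : List (X H)) : (tz b k a l).map Prod.fst = l.map Prod.fst := by
  rw [tz, List.map_append, List.map_map]
  conv_rhs => rw [← List.take_append_drop k l, List.map_append]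
  rfl

/-- Nested twists. -/
def T : List (ℕ × ℕ) → Equiv.Perm (List (X H))
  | [] => 1
  | p :: r => T r * ⟨tz b p.1 p.2, tz b p.1 (-p.2),
      fun l => by rw [tz_tz, neg_add_cancel, tz_zero],
      fun l => by rw [tz_tz, add_neg_cancel, tz_zero]⟩

theorem T_cons (p : ℕ × ℕ) (r : List (ℕ × ℕ)) (l : List (X H)) :
    T b (p :: r) l = T b r (tz b p.1 p.2 l) := rfl

theorem T_inv (r : List (ℕ × ℕ)) (l : List (X H)) :
    cls b (T b r l) = cls b l ∧ (T b r l).map Prod.fst = l.map Prod.fst := by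
  induction r generalizing l with
  | nil => exact ⟨rfl, rfl⟩
  | cons p r ih => rw [T_cons, (ih _).1, (ih _).2, cls_tz, col_tz]; exact ⟨rfl, rfl⟩

/-- The frame of the first band. -/
def hd : List (X H) → H
  | [] => 1
  | x :: _ => x.2

theorem hd_T (r : List (ℕ × ℕ)) (h0 : ∀ p ∈ r, 0 < p.1) (hr : r.Pairwise fun p q => p.1 ≤ q.1)
    (x : X H) (l : List (X H)) :
    hd (T b r (x :: l)) = (b x.1 ^ (r.map Prod.snd).sum)⁻¹ * x.2 *
      (r.map fun p => (Y b p.1 (x :: l) ^ p.2)⁻¹).prod := by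
  induction r generalizing x l with
  | nil => simp [T, hd]
  | cons p r ih =>
    obtain ⟨k, a⟩ := p
    obtain ⟨k, rfl⟩ : ∃ k', k = k' + 1 := ⟨k - 1, by have := h0 _ (.head _); omega⟩
    have h1 : ∀ p ∈ r, Y b p.1 (tz b (k + 1) a (x :: l)) = Y b p.1 (x :: l) := fun p hp =>
      Y_tz b ((List.pairwise_cons.1 hr).1 p hp) _ _
    have h2 : ∃ l', tz b (k + 1) a (x :: l) = ph b a (Y b (k + 1) (x :: l)) x :: l' := ⟨_, rfl⟩
    obtain ⟨l', h2⟩ := h2
    have h3 : (r.map fun p => (Y b p.1 (tz b (k + 1) a (x :: l)) ^ p.2)⁻¹) =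
        r.map fun p => (Y b p.1 (x :: l) ^ p.2)⁻¹ :=
      List.map_congr_left fun p hp => by rw [h1 p hp]
    rw [T_cons, h2, ih (fun p hp => h0 p (.tail _ hp)) (List.pairwise_cons.1 hr).2, ← h2, h3]
    simp only [ph, List.map_cons, List.sum_cons, List.prod_cons]
    group

theorem nest_eq : ∀ (N : ℕ) (y : Fin N → H) (a a' : Fin N → ℕ),
    nest (List.ofFn fun i => (y i, a i, a' i)) = (List.ofFn fun i => (y i ^ a i)⁻¹).prod *
      ((List.ofFn fun i => (y i ^ a' i)⁻¹).prod)⁻¹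
  | 0, _, _, _ => by simp [nest]
  | N + 1, y, a, a' => by
    simp only [List.ofFn_succ, nest, List.prod_cons, nest_eq N]
    group

/-! ### Blocks -/

/-- `N` blocks with three bands of every colour. -/
def bl : ℕ → List (Fin 8)
  | 0 => []
  | N + 1 => cs 3 ++ bl N

theorem count_bl (c : Fin 8) : ∀ N, (bl N).count c = 3 * N
  | 0 => rfl
  | N + 1 => by rw [bl, List.count_append, count_cs, count_bl c N]; ring

theorem length_bl : ∀ N, (bl N).length = 24 * N
  | 0 => rfl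
  | N + 1 => by rw [bl, List.length_append, length_cs, length_bl N]; ring

variable [Finite H]

theorem card_bl {B : List (Fin 8)} {n K K' : ℝ} (hn : 0 ≤ n) (h0 : 0 ≤ K)
    (hK : ∀ g, n * Nat.card {l // XL b (cs 3) g l} ≤ K)
    (hK' : ∀ g, n * Nat.card {l // XL b B g l} ≤ K') (N : ℕ) (z : Fin N → H) (g : H) :
    n ^ (N + 1) * Nat.card {l : List (X H) // l.map Prod.fst = bl N ++ B ∧
      (∀ i : Fin N, Y b (24 * (i + 1)) l = z i) ∧ RA.pm b (cls b l) = g} ≤ K ^ N * K' := by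
  induction N generalizing g with
  | zero =>
    rw [Nat.card_congr (Equiv.subtypeEquivRight (q := XL b B g) fun l => by simp [XL, bl])]
    simpa using hK' g
  | succ N ih =>
    have f1 : Finite {l // XL b (cs 3) (z 0) l} := finite_cols _ _
    have f2 := finite_cols (H := H) (bl N ++ B) fun l => (∀ i : Fin N,
      Y b (24 * (i + 1)) l = (z 0)⁻¹ * z i.succ) ∧ RA.pm b (cls b l) = (z 0)⁻¹ * g
    have h1 := Nat.card_le_card_of_injective (α := {l : List (X H) //
      l.map Prod.fst = bl (N + 1) ++ B ∧ (∀ i : Fin (N + 1), Y b (24 * (i + 1)) l = z i) ∧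
        RA.pm b (cls b l) = g}) (β := {l // XL b (cs 3) (z 0) l} × {l : List (X H) //
      l.map Prod.fst = bl N ++ B ∧ (∀ i : Fin N, Y b (24 * (i + 1)) l = (z 0)⁻¹ * z i.succ) ∧
        RA.pm b (cls b l) = (z 0)⁻¹ * g})
      (fun l => (⟨l.1.take 24, by
        rw [List.map_take, l.2.1, bl, List.append_assoc, List.take_left' (length_cs 3)],
        l.2.2.1 0⟩, ⟨l.1.drop 24, by
        rw [List.map_drop, l.2.1, bl, List.append_assoc, List.drop_left' (length_cs 3)],
        fun i => by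
          rw [← l.2.2.1 0, ← l.2.2.1 i.succ, eq_inv_mul_iff_mul_eq, Y, Y, Y, ← map_mul,
            ← cls_append, Fin.val_succ, show 24 * (i.1 + 1 + 1) = 24 + 24 * (i.1 + 1) by ring,
            List.take_add]
          rfl, by
        rw [← l.2.2.1 0, eq_inv_mul_iff_mul_eq, Y, ← map_mul, ← cls_append]
        exact (congrArg _ (congrArg _ (List.take_append_drop 24 _))).trans l.2.2.2⟩))
      fun l l' h => Subtype.ext (by
        rw [← List.take_append_drop 24 l.1, ← List.take_append_drop 24 l'.1]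
        exact congrArg₂ _ (congrArg (·.1.1) h) (congrArg (·.2.1) h))
    rw [Nat.card_prod] at h1
    refine (mul_le_mul_of_nonneg_left (Nat.cast_le.2 h1) (by positivity)).trans ?_
    rw [Nat.cast_mul, pow_succ' n, mul_mul_mul_comm, pow_succ' K, mul_assoc K]
    exact mul_le_mul (hK _) (ih _ _) (by positivity) h0

/-! ### The count -/

/-- Rows as pairs of the first frame and the rest. -/
def Om (j : Fin 4) (cl : List (Fin 8)) : Type :=
  {x : H × List (X H) // x.2.map Prod.fst = od j :: cl ∧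
    px b (ev j, x.1) * RA.pm b (cls b x.2) = 1}

theorem card_Om (j : Fin 4) (cl : List (Fin 8)) (Q : M b → Prop) :
    Nat.card {l // XL b (ev j :: od j :: cl) 1 l ∧ Q (cls b l)} =
      Nat.card {ω : Om b j cl // Q (gn b (ev j, ω.1.1) * cls b ω.1.2)} := by
  refine (Nat.card_congr (Equiv.ofBijective (fun ω => ⟨(ev j, ω.1.1.1) :: ω.1.1.2,
    ⟨congrArg _ ω.1.2.1, by rw [cls_cons, map_mul, pm_gn, ω.1.2.2]⟩, by
      rw [cls_cons]; exact ω.2⟩) ⟨fun ω ω' h => ?_, ?_⟩)).symm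
  · have := List.cons.inj (congrArg Subtype.val h)
    exact Subtype.ext (Subtype.ext (Prod.ext (congrArg Prod.snd this.1) this.2))
  · rintro ⟨_ | ⟨⟨c, h⟩, l⟩, ⟨h1, h2⟩, h3⟩
    · simp at h1
    · obtain ⟨rfl, h4⟩ : c = ev j ∧ _ := List.cons.inj h1
      rw [cls_cons] at h2 h3
      exact ⟨⟨⟨(h, l), h4, by rwa [map_mul, pm_gn] at h2⟩, h3⟩, rfl⟩

instance fin_Om (j : Fin 4) (cl : List (Fin 8)) : Finite (Om b j cl) := by
  have := finite_cols (H := H) (od j :: cl) fun _ => True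
  exact Finite.of_injective (β := H × {l : List (X H) // l.map Prod.fst = od j :: cl ∧ True})
    (fun ω => (ω.1.1, ⟨ω.1.2, ω.2.1, trivial⟩)) fun ω ω' h => Subtype.ext
      (Prod.ext (Prod.mk.inj h).1 (congrArg Subtype.val (Prod.mk.inj h).2))

omit [Finite H] in
theorem eq_cons {c : Fin 8} {cl : List (Fin 8)} {l : List (X H)}
    (h : l.map Prod.fst = c :: cl) : l = (c, hd l) :: l.tail ∧ l.tail.map Prod.fst = cl := by
  rcases l with _ | ⟨x, l⟩
  · simp at h
  · obtain ⟨h1, h2⟩ := List.cons.inj h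
    subst h1
    exact ⟨rfl, h2⟩

theorem card_one (hb : OddB b) (j : Fin 4) (cl : List (Fin 8)) {A : Type}
    (τ : A → List (ℕ × ℕ)) (Q : M b → Prop) :
    Nat.card {x : Om b j cl × A // hd (T b (τ x.2) x.1.1.2) = x.1.1.1 ∧
      Q (cls b (T b (τ x.2) x.1.1.2).tail)} =
      Nat.card A * (Nat.card H * Nat.card {l // XL b cl 1 l ∧ Q (cls b l)}) := by
  rw [← Nat.card_prod, ← Nat.card_prod]
  refine (Nat.card_congr (Equiv.ofBijective (fun x => ⟨(⟨(x.2.1,
    (T b (τ x.1)).symm ((od j, x.2.1) :: x.2.2.1)), by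
      rw [← (T_inv b (τ x.1) _).2, Equiv.apply_symm_apply, List.map_cons, x.2.2.2.1.1], by
      rw [← (T_inv b (τ x.1) _).1, Equiv.apply_symm_apply, cls_cons, map_mul, pm_gn, x.2.2.2.1.2,
        px_od hb, mul_one, mul_inv_cancel]⟩, x.1), by
      simp only [Equiv.apply_symm_apply]
      exact ⟨rfl, x.2.2.2.2⟩⟩) ⟨fun x x' h => ?_, ?_⟩)).symm
  · obtain ⟨a, g, l, hl⟩ := x
    obtain ⟨a', g', l', hl'⟩ := x'
    obtain rfl : a = a' := congrArg (·.1.2) h
    have := List.cons.inj ((T b (τ a)).symm.injective (congrArg (·.1.1.1.2) h))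
    obtain rfl : g = g' := congrArg Prod.snd this.1
    obtain rfl : l = l' := this.2
    rfl
  · rintro ⟨⟨⟨⟨g, r⟩, h1, h2⟩, a⟩, h3, h4⟩
    obtain ⟨h5, h6⟩ := eq_cons ((T_inv b (τ a) r).2.trans h1)
    dsimp only at h1 h2 h3 h4
    rw [h3] at h5
    refine ⟨(a, g, ⟨(T b (τ a) r).tail, ⟨h6, ?_⟩, h4⟩),
      Subtype.ext (Prod.ext (Subtype.ext (Prod.ext rfl ?_)) rfl)⟩
    · rwa [← (T_inv b (τ a) r).1, h5, cls_cons, map_mul, pm_gn, px_od hb,
        mul_inv_cancel_left] at h2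
    · exact (Equiv.symm_apply_eq _).2 h5.symm

/-- The positions and exponents of the nested twists. -/
def ta {N n : ℕ} (a : Fin N → Fin n) : List (ℕ × ℕ) :=
  List.ofFn fun i => (24 * (i.1 + 1) + 1, (a i).1)

theorem hd_ta {N n : ℕ} (a : Fin N → Fin n) (x : X H) (l : List (X H)) :
    hd (T b (ta a) (x :: l)) = (b x.1 ^ ((ta a).map Prod.snd).sum)⁻¹ * x.2 *
      (List.ofFn fun i : Fin N => ((px b x * Y b (24 * (i + 1)) l) ^ (a i).1)⁻¹).prod := by
  rw [hd_T b _ (by simp [ta]) (by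
    rw [ta, List.pairwise_ofFn]
    intro i j h
    have : i.1 < j.1 := h
    dsimp only
    omega)]
  congr 2
  rw [ta, List.map_ofFn]
  congr 1
  funext i
  simp only [Function.comp, Y, List.take_succ_cons, cls_cons, map_mul, pm_gn]

theorem card_two (j : Fin 4) (B : List (Fin 8)) (N : ℕ) {n K C : ℝ} (hn : 0 ≤ n) (hK : 0 ≤ K)
    (h1 : ∀ (z : Fin N → H) (g : H), n ^ (N + 1) * Nat.card {l : List (X H) //
      l.map Prod.fst = bl N ++ B ∧ (∀ i : Fin N, Y b (24 * (i + 1)) l = z i) ∧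
        RA.pm b (cls b l) = g} ≤ K)
    (h2 : ∀ g : (Fin N → Fin (Nat.card H)) → (Fin N → Fin (Nat.card H)) → H,
      n * Nat.card {x : (Fin N → H) × (Fin N → Fin (Nat.card H)) × (Fin N → Fin (Nat.card H)) //
        nest (List.ofFn fun i => (x.1 i, (x.2.1 i).val, (x.2.2 i).val)) = g x.2.1 x.2.2} ≤ C) :
    n ^ (N + 2) * Nat.card {x : Om b j (bl N ++ B) × (Fin N → Fin (Nat.card H)) ×
      (Fin N → Fin (Nat.card H)) // hd (T b (ta x.2.1) x.1.1.2) = x.1.1.1 ∧
        hd (T b (ta x.2.2) x.1.1.2) = x.1.1.1} ≤ Nat.card H * C * K := by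
  have := Fintype.ofFinite H
  let g : H → (Fin N → Fin (Nat.card H)) → (Fin N → Fin (Nat.card H)) → H := fun h a a' =>
    h⁻¹ * b (od j) ^ ((ta a).map Prod.snd).sum * (b (od j) ^ ((ta a').map Prod.snd).sum)⁻¹ * h
  let β := {y : H × (Fin N → H) × (Fin N → Fin (Nat.card H)) × (Fin N → Fin (Nat.card H)) //
    nest (List.ofFn fun i => (y.2.1 i, (y.2.2.1 i).val, (y.2.2.2 i).val)) = g y.1 y.2.2.1 y.2.2.2}
  have h3 : n * Nat.card β ≤ Nat.card H * C := by
    rw [card_pairs fun (h : H) (x : (Fin N → H) × (Fin N → Fin (Nat.card H)) ×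
      (Fin N → Fin (Nat.card H))) => nest (List.ofFn fun i => (x.1 i, (x.2.1 i).val,
        (x.2.2 i).val)) = g h x.2.1 x.2.2, Finset.mul_sum]
    exact (Finset.sum_le_card_nsmul _ _ _ fun h _ => h2 (g h)).trans_eq (by simp)
  have h4 : ∀ (ω : Om b j (bl N ++ B)) (a : Fin N → Fin (Nat.card H)), hd (T b (ta a) ω.1.2) =
      (b (od j) ^ ((ta a).map Prod.snd).sum)⁻¹ * hd ω.1.2 * (List.ofFn fun i : Fin N =>
        ((px b (od j, hd ω.1.2) * Y b (24 * (i + 1)) ω.1.2.tail) ^ (a i).1)⁻¹).prod := fun ω a => by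
    conv_lhs => rw [(eq_cons ω.2.1).1]
    exact hd_ta b a _ _
  rw [pow_succ', mul_assoc]
  refine (mul_le_mul_of_nonneg_left (card_fib (β := β) (K := K) (fun x => ⟨(hd x.1.1.1.2,
    fun i => px b (od j, hd x.1.1.1.2) * Y b (24 * (i + 1)) x.1.1.1.2.tail, x.1.2), ?_⟩) ?_)
    hn).trans (by rw [← mul_assoc]; exact mul_le_mul_of_nonneg_right h3 hK)
  · have h5 := x.2.1.trans x.2.2.symm
    rw [h4, h4, ← eq_inv_mul_iff_mul_eq] at h5
    rw [nest_eq]
    dsimp only [g]
    rw [h5]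
    group
  · rintro ⟨⟨h, y, a, a'⟩, hy⟩
    let s := (b (od j) ^ ((ta a).map Prod.snd).sum)⁻¹ * h *
      (List.ofFn fun i : Fin N => (y i ^ (a i).1)⁻¹).prod
    have key : ∀ x : {x : Om b j (bl N ++ B) × (Fin N → Fin (Nat.card H)) ×
      (Fin N → Fin (Nat.card H)) // hd (T b (ta x.2.1) x.1.1.2) = x.1.1.1 ∧
        hd (T b (ta x.2.2) x.1.1.2) = x.1.1.1}, (hd x.1.1.1.2, fun i : Fin N =>
          px b (od j, hd x.1.1.1.2) * Y b (24 * (i + 1)) x.1.1.1.2.tail, x.1.2) = (h, y, a, a') →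
        x.1.1.1 = (s, (od j, h) :: x.1.1.1.2.tail) ∧ x.1.2 = (a, a') ∧
          ∀ i : Fin N, Y b (24 * (i + 1)) x.1.1.1.2.tail = (px b (od j, h))⁻¹ * y i := by
      intro x hx
      obtain ⟨rfl, h6⟩ := Prod.mk.inj hx
      obtain ⟨rfl, h7⟩ := Prod.mk.inj h6
      refine ⟨Prod.ext ?_ (eq_cons x.1.1.2.1).1, h7, fun i => by rw [inv_mul_cancel_left]⟩
      rw [← x.2.1, h4, h7]
    have f := finite_cols (H := H) (bl N ++ B) fun l => (∀ i : Fin N, Y b (24 * (i + 1)) l =
      (px b (od j, h))⁻¹ * y i) ∧ RA.pm b (cls b l) = (px b (ev j, s) * px b (od j, h))⁻¹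
    refine le_trans (mul_le_mul_of_nonneg_left (Nat.cast_le.2 (Nat.card_le_card_of_injective
      (fun x => ⟨x.1.1.1.1.2.tail, (eq_cons x.1.1.1.2.1).2,
        (key x.1 (congrArg Subtype.val x.2)).2.2, by
          have h5 := x.1.1.1.2.2
          rw [(key x.1 (congrArg Subtype.val x.2)).1, cls_cons, map_mul, pm_gn, ← mul_assoc] at h5
          exact eq_inv_of_mul_eq_one_right h5⟩) fun x x' e => ?_)) (by positivity))
      (h1 (fun i => (px b (od j, h))⁻¹ * y i) (px b (ev j, s) * px b (od j, h))⁻¹)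
    obtain ⟨k1, k2, -⟩ := key x.1 (congrArg Subtype.val x.2)
    obtain ⟨k1', k2', -⟩ := key x'.1 (congrArg Subtype.val x'.2)
    refine Subtype.ext (Subtype.ext (Prod.ext (Subtype.ext ?_) (k2.trans k2'.symm)))
    rw [k1, k1', show x.1.1.1.1.2.tail = x'.1.1.1.1.2.tail from congrArg Subtype.val e]

end R1

open R1 in
theorem rowR1 (hQ : RowQ2) (hC : RowCv) : RowR1 := by
  intro m
  obtain ⟨N, hN⟩ := hC m
  refine ⟨3 * N + 3, fun η hη => ?_⟩
  obtain ⟨e, he, hE⟩ := exists_e N hη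
  refine ((hQ m e he).and (hN e he)).mono fun H _ _ b hb _ ⟨q, c⟩ cl hcl j Gd => ?_
  obtain ⟨B, hp⟩ : ∃ B, (bl N ++ B).Perm cl := ⟨_, List.subperm_append_diff_self_of_count_le
    fun x _ => by rw [count_bl]; exact (Nat.le_add_right _ _).trans (hcl x)⟩
  have hB : ∀ x, 3 ≤ B.count x := fun x => by
    have := hcl x
    rw [← hp.count_eq, List.count_append, count_bl] at this
    omega
  have h3 : ∀ x, 3 ≤ (bl N ++ B).count x := fun x => (hB x).trans (by simp)
  let Q : M b → Prop := fun a =>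
    ¬ ∃ h l', XL b cl 1 l' ∧ Gd (cls b l') ∧ a = RA.cap b j h * cls b l'
  have hn : (0 : ℝ) < Nat.card H := Nat.cast_pos.2 Nat.card_pos
  have m1 := moment (Ω := Om b j (bl N ++ B)) (A := Fin N → Fin (Nat.card H))
    (fun ω a => hd (T b (ta a) ω.1.2) = ω.1.1) (fun ω a => ¬ Gd (cls b (T b (ta a) ω.1.2).tail))
    (fun ω => Q (gn b (ev j, ω.1.1) * cls b ω.1.2)) (fun ω hω a ha hg => by
      obtain ⟨h5, h6⟩ := eq_cons ((T_inv b (ta a) ω.1.2).2.trans ω.2.1)
      have h7 : cls b ω.1.2 = gn b (od j, ω.1.1) * cls b (T b (ta a) ω.1.2).tail := by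
        rw [← (T_inv b (ta a) ω.1.2).1, ← cls_cons, ← ha, ← h5]
      obtain ⟨l', k1, k2⟩ := exists_rep (a := cls b (T b (ta a) ω.1.2).tail) (cl := cl)
        fun x => by rw [cnt_cls, h6, hp.count_eq]
      refine hω ⟨ω.1.1, l', ⟨k1, ?_⟩, k2 ▸ hg, by rw [k2, h7, RA.cap, mul_assoc]⟩
      have h8 := ω.2.2
      rwa [h7, map_mul, pm_gn, px_od hb, mul_inv_cancel_left, ← k2] at h8)
    hn.le (pow_pos hn N).le
  have m2 := card_one b hb j (bl N ++ B) (ta (N := N) (n := Nat.card H)) fun _ => True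
  have m3 := card_two b j B N hn.le (by positivity) (card_bl b hn.le (by positivity)
    (fun g => (q _ (fun x => (count_cs 3 x).ge) g).2) (fun g => (q B hB g).2) N) c
  have m4 := card_Om b j (bl N ++ B) fun _ => True
  have q1 := (q _ h3 1).1
  have q2 := (q (ev j :: od j :: (bl N ++ B)) (fun x => (h3 x).trans
    ((List.count_le_count_cons).trans List.count_le_count_cons)) 1).2
  simp only [and_true] at m2 m4
  rw [Nat.card_congr (Equiv.subtypeUnivEquiv fun _ => trivial)] at m4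
  rw [card_one b hb j _ _ fun a => ¬ Gd a, m2, ← m4, ← card_Om, card_perm ((hp.cons _).cons _),
    card_perm hp 1 fun a => ¬ Gd a, Nat.card_fun, Nat.card_fin, Nat.card_fin] at m1
  rw [← hp.length_eq]
  simp only [List.length_cons, List.length_append, length_bl, length_cs] at q1 q2 m3 ⊢
  push_cast at m1
  change (Nat.card {l // XL b (ev j :: od j :: cl) 1 l ∧ Q (cls b l)} : ℝ) ≤ _
  generalize (Nat.card {l // XL b (ev j :: od j :: cl) 1 l ∧ Q (cls b l)} : ℝ) = u at m1 ⊢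
  have hv : (0 : ℝ) ≤ Nat.card {l // XL b cl 1 l ∧ ¬ Gd (cls b l)} := Nat.cast_nonneg _
  generalize (Nat.card {l // XL b cl 1 l ∧ ¬ Gd (cls b l)} : ℝ) = v at m1 hv ⊢
  generalize (Nat.card {l // XL b (bl N ++ B) 1 l} : ℝ) = x₁ at m1 q1
  generalize (Nat.card {l // XL b (ev j :: od j :: (bl N ++ B)) 1 l} : ℝ) = x₂ at m1 q2
  generalize (Nat.card {x : Om b j (bl N ++ B) × (Fin N → Fin (Nat.card H)) ×
      (Fin N → Fin (Nat.card H)) // hd (T b (ta x.2.1) x.1.1.2) = x.1.1.1 ∧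
        hd (T b (ta x.2.2) x.1.1.2) = x.1.1.1} : ℝ) = x₃ at m1 m3
  generalize (Nat.card H : ℝ) = n at *
  have hP := pow_pos hn N
  have r2 : x₂ ≤ (1 + e) * n ^ (24 * N + B.length + 1) :=
    le_of_mul_le_mul_left (q2.trans_eq (by ring)) hn
  have r3 : n ^ 2 * x₃ ≤ (n ^ N) ^ 2 * ((1 + e) ^ (N + 2) * n ^ (24 * N + B.length + 1)) :=
    le_of_mul_le_mul_left (a := n ^ N) ((by ring : _ = _).trans_le 
      (m3.trans_eq (by rw [mul_pow]; ring))) hP
  have r1 : (n ^ N) ^ 2 * ((1 - e) * n ^ (24 * N + B.length + 1)) ≤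
      n ^ N * n * (n ^ N * (n * x₁)) :=
    (by ring : _ = _).trans_le ((mul_le_mul_of_nonneg_left q1
      (show 0 ≤ (n ^ N) ^ 2 * n by positivity)).trans_eq (by ring))
  have r4 := mul_le_mul_of_nonneg_left r2 (sq_nonneg (n ^ N))
  have r5 := mul_le_mul_of_nonneg_left hE
    (show 0 ≤ (n ^ N) ^ 2 * n ^ (24 * N + B.length + 1) by positivity)
  have r6 : 0 ≤ (n ^ N) ^ 2 * n ^ 2 * v := by positivity
  refine le_of_mul_le_mul_left ?_ (pow_pos hP 2)
  nlinarith

end Vale.Agent.Q258E
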