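import Vale.Agent.Q258E.Core
import Vale.Agent.Q258E.Q2

/-!
# Row R2: most rows contain many caps
-/

set_option linter.all false

namespace Vale.Agent.Q258E

open Vale.Agent.P258.Braid Vale.Agent.N258B Vale.Agent.Q258D Vale.Agent.Q258D.RA

namespace R2

variable {H : Type} [Group H] {b : Fin 8 → H}

/-- there are lists with prescribed numbers of colours -/
theorem exists_cl (f : Fin 8 → ℕ) : ∃ cl : List (Fin 8), ∀ c, cl.count c = f c := by
  refine ⟨(List.finRange 8).flatMap fun c => List.replicate (f c) c, fun c => ?_⟩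
  fin_cases c <;> simp [List.finRange, List.count_replicate]

/-- generating rows with `k` bands of every colour, times the standard caps -/
def Gd (b : Fin 8 → H) (k : ℕ) (n : Fin 4 → ℕ) (a : M b) : Prop :=
  ∃ a0 : M b, GenM a0 ∧ (∀ c, cnt a0 c = k) ∧ a = a0 * P b n

/-- the numbers of the colours -/
def Cn (k : ℕ) (n : Fin 4 → ℕ) (cl : List (Fin 8)) : Prop :=
  ∀ j, cl.count (ev j) = k + n j ∧ cl.count (od j) = k + n j

theorem Gd.step (hb : OddB b) {k : ℕ} {n : Fin 4 → ℕ} {a : M b} (h : Gd b k n a) (j : Fin 4)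
    (x : H) : Gd b k (Pi.single j 1 + n) (cap b j x * a) := by
  obtain ⟨a0, h1, h2, rfl⟩ := h
  refine ⟨a0, h1, h2, ?_⟩
  rw [← mul_assoc, central (pm_cap hb j x), h1.cap hb, P_add hb, P_single, mul_assoc]

theorem exists_cn (k : ℕ) (n : Fin 4 → ℕ) : ∃ cl, Cn k n cl := by
  obtain ⟨cl, h⟩ := exists_cl fun c => k + ![n 0, n 0, n 1, n 1, n 2, n 2, n 3, n 3] c
  refine ⟨cl, fun j => ?_⟩
  rw [h, h]
  fin_cases j <;> exact ⟨rfl, rfl⟩

theorem Cn.le {k : ℕ} {n : Fin 4 → ℕ} {cl : List (Fin 8)} (h : Cn k n cl) (c : Fin 8) :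
    k ≤ cl.count c := by
  obtain ⟨j, rfl | rfl⟩ := ev_or_od c
  · rw [(h j).1]; omega
  · rw [(h j).2]; omega

theorem Cn.perm {k : ℕ} {n : Fin 4 → ℕ} {cl cl' : List (Fin 8)} (h : Cn k n cl)
    (h' : Cn k n cl') : cl.Perm cl' :=
  List.perm_iff_count.2 fun c => by
    obtain ⟨j, rfl | rfl⟩ := ev_or_od c
    · rw [(h j).1, (h' j).1]
    · rw [(h j).2, (h' j).2]

theorem Cn.cons {k : ℕ} {n : Fin 4 → ℕ} {cl : List (Fin 8)} (h : Cn k n cl) (j : Fin 4) :
    Cn k (Pi.single j 1 + n) (ev j :: od j :: cl) := fun i => by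
  have h1 := ev_ne_od j i
  have h2 := (ev_ne_od i j).symm
  by_cases hij : i = j
  · subst hij
    simp only [List.count_cons, beq_iff_eq, if_neg h1, if_neg h2, (h i).1, (h i).2, if_true,
      Pi.add_apply, Pi.single_eq_same]
    omega
  · have h3 : ev j ≠ ev i := fun e => hij ((ev_inj _ _).1 e).symm
    have h4 : od j ≠ od i := fun e => hij ((od_inj _ _).1 e).symm
    simp only [List.count_cons, beq_iff_eq, if_neg h1, if_neg h2, if_neg h3, if_neg h4, (h i).1,
      (h i).2, Pi.add_apply, Pi.single_eq_of_ne hij]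
    omega

/-- lists that do not generate, as functions -/
theorem card_nongen [Finite H] (cl : List (Fin 8)) :
    Nat.card {l : List (X H) // l.map Prod.fst = cl ∧ ¬ GenM (cls b l)} ≤
      Nat.card {x : Fin cl.length → H //
        Subgroup.closure (Set.range fun i => (x i)⁻¹ * b (cl.get i) * x i) ≠ ⊤} := by
  have key : ∀ (l : List (X H)) (hl : l.map Prod.fst = cl),
      Subgroup.closure (Set.range fun i =>
        (frames cl ⟨l, hl⟩ i)⁻¹ * b (cl.get i) * frames cl ⟨l, hl⟩ i) = ⊤ → GenM (cls b l) := by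
    rintro l rfl hc K hK
    rw [eq_top_iff, ← hc, Subgroup.closure_le]
    rintro _ ⟨i, rfl⟩
    have hi : i.val < l.length := by simpa using i.2
    have h1 := in_cls.1 hK l[i.val] (List.getElem_mem hi)
    rw [px, K.inv_mem_iff] at h1
    simpa [frames] using h1
  refine Nat.card_le_card_of_injective
    (fun l => ⟨frames cl ⟨l.1, l.2.1⟩, fun hc => l.2.2 (key l.1 l.2.1 hc)⟩) fun l l' h => ?_
  have h1 := (frames cl).injective (congrArg Subtype.val h)
  exact Subtype.ext (Subtype.mk.inj h1)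

/-- the first part does not generate, the second part has a prescribed product -/
theorem card_split [Finite H] (cl cl' : List (Fin 8)) {B : ℝ}
    (h : ∀ g : H, (Nat.card H * Nat.card {l // XL b cl' g l} : ℝ) ≤ B) :
    (Nat.card H * Nat.card {l // XL b (cl ++ cl') 1 l ∧ ¬ GenM (cls b l)} : ℝ) ≤
      Nat.card {l : List (X H) // l.map Prod.fst = cl ∧ ¬ GenM (cls b l)} * B := by
  haveI := finite_cols (H := H) cl fun l => ¬ GenM (cls b l)
  haveI := Fintype.ofFinite {l : List (X H) // l.map Prod.fst = cl ∧ ¬ GenM (cls b l)}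
  haveI : ∀ g : H, Finite {l // XL b cl' g l} := fun g => finite_cols cl' _
  have h1 : Nat.card {l // XL b (cl ++ cl') 1 l ∧ ¬ GenM (cls b l)} ≤
      Nat.card (Σ a : {l : List (X H) // l.map Prod.fst = cl ∧ ¬ GenM (cls b l)},
        {l // XL b cl' (RA.pm b (cls b a.1))⁻¹ l}) := by
    have e : ∀ l : List (X H),
        cls b l = cls b (l.take cl.length) * cls b (l.drop cl.length) := fun l => by
      rw [← cls_append, List.take_append_drop]
    refine Nat.card_le_card_of_injective (fun l => ⟨⟨l.1.take cl.length, by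
      rw [List.map_take, l.2.1.1, List.take_left], fun hg => l.2.2 (by
        rw [e]; exact hg.mul _)⟩, ⟨l.1.drop cl.length, by
      rw [List.map_drop, l.2.1.1, List.drop_left], by
        have h2 := l.2.1.2
        rw [e, map_mul] at h2
        exact eq_inv_of_mul_eq_one_right h2⟩⟩) fun l l' hl => ?_
    have h2 := congrArg (fun x : (Σ a : {l : List (X H) // l.map Prod.fst = cl ∧
      ¬ GenM (cls b l)}, {l // XL b cl' (RA.pm b (cls b a.1))⁻¹ l}) => x.1.1 ++ x.2.1) hl
    simp only [List.take_append_drop] at h2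
    exact Subtype.ext h2
  rw [Nat.card_sigma] at h1
  calc (Nat.card H * Nat.card {l // XL b (cl ++ cl') 1 l ∧ ¬ GenM (cls b l)} : ℝ)
      ≤ Nat.card H * ((∑ a : {l : List (X H) // l.map Prod.fst = cl ∧ ¬ GenM (cls b l)},
          Nat.card {l // XL b cl' (RA.pm b (cls b a.1))⁻¹ l} : ℕ) : ℝ) :=
        mul_le_mul_of_nonneg_left (by exact_mod_cast h1) (Nat.cast_nonneg _)
    _ ≤ ∑ _a : {l : List (X H) // l.map Prod.fst = cl ∧ ¬ GenM (cls b l)}, B := by
        rw [Nat.cast_sum, Finset.mul_sum]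
        exact Finset.sum_le_sum fun a _ => h _
    _ = _ := by
        rw [Finset.sum_const, Finset.card_univ, nsmul_eq_mul, Nat.card_eq_fintype_card]

theorem card_mono [Finite H] (cl : List (Fin 8)) (g : H) {Q Q' : List (X H) → Prop}
    (h : ∀ l, XL b cl g l → Q l → Q' l) :
    (Nat.card {l // XL b cl g l ∧ Q l} : ℝ) ≤ Nat.card {l // XL b cl g l ∧ Q' l} := by
  haveI := finite_XL (b := b) cl g Q'
  exact_mod_cast Nat.card_le_card_of_injective
    (fun l : {l // XL b cl g l ∧ Q l} =>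
      (⟨l.1, l.2.1, h _ l.2.1 l.2.2⟩ : {l // XL b cl g l ∧ Q' l}))
    fun l l' e => Subtype.ext (Subtype.mk.inj e)

/-- the statement for given numbers of caps -/
def Cl (m k : ℕ) (n : Fin 4 → ℕ) : Prop :=
  ∀ η : ℝ, 0 < η → All m fun H _ b => ∀ cl, Cn k n cl →
    (Nat.card H * Nat.card {l // XL b cl 1 l ∧ ¬ Gd b k n (cls b l)} : ℝ) ≤
      η * (Nat.card H : ℝ) ^ cl.length

/-- no caps -/
theorem base (hQ : RowQ2) (hE : RowEH) (m : ℕ) : ∃ R, ∀ k, R + 3 ≤ k → Cl m k 0 := by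
  obtain ⟨R, -, hR⟩ := hE m
  refine ⟨R, fun k hk η hη => ?_⟩
  refine ((hQ m 1 one_pos).and (hR (η / 2) (by positivity))).mono ?_
  rintro H _ _ b hb - ⟨h1, h2⟩ cl hcl
  obtain ⟨c1, hc1⟩ := exists_cl fun _ => R
  obtain ⟨c2, hc2⟩ := exists_cl fun _ => k - R
  have hp : cl.Perm (c1 ++ c2) := hcl.perm fun j => by
    simp only [List.count_append, hc1, hc2, Pi.zero_apply]
    omega
  have h3 := h2 (Fin c1.length) c1.get fun j => by
    have := Q2.count_le c1.get (fun c => c = ev j ∨ c = od j) (ev_ne_od j j) (Or.inl rfl)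
      (Or.inr rfl)
    rw [List.ofFn_get, hc1, hc1] at this
    omega
  rw [Nat.card_eq_fintype_card (α := Fin _), Fintype.card_fin] at h3
  have h4 := card_split (b := b) c1 c2 fun g =>
    (h1 c2 (fun c => by rw [hc2]; omega) g).2
  have h5 : (Nat.card {l : List (X H) // l.map Prod.fst = c1 ∧ ¬ GenM (cls b l)} : ℝ) ≤
      η / 2 * (Nat.card H : ℝ) ^ c1.length :=
    le_trans (by exact_mod_cast card_nongen c1) h3
  have h6 := card_mono (b := b) cl 1 (Q := fun l => ¬ Gd b k 0 (cls b l))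
    (Q' := fun l => ¬ GenM (cls b l)) fun l hl hn hg => hn ⟨_, hg, fun c => by
      rw [cnt_cls, hl.1]
      obtain ⟨j, rfl | rfl⟩ := ev_or_od c
      · exact (hcl j).1
      · exact (hcl j).2, by rw [P_zero, mul_one]⟩
  rw [card_perm hp 1 fun a => ¬ GenM a] at h6
  calc _ ≤ _ := mul_le_mul_of_nonneg_left h6 (Nat.cast_nonneg _)
    _ ≤ _ := h4
    _ ≤ η / 2 * (Nat.card H : ℝ) ^ c1.length * ((1 + 1) * (Nat.card H : ℝ) ^ c2.length) :=
        mul_le_mul_of_nonneg_right h5 (by positivity)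
    _ = _ := by rw [hp.length_eq, List.length_append, pow_add]; ring

theorem arith {h A A' B η : ℝ} {N : ℕ} (h0 : 0 ≤ h) (h5 : A ≤ A')
    (h3 : A' ≤ 4 * h ^ 2 * B + η / 2 * h ^ (N + 1)) (h4 : h * B ≤ η / 8 * h ^ N) :
    h * A ≤ η * h ^ (N + 1 + 1) :=
  calc h * A ≤ h * (4 * h ^ 2 * B + η / 2 * h ^ (N + 1)) :=
        mul_le_mul_of_nonneg_left (h5.trans h3) h0
    _ = 4 * h ^ 2 * (h * B) + η / 2 * h ^ (N + 2) := by ring
    _ ≤ 4 * h ^ 2 * (η / 8 * h ^ N) + η / 2 * h ^ (N + 2) := by gcongr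
    _ = _ := by ring

/-- one more cap -/
theorem step (hR : RowR1) (m : ℕ) : ∃ L, ∀ k, L ≤ k → ∀ (n : Fin 4 → ℕ) (j : Fin 4),
    Cl m k n → Cl m k (Pi.single j 1 + n) := by
  obtain ⟨L, hL⟩ := hR m
  refine ⟨L, fun k hk n j ih η hη => ?_⟩
  refine ((ih (η / 8) (by positivity)).and (hL (η / 2) (by positivity))).mono ?_
  rintro H _ _ b hb - ⟨h1, h2⟩ cl hcl
  obtain ⟨cl', hcl'⟩ := exists_cn k n
  have hp : cl.Perm (ev j :: od j :: cl') := hcl.perm (hcl'.cons j)
  have h3 := h2 cl' (fun c => hk.trans (hcl'.le c)) j (Gd b k n)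
  have h4 := h1 cl' hcl'
  have hs : ∀ a x, Gd b k n a → Gd b k (Pi.single j 1 + n) (cap b j x * a) :=
    fun a x g => g.step hb j x
  generalize (Pi.single j 1 + n : Fin 4 → ℕ) = n' at hs ⊢
  have h5 := card_mono (b := b) (ev j :: od j :: cl') 1
    (Q := fun l => ¬ Gd b k n' (cls b l))
    (Q' := fun l => ¬ ∃ h l', XL b cl' 1 l' ∧ Gd b k n (cls b l') ∧
      cls b l = cap b j h * cls b l') fun l _ hn ⟨x, l', _, g, e⟩ => hn (by
        rw [e]; exact hs _ x g)
  rw [← card_perm hp 1 fun a => ¬ Gd b k n' a] at h5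
  rw [hp.length_eq]
  exact arith (Nat.cast_nonneg _) h5 h3 h4

theorem all_n {Q : (Fin 4 → ℕ) → Prop} (h0 : Q 0) (h : ∀ n j, Q n → Q (Pi.single j 1 + n))
    (n : Fin 4 → ℕ) : Q n := by
  obtain ⟨N, hN⟩ : ∃ N, ∑ j, n j = N := ⟨_, rfl⟩
  induction N generalizing n with
  | zero =>
    obtain rfl : n = 0 := funext fun j => (Finset.sum_eq_zero_iff.1 hN) j (Finset.mem_univ j)
    exact h0
  | succ N ih =>
    obtain ⟨j, -, hj⟩ := Finset.exists_ne_zero_of_sum_ne_zero (s := Finset.univ) (f := n)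
      (by omega)
    have e : n = Pi.single j 1 + Function.update n j (n j - 1) := funext fun i => by
      by_cases hi : i = j
      · subst hi
        simp only [Pi.add_apply, Pi.single_eq_same, Function.update_self]
        omega
      · simp only [Pi.add_apply, Pi.single_eq_of_ne hi, Function.update_of_ne hi, zero_add]
    rw [e]
    refine h _ j (ih _ ?_)
    rw [e] at hN
    simp only [Pi.add_apply, Finset.sum_add_distrib, Finset.sum_pi_single', Finset.mem_univ,
      if_true] at hN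
    omega

end R2

open R2 in
theorem rowR2 (hQ : RowQ2) (hE : RowEH) (hR : RowR1) : RowR2 := by
  intro m
  obtain ⟨R, h0⟩ := base hQ hE m
  obtain ⟨L, h1⟩ := step hR m
  refine ⟨L + R + 3, fun n η hη => ?_⟩
  have h := all_n (h0 (L + R + 3) (by omega)) (h1 (L + R + 3) (by omega)) (fun _ => n) η hη
  refine h.mono fun H _ _ b _ _ h => ?_
  have h2 := h (cs (L + R + 3 + n)) fun j => ⟨count_cs _ _, count_cs _ _⟩
  rw [length_cs] at h2
  exact h2

end Vale.Agent.Q258E
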