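import Vale.Agent.Q258E.Rows

/-!
# Row S: stable equivalence with a bounded number of caps
-/

set_option linter.all false

namespace Vale.Agent.Q258E

open Vale.Agent.P258.Braid Vale.Agent.N258B Vale.Agent.Q258D Vale.Agent.Q258D.RA

namespace S

section One

variable {H : Type} [Group H] {b : Fin 8 → H}

theorem cls_cons (s : X H) (l : List (X H)) : cls b (s :: l) = gn b s * cls b l := by
  unfold cls
  rw [FreeMonoid.ofList_cons, map_mul]
  rfl

theorem rep_perm {cl cl' : List (Fin 8)} (h : cl.Perm cl') :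
    ∀ l : List (X H), l.map Prod.fst = cl →
      ∃ l' : List (X H), l'.map Prod.fst = cl' ∧ cls b l' = cls b l := by
  induction h with
  | nil => exact fun l hl => ⟨l, hl, rfl⟩
  | cons c _ ih =>
    intro l hl
    obtain ⟨s, l, rfl, h1, h2⟩ := List.map_eq_cons_iff.1 hl
    obtain ⟨l', h3, h4⟩ := ih l h2
    exact ⟨s :: l', by rw [List.map_cons, h1, h3], by rw [cls_cons, cls_cons, h4]⟩
  | swap c c' r =>
    intro l hl
    obtain ⟨s, l, rfl, h1, h2⟩ := List.map_eq_cons_iff.1 hl
    obtain ⟨t, l, rfl, h3, h4⟩ := List.map_eq_cons_iff.1 h2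
    refine ⟨lx (px b s) t :: s :: l, ?_, ?_⟩
    · rw [List.map_cons, List.map_cons, h1, h4, ← h3]
      rfl
    · rw [cls_cons, cls_cons, cls_cons, cls_cons, ← mul_assoc, ← gn_rel, mul_assoc]
  | trans _ _ ih ih' =>
    intro l hl
    obtain ⟨l', h1, h2⟩ := ih l hl
    obtain ⟨l'', h3, h4⟩ := ih' l' h1
    exact ⟨l'', h3, h4.trans h2⟩

theorem rep (a : M b) (cl : List (Fin 8)) (h : ∀ c, cnt a c = cl.count c) :
    ∃ l : List (X H), l.map Prod.fst = cl ∧ cls b l = a := by
  obtain ⟨u, rfl⟩ := mkM_surj a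
  refine rep_perm (cl := (FreeMonoid.toList u).map Prod.fst) (List.perm_iff_count.2 fun c => ?_)
    (FreeMonoid.toList u) rfl
  rw [← h, ← cnt_mk (b := b)]
  rfl

theorem unit_of_cap {G : Type} [Monoid G] (q : M b →* G) (hq : ∀ j h, q (RA.cap b j h) = 1)
    (a : M b) : IsUnit (q a) := by
  induction a using M_ind with
  | h1 => rw [map_one]; exact isUnit_one
  | h s a ih =>
    rw [map_mul]
    refine IsUnit.mul ?_ ih
    obtain ⟨c, h⟩ := s
    obtain ⟨j, hj⟩ := ev_or_od c
    have h1 := hq j h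
    have h2 := h1
    rw [RA.cap, map_mul] at h1
    rw [RA.cap, gn_rel, map_mul] at h2
    have h3 := left_inv_eq_right_inv h2 h1
    rw [h3] at h2
    rcases hj with rfl | rfl
    · exact ⟨⟨_, _, h1, h2⟩, rfl⟩
    · exact ⟨⟨_, _, h2, h1⟩, rfl⟩

/-- a block may be twisted by the powers of its product at a bounded cost -/
theorem twist (hb : OddB b) {a a1 R : M b} {n : Fin 4 → ℕ} (hR : GenM R)
    (h : ∀ R : M b, GenM R → R * (a * a1) = R * P b n) (e : ℤ) :
    R * lm b (RA.pm b a ^ e) a * P b n = R * a * P b n := by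
  have h0 : RA.pm b (a * a1) = 1 := by
    have := congrArg (RA.pm b) (h R hR)
    rwa [map_mul, map_mul (RA.pm b) R, pm_P hb, mul_right_inj] at this
  have step : ∀ e : ℤ, R * lm b (RA.pm b a ^ (e + 1)) a * P b n =
      R * lm b (RA.pm b a ^ e) a * P b n := fun e => by
    have h1 : ∀ R : M b, GenM R → R * P b n =
        R * (lm b (RA.pm b a ^ e) a * lm b (RA.pm b a ^ e) a1) := fun R hR => by
      rw [← map_mul, hR.move _ h0, h R hR]
    have h2 : lm b (RA.pm b a ^ (e + 1)) a * lm b (RA.pm b a ^ e) a =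
        lm b (RA.pm b a ^ e) a * lm b (RA.pm b a ^ e) a := by
      rw [mul_eq (lm b (RA.pm b a ^ e) a), pm_lm, ← lm_mul]
      congr 3
      group
    rw [h1 _ (hR.mul _), h1 _ (hR.mul _)]
    simp only [mul_assoc]
    rw [← mul_assoc (lm b (RA.pm b a ^ (e + 1)) a), h2, mul_assoc]
  induction e using Int.induction_on with
  | zero => rw [zpow_zero, lm_one]
  | succ e ih => rw [step, ih]
  | pred e ih => rw [← step, sub_add_cancel, ih]

theorem more (hb : OddB b) {x y : M b} {n : Fin 4 → ℕ} {t : ℕ} (hn : ∀ j, n j ≤ t)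
    (h : x * P b n = y * P b n) : x * P b (fun _ => t) = y * P b fun _ => t := by
  have e : (fun _ => t : Fin 4 → ℕ) = n + fun j => t - n j := funext fun j => by
    have := hn j
    simp only [Pi.add_apply]
    omega
  rw [e, P_add hb, ← mul_assoc, h, mul_assoc]

end One

section Fam

variable {I : Type} {H : I → Type} [∀ i, Group (H i)] (b : ∀ i, Fin 8 → H i)

/-- the base of the product -/
def bb : Fin 8 → ∀ i, H i := fun c i => b i c

/-- a component of a band -/
def px' (i : I) (x : X (∀ i, H i)) : X (H i) := (x.1, x.2 i)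

/-- the components -/
def cp (i : I) : M (bb b) →* M (b i) :=
  liftM (fun x => gn (b i) (px' i x)) fun s t => gn_rel _ _

variable {b}

theorem cp_gn (i : I) (x : X (∀ i, H i)) : cp b i (gn (bb b) x) = gn (b i) (px' i x) :=
  liftM_gn _ _ _

theorem pm_cp (i : I) (a : M (bb b)) : RA.pm (b i) (cp b i a) = RA.pm (bb b) a i := by
  induction a using M_ind with
  | h1 => simp
  | h s a ih => simp only [map_mul, cp_gn, pm_gn, ih, Pi.mul_apply]; rfl

theorem cp_lm (i : I) (g : ∀ i, H i) (a : M (bb b)) :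
    cp b i (lm (bb b) g a) = lm (b i) (g i) (cp b i a) := by
  induction a using M_ind with
  | h1 => simp
  | h s a ih => simp only [map_mul, cp_gn, lm_gn, ih]; rfl

theorem cp_cap (i : I) (j : Fin 4) (h : ∀ i, H i) :
    cp b i (RA.cap (bb b) j h) = RA.cap (b i) j (h i) := by
  rw [RA.cap, map_mul, cp_gn, cp_gn]
  rfl

theorem cp_P (i : I) (n : Fin 4 → ℕ) : cp b i (P (bb b) n) = P (b i) n := by
  simp only [P, map_mul, map_pow, cp_cap, Pi.one_apply]

theorem glue (cl : List (Fin 8)) : ∀ l : ∀ i, List (X (H i)), (∀ i, (l i).map Prod.fst = cl) →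
    ∃ L : List (X (∀ i, H i)), L.map Prod.fst = cl ∧
      ∀ i, cp b i (cls (bb b) L) = cls (b i) (l i) := by
  induction cl with
  | nil =>
    intro l hl
    refine ⟨[], rfl, fun i => ?_⟩
    rw [List.map_eq_nil_iff.1 (hl i)]
    exact map_one _
  | cons c cl ih =>
    intro l hl
    choose s l' h1 h2 h3 using fun i => List.map_eq_cons_iff.1 (hl i)
    obtain ⟨L, h4, h5⟩ := ih l' h3
    refine ⟨(c, fun i => (s i).2) :: L, by rw [List.map_cons, h4], fun i => ?_⟩
    rw [h1, cls_cons, cls_cons, map_mul, cp_gn, h5, ← h2 i]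
    rfl

/-- equality up to a bounded number of caps, next to generating rows -/
def eqv (hb : ∀ i, OddB (b i)) : Con (M (bb b)) where
  r a a' := ∃ n n' : Fin 4 → ℕ, ∀ i (R : M (b i)), GenM R →
    R * cp b i a * P (b i) n = R * cp b i a' * P (b i) n'
  iseqv :=
    { refl := fun a => ⟨0, 0, fun _ _ _ => rfl⟩
      symm := fun ⟨n, n', h⟩ => ⟨n', n, fun i R hR => (h i R hR).symm⟩
      trans := fun ⟨n, n', h⟩ ⟨k, k', h'⟩ => ⟨n + k, k' + n', fun i R hR => by
        rw [P_add (hb i), ← mul_assoc, h i R hR, mul_assoc, ← P_add (hb i), add_comm,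
          P_add (hb i), ← mul_assoc, h' i R hR, mul_assoc, ← P_add (hb i)]⟩ }
  mul' := fun {w x y z} ⟨n, n', h⟩ ⟨k, k', h'⟩ => ⟨k + n, n' + k', fun i R hR => by
    rw [map_mul, map_mul, P_add (hb i), ← mul_assoc, ← mul_assoc, h' i _ (hR.mul _),
      mul_assoc, ← P_add (hb i), add_comm, P_add (hb i), ← mul_assoc, mul_assoc (R * _),
      ← central (pm_P (hb i) n), ← mul_assoc, h i R hR, mul_assoc (R * _),
      central (pm_P (hb i) n'), P_add (hb i)]
    simp only [mul_assoc]⟩

theorem eqv_cap (hb : ∀ i, OddB (b i)) (j : Fin 4) (h : ∀ i, H i) :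
    (eqv hb).mk' (RA.cap (bb b) j h) = 1 :=
  (Con.eq _).2 ⟨0, Pi.single j 1, fun i R hR => by
    rw [cp_cap, P_zero, P_single, map_one, mul_one, mul_one, hR.cap (hb i)]⟩

/-- families of rows with the same colours and the same product are equal up to caps -/
theorem stable (hS : RowSt2) {m : ℕ} {p : I → ℕ} (hp : ∀ i, (p i).Prime ∧ 7 ≤ p i)
    (hH : ∀ i, Pw (p i) m (H i)) (hb : ∀ i, OddB (b i)) (hR : ∀ i, ∃ R : M (b i), GenM R)
    (hs0 : Function.Surjective (RA.pm (bb b))) {a a' : M (bb b)}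
    (hc : cm' (bb b) a = cm' (bb b) a') (hp' : RA.pm (bb b) a = RA.pm (bb b) a') :
    eqv hb a a' := by
  let q : M (bb b) →* (eqv hb).Quotientˣ := IsUnit.liftRight _ (unit_of_cap _ (eqv_cap hb))
  have hq : ∀ x, (q x : (eqv hb).Quotient) = (eqv hb).mk' x := fun x =>
    IsUnit.coe_liftRight _ _ x
  have hqe : ∀ x y, q x = q y ↔ eqv hb x y := fun x y => by
    rw [Units.ext_iff, hq, hq]
    exact Con.eq _
  have hqs : ∀ u, ∃ x, q x = u := fun u => by
    obtain ⟨x, hx⟩ := Con.mk'_surjective (c := eqv hb) u.1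
    exact ⟨x, Units.ext (by rw [hq, hx])⟩
  let f0 : (eqv hb).Quotient →* (∀ i, H i) := Con.lift _ (RA.pm (bb b)) (by
    rintro x y ⟨n, n', h⟩
    rw [Con.ker_rel]
    funext i
    obtain ⟨R, hR⟩ := hR i
    have := congrArg (RA.pm (b i)) (h i R hR)
    rwa [map_mul, map_mul, map_mul, map_mul, pm_P (hb i), pm_P (hb i), mul_one, mul_one,
      mul_right_inj, pm_cp, pm_cp] at this)
  let f : (eqv hb).Quotientˣ →* (∀ i, H i) := f0.comp (Units.coeHom _)
  have hf : ∀ x, f (q x) = RA.pm (bb b) x := fun x => by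
    change f0 (q x : (eqv hb).Quotient) = _
    rw [hq]
    exact Con.lift_mk' _ _
  have hs : Function.Surjective f := fun g => by
    obtain ⟨x, hx⟩ := hs0 g
    exact ⟨q x, by rw [hf, hx]⟩
  have hk : f.ker ≤ Subgroup.center _ := fun u hu => by
    obtain ⟨x, rfl⟩ := hqs u
    rw [MonoidHom.mem_ker, hf] at hu
    refine Subgroup.mem_center_iff.2 fun v => ?_
    obtain ⟨y, rfl⟩ := hqs v
    rw [← map_mul, ← map_mul, central hu]
  have hcomm : ∀ u v, (∀ i, f v i ∈ Subgroup.zpowers (f u i)) → Commute u v := fun u v h => by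
    obtain ⟨x, rfl⟩ := hqs u
    obtain ⟨y, rfl⟩ := hqs v
    obtain ⟨x1, hx1⟩ := hqs (q x)⁻¹
    obtain ⟨n, n', hn⟩ := (hqe (x * x1) 1).1 (by rw [map_mul, hx1, mul_inv_cancel, map_one])
    have h1 : q (lm (bb b) (RA.pm (bb b) y) x) = q x := by
      refine (hqe _ _).2 ⟨n', n', fun i R hR => ?_⟩
      obtain ⟨e, he⟩ := Subgroup.mem_zpowers_iff.1 (h i)
      rw [hf, hf, ← pm_cp] at he
      rw [cp_lm, ← he]
      refine twist (hb i) (a1 := cp b i x1 * P (b i) n) hR (fun R hR => ?_) e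
      have := hn i R hR
      rw [map_mul, map_one, mul_one] at this
      rw [← this]
      simp only [mul_assoc]
    refine Commute.symm ?_
    change q y * q x = q x * q y
    rw [← map_mul, mul_eq, map_mul, h1]
  let α : Fin 8 → Abelianization (eqv hb).Quotientˣ := fun c =>
    Abelianization.of (q (gn (bb b) (c, 1)))
  have hα : ∀ x : X (∀ i, H i), Abelianization.of (q (gn (bb b) x)) = α x.1 := fun x => by
    obtain ⟨y, hu⟩ := hs0 x.2
    have h1 := mul_eq y (gn (bb b) x)
    rw [lm_gn, hu] at h1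
    have h2 := congrArg (fun z => Abelianization.of (q z)) h1
    simp only [map_mul] at h2
    rw [mul_comm] at h2
    rw [mul_right_cancel h2]
    simp [α, lx]
  have hab : ∀ x : M (bb b), Abelianization.of (q x) =
      ((Multiplicative.toAdd (cm' (bb b) x)).map α).prod := fun x => by
    induction x using M_ind with
    | h1 => simp
    | h s x ih =>
      have h : cm' (bb b) (gn (bb b) s) = Multiplicative.ofAdd {s.1} := liftM_gn _ _ _
      rw [map_mul, map_mul, ih, hα, map_mul, h]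
      simp
  have h1 : (q a)⁻¹ * q a' ∈ commutator (eqv hb).Quotientˣ := by
    rw [← Abelianization.ker_of, MonoidHom.mem_ker, map_mul, map_inv, hab, hab, hc, inv_mul_cancel]
  let E : (∀ i, H i) ≃* ((i : I) → Fin m → SLp (p i)) :=
    MulEquiv.piCongrRight fun i => (hH i).some
  have h2 := hS m I p hp _ (E.toMonoidHom.comp f) (E.surjective.comp hs)
    (fun u hu => hk (by
      rw [MonoidHom.mem_ker] at hu ⊢
      exact E.map_eq_one_iff.1 hu))
    (fun u v h => hcomm u v fun i => by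
      obtain ⟨e, he⟩ := Subgroup.mem_zpowers_iff.1 (h i)
      refine Subgroup.mem_zpowers_iff.2 ⟨e, (hH i).some.injective ?_⟩
      rw [map_zpow]
      exact he)
    _ h1 (by
      change E (f _) = 1
      rw [map_mul, map_inv, hf, hf, hp', inv_mul_cancel, map_one])
  rw [inv_mul_eq_one] at h2
  exact (hqe _ _).1 h2

end Fam

/-- three bands of every colour -/
def cl0 : List (Fin 8) := List.finRange 8 ++ List.finRange 8 ++ List.finRange 8

theorem onto (hQ : RowQ2) (m : ℕ) : All m fun H _ b => ∀ g : H, ∃ l, XL b cl0 g l := by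
  obtain ⟨p0, h⟩ := hQ m (1 / 2) (by norm_num)
  refine ⟨p0, fun p hp hp0 H _ hH b hb hn g => ?_⟩
  have h1 := (h p hp hp0 H hH b hb hn cl0 (by decide) g).1
  haveI : NeZero p := ⟨hp.ne_zero⟩
  haveI : Finite H := Finite.of_equiv _ hH.some.symm.toEquiv
  have h2 : (0 : ℝ) < Nat.card H := by exact_mod_cast Nat.card_pos
  by_contra hc
  haveI : IsEmpty {l // XL b cl0 g l} := ⟨fun l => hc ⟨l.1, l.2⟩⟩
  rw [Nat.card_of_isEmpty (α := {l // XL b cl0 g l}), Nat.cast_zero, mul_zero] at h1
  have h3 : (0 : ℝ) < (1 - 1 / 2) * (Nat.card H : ℝ) ^ cl0.length := by positivity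
  exact absurd h1 (not_le.2 h3)

/-- the statement for one list of colours -/
theorem fixed (hQ : RowQ2) (hS : RowSt2) (m : ℕ) (cl : List (Fin 8)) :
    ∃ t : ℕ, All m fun _ _ b => ∀ a a' R : M b, GenM R → (∀ c, cnt a c = cl.count c) →
      (∀ c, cnt a' c = cl.count c) → RA.pm b a = RA.pm b a' →
        R * a * P b (fun _ => t) = R * a' * P b fun _ => t := by
  obtain ⟨p0, h0⟩ := onto hQ m
  by_contra hc
  have h : ∀ t : ℕ, ∃ (p : ℕ) (H : Type) (_ : Group H) (b : Fin 8 → H) (a a' R : M b),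
      p.Prime ∧ max p0 7 ≤ p ∧ Pw p m H ∧ OddB b ∧ NGen b ∧ GenM R ∧
        (∀ c, cnt a c = cl.count c) ∧ (∀ c, cnt a' c = cl.count c) ∧
        RA.pm b a = RA.pm b a' ∧ R * a * P b (fun _ => t) ≠ R * a' * P b fun _ => t := fun t => by
    by_contra h1
    refine hc ⟨t, max p0 7, fun p hp hp0 H _ hH b hb hn a a' R hR ha ha' hpm => ?_⟩
    by_contra h2
    exact h1 ⟨p, H, _, b, a, a', R, hp, hp0, hH, hb, hn, hR, ha, ha', hpm, h2⟩
  choose p H inst b a a' R hp hp0 hH hb hn hR ha ha' hpm hne using h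
  choose l hl hl' using fun i => rep (a i) cl (ha i)
  choose k hk hk' using fun i => rep (a' i) cl (ha' i)
  obtain ⟨A, hA, hA'⟩ := glue (b := b) cl l hl
  obtain ⟨B, hB, hB'⟩ := glue (b := b) cl k hk
  obtain ⟨n, n', h⟩ := stable hS (fun i => ⟨hp i, le_of_max_le_right (hp0 i)⟩) hH hb
    (fun i => ⟨R i, hR i⟩) (fun g => by
      choose l hl hl' using fun i =>
        h0 (p i) (hp i) (le_of_max_le_left (hp0 i)) (H i) (hH i) (b i) (hb i) (hn i) (g i)
      obtain ⟨A, -, hA'⟩ := glue (b := b) cl0 l hl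
      exact ⟨cls (bb b) A, funext fun i => by rw [← pm_cp, hA', hl']⟩)
    (a := cls (bb b) A) (a' := cls (bb b) B) (by
      apply Multiplicative.toAdd.injective
      refine Multiset.ext.2 fun c => ?_
      exact (cnt_mk A c).trans (by rw [hA, ← hB]; exact (cnt_mk B c).symm))
    (funext fun i => by rw [← pm_cp, ← pm_cp, hA', hB', hl', hk', hpm])
  have h1 := h (n 0 + n 1 + n 2 + n 3) _ (hR _)
  rw [hA', hB', hl', hk'] at h1
  obtain rfl : n = n' := funext fun j => by
    have := congrArg (fun x => cnt x (ev j)) h1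
    simp only [cnt_mul, cnt_P_ev, ha, ha'] at this
    omega
  exact hne _ (more (hb _) (fun j => by fin_cases j <;> simp <;> omega) h1)

theorem exists_list (n : Fin 8 → ℕ) : ∃ cl : List (Fin 8), ∀ c, cl.count c = n c := by
  refine ⟨(∑ c, Multiset.replicate (n c) c).toList, fun c => ?_⟩
  rw [← Multiset.coe_count, Multiset.coe_toList, Multiset.count_sum']
  simp [Multiset.count_replicate]

end S

open S in
theorem rowS (hQ : RowQ2) (hS : RowSt2) : RowS := by
  intro m L
  choose cl hcl using exists_list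
  choose t p0 h using fun n : Fin 8 → Fin (L + 1) => fixed hQ hS m (cl fun c => n c)
  obtain ⟨T, hT⟩ := (Set.finite_range t).bddAbove
  obtain ⟨Q, hQ⟩ := (Set.finite_range p0).bddAbove
  refine ⟨T, Q, fun p hp hp0 H _ hH b hb hn a a' R hR hc hL hpm => ?_⟩
  let n : Fin 8 → Fin (L + 1) := fun c => ⟨cnt a c, Nat.lt_succ_of_le (hL c)⟩
  exact more hb (fun _ => hT ⟨n, rfl⟩) (h n p hp ((hQ ⟨n, rfl⟩).trans hp0) H hH b hb hn a a' R hR
    (fun c => (hcl _ c).symm) (fun c => (hc c).symm.trans (hcl _ c).symm) hpm)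

end Vale.Agent.Q258E
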