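import Vale.Agent.Q258E.Rows

/-!
Central extensions of `SL(2, A)` for rings with many units (Steinberg)
-/

namespace Vale.Agent.Q258E

namespace St1

variable {A : Type} [CommRing A]

/-- the group `SL(2, A)` -/
abbrev SL (A : Type) [CommRing A] := Matrix.SpecialLinearGroup (Fin 2) A

/-- a lower triangular matrix -/
def loM (t : A) : SL A := ⟨!![1, 0; t, 1], by simp [Matrix.det_fin_two]⟩

/-- the Weyl element -/
def wM : SL A := ⟨!![0, 1; -1, 0], by simp [Matrix.det_fin_two]⟩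

theorem sl_ext {g h : SL A} (h00 : g.1 0 0 = h.1 0 0) (h01 : g.1 0 1 = h.1 0 1)
    (h10 : g.1 1 0 = h.1 1 0) (h11 : g.1 1 1 = h.1 1 1) : g = h := by
  apply Subtype.ext
  ext i j
  fin_cases i <;> fin_cases j
  · exact h00
  · exact h01
  · exact h10
  · exact h11

theorem mul_e (g h : SL A) (i j : Fin 2) :
    (g * h).1 i j = g.1 i 0 * h.1 0 j + g.1 i 1 * h.1 1 j := by
  simp [Matrix.mul_apply, Fin.sum_univ_two]

theorem up_add (s t : A) : upM s * upM t = upM (s + t) := by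
  apply sl_ext <;> simp only [mul_e] <;> simp [upM, add_comm]

theorem up_zero : upM (0 : A) = 1 := by
  apply sl_ext <;> simp [upM]

theorem up_inv (s : A) : (upM s)⁻¹ = upM (-s) := by
  rw [inv_eq_iff_mul_eq_one, up_add, add_neg_cancel, up_zero]

theorem dg_mul (a b : Aˣ) : dgM a * dgM b = dgM (a * b) := by
  apply sl_ext <;> simp only [mul_e] <;> simp [dgM, mul_comm]

theorem dg_one : dgM (1 : Aˣ) = 1 := by
  apply sl_ext <;> simp [dgM]

theorem dg_inv (a : Aˣ) : (dgM a)⁻¹ = dgM a⁻¹ := by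
  rw [inv_eq_iff_mul_eq_one, dg_mul, mul_inv_cancel, dg_one]

theorem dg_up (a : Aˣ) (s : A) : dgM a * upM s * (dgM a)⁻¹ = upM ((a : A) ^ 2 * s) := by
  rw [mul_inv_eq_iff_eq_mul]
  apply sl_ext <;> simp only [mul_e] <;> simp [dgM, upM]
  have h : (a : A) * ((a⁻¹ : Aˣ) : A) = 1 := a.mul_inv
  linear_combination (-(a : A) * s) * h

theorem w_up (t : A) : wM * upM (-t) * wM⁻¹ = loM t := by
  rw [mul_inv_eq_iff_eq_mul]
  apply sl_ext <;> simp only [mul_e] <;> simp [wM, upM, loM]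

theorem w_dg (a : Aˣ) : wM⁻¹ * dgM a * wM = dgM a⁻¹ := by
  rw [mul_assoc, inv_mul_eq_iff_eq_mul]
  apply sl_ext <;> simp only [mul_e] <;> simp [wM, dgM]

theorem w_w : (wM : SL A) * wM = dgM (-1) := by
  apply sl_ext <;> simp only [mul_e] <;> simp [wM, dgM]

theorem up_lo_up (u : Aˣ) :
    upM (u : A) * loM (-((u⁻¹ : Aˣ) : A)) * upM (u : A) = dgM u * wM := by
  apply sl_ext <;> simp only [mul_e] <;> simp [wM, dgM, upM, loM]

theorem cop (g : SL A) : IsCoprime (g.1 0 1) (g.1 1 1) := by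
  have h := g.2
  rw [Matrix.det_fin_two] at h
  exact ⟨-g.1 1 0, g.1 0 0, by linear_combination h⟩

theorem lo_e (q : A) (g : SL A) : (loM q * g).1 1 1 = g.1 1 1 + q * g.1 0 1 := by
  simp only [mul_e]
  simp [loM, add_comm]

/-- the hypotheses on the central extension -/
structure Hy {U : Type} [Group U] (π : U →* SL A) : Prop where
  two : IsUnit (2 : A)
  three : IsUnit (3 : A)
  many : ∀ a c s v : A, IsCoprime a c →
    ∃ q, IsUnit q ∧ IsUnit (v - q) ∧ IsUnit (c + q * a) ∧ IsUnit (1 - s * q)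
  sq : ∀ a b : Aˣ, ∃ s t : Aˣ, (a : A) * (s : A) ^ 2 + (b : A) * (t : A) ^ 2 = 1
  su : Function.Surjective π
  ce : π.ker ≤ Subgroup.center U
  cu : ∀ (u v : U) (s t : A), π u = upM s → π v = upM t → Commute u v
  cd : ∀ (u v : U) (s t : Aˣ), π u = dgM (s ^ 2) → π v = dgM t → Commute u v

variable {U : Type} [Group U] {π : U →* SL A}

namespace Hy

variable (H : Hy π)
include H

theorem fac {u u' : U} (h : π u = π u') : ∃ z, (∀ x, Commute z x) ∧ u = z * u' := by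
  refine ⟨u * u'⁻¹, fun x => ?_, by simp⟩
  have h1 : u * u'⁻¹ ∈ π.ker := by
    rw [MonoidHom.mem_ker, map_mul, map_inv, h, mul_inv_cancel]
  exact (Subgroup.mem_center_iff.1 (H.ce h1) x).symm

theorem conj_eq {u u' : U} (h : π u = π u') (x : U) : u * x * u⁻¹ = u' * x * u'⁻¹ := by
  obtain ⟨z, hz, rfl⟩ := H.fac h
  have h1 := (hz (u' * x * u'⁻¹)).eq
  calc z * u' * x * (z * u')⁻¹ = z * (u' * x * u'⁻¹) * z⁻¹ := by group
    _ = u' * x * u'⁻¹ := by rw [h1]; group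

theorem cm_eq {u u' v v' : U} (h : π u = π u') (h' : π v = π v') :
    u * v * u⁻¹ * v⁻¹ = u' * v' * u'⁻¹ * v'⁻¹ := by
  calc u * v * u⁻¹ * v⁻¹ = u' * v * u'⁻¹ * v⁻¹ := by rw [H.conj_eq h]
    _ = u' * (v * u'⁻¹ * v⁻¹) := by group
    _ = u' * (v' * u'⁻¹ * v'⁻¹) := by rw [H.conj_eq h']
    _ = _ := by group

theorem comm_of {u u' v v' : U} (h : π u = π u') (h' : π v = π v') (hc : Commute u' v') :
    Commute u v := by
  have h1 := H.cm_eq h h'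
  rw [hc.eq, mul_inv_cancel_right, mul_inv_cancel] at h1
  rw [Commute, SemiconjBy, ← mul_inv_eq_one, mul_inv_rev, ← mul_assoc]
  exact h1

/-- a section -/
noncomputable def sec (g : SL A) : U := Function.surjInv H.su g

theorem π_sec (g : SL A) : π (H.sec g) = g := Function.surjInv_eq H.su g

/-- one third -/
noncomputable def th : A := ((H.three.unit⁻¹ : Aˣ) : A)

theorem th_mul : 3 * H.th = 1 := H.three.mul_val_inv

/-- the lift of the upper triangular matrices -/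
noncomputable def X (t : A) : U :=
  H.sec (dgM H.two.unit) * H.sec (upM (H.th * t)) * (H.sec (dgM H.two.unit))⁻¹ *
    (H.sec (upM (H.th * t)))⁻¹

theorem X_eq {d y : U} {t : A} (hd : π d = dgM H.two.unit) (hy : π y = upM (H.th * t)) :
    d * y * d⁻¹ * y⁻¹ = H.X t :=
  H.cm_eq (by rw [hd, H.π_sec]) (by rw [hy, H.π_sec])

theorem π_X (t : A) : π (H.X t) = upM t := by
  unfold X
  simp only [map_mul, map_inv, H.π_sec]
  rw [dg_up, up_inv, up_add]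
  congr 1
  have h := H.th_mul
  have h2 : ((H.two.unit : Aˣ) : A) = 2 := rfl
  rw [h2]
  linear_combination t * h

theorem X_add (s t : A) : H.X s * H.X t = H.X (s + t) := by
  have hy : π (H.sec (upM (H.th * s)) * H.sec (upM (H.th * t))) = upM (H.th * (s + t)) := by
    rw [map_mul, H.π_sec, H.π_sec, up_add, mul_add]
  rw [← H.X_eq (H.π_sec _) hy]
  have hc := (H.cu _ _ _ _ (H.π_sec (upM (H.th * s))) (H.π_X t)).eq
  have h1 : H.X t = H.sec (upM (H.th * s)) * H.X t * (H.sec (upM (H.th * s)))⁻¹ := by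
    rw [hc, mul_inv_cancel_right]
  rw [h1]
  unfold X
  group

theorem X_zero : H.X 0 = 1 := by
  have h := H.X_add 0 0
  rw [add_zero] at h
  exact mul_eq_left.1 h

theorem X_neg (s : A) : H.X (-s) = (H.X s)⁻¹ := by
  rw [eq_inv_iff_mul_eq_one, H.X_add, neg_add_cancel, H.X_zero]

theorem cD_X {u : U} {a : Aˣ} (hu : π u = dgM a) (t : A) :
    u * H.X t * u⁻¹ = H.X ((a : A) ^ 2 * t) := by
  have hd : π (u * H.sec (dgM H.two.unit) * u⁻¹) = dgM H.two.unit := by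
    rw [map_mul, map_mul, map_inv, hu, H.π_sec, dg_inv, dg_mul, dg_mul, mul_comm a,
      mul_inv_cancel_right]
  have hy : π (u * H.sec (upM (H.th * t)) * u⁻¹) = upM (H.th * ((a : A) ^ 2 * t)) := by
    rw [map_mul, map_mul, map_inv, hu, H.π_sec, dg_up]
    congr 1
    ring
  rw [← H.X_eq hd hy]
  unfold X
  group

/-- the lift of the lower triangular matrices -/
noncomputable def Y (t : A) : U := H.sec wM * H.X (-t) * (H.sec wM)⁻¹

theorem π_Y (t : A) : π (H.Y t) = loM t := by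
  unfold Y
  rw [map_mul, map_mul, map_inv, H.π_sec, H.π_X, w_up]

theorem Y_add (s t : A) : H.Y s * H.Y t = H.Y (s + t) := by
  unfold Y
  rw [neg_add, ← H.X_add]
  group

theorem Y_zero : H.Y 0 = 1 := by
  unfold Y
  rw [neg_zero, H.X_zero]
  group

theorem Y_neg (s : A) : H.Y (-s) = (H.Y s)⁻¹ := by
  rw [eq_inv_iff_mul_eq_one, H.Y_add, neg_add_cancel, H.Y_zero]

theorem cD_Y {u : U} {a : Aˣ} (hu : π u = dgM a) (t : A) :
    u * H.Y t * u⁻¹ = H.Y (((a⁻¹ : Aˣ) : A) ^ 2 * t) := by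
  have h1 : π ((H.sec wM)⁻¹ * u * H.sec wM) = dgM a⁻¹ := by
    rw [map_mul, map_mul, map_inv, hu, H.π_sec, w_dg]
  have h2 := H.cD_X h1 (-t)
  unfold Y
  rw [← mul_neg, ← h2]
  group

theorem cW_X {u : U} {a : Aˣ} (hu : π u = dgM a * wM) (t : A) :
    u * H.X t * u⁻¹ = H.Y (-(((a⁻¹ : Aˣ) : A) ^ 2 * t)) := by
  have h1 : π u = π (H.sec (dgM a) * H.sec wM) := by rw [map_mul, H.π_sec, H.π_sec, hu]
  rw [H.conj_eq h1, ← mul_neg, ← H.cD_Y (H.π_sec _)]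
  unfold Y
  rw [neg_neg]
  group

theorem cW_Y {u : U} {a : Aˣ} (hu : π u = dgM a * wM) (t : A) :
    u * H.Y t * u⁻¹ = H.X (-((a : A) ^ 2 * t)) := by
  have h1 : π (u * H.sec wM) = dgM (-a) := by
    rw [map_mul, H.π_sec, hu, mul_assoc, w_w, dg_mul, mul_neg, mul_one]
  have h2 := H.cD_X h1 (-t)
  rw [Units.val_neg, neg_sq, mul_neg] at h2
  rw [← h2]
  unfold Y
  group

/-- the lift of the Weyl elements -/
noncomputable def W (u : Aˣ) : U := H.X u * H.Y (-((u⁻¹ : Aˣ) : A)) * H.X u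

theorem π_W (u : Aˣ) : π (H.W u) = dgM u * wM := by
  unfold W
  rw [map_mul, map_mul, H.π_X, H.π_Y, up_lo_up]

theorem W_neg (u : Aˣ) : H.W (-u) = (H.W u)⁻¹ := by
  unfold W
  rw [Units.val_neg, H.X_neg, inv_neg, Units.val_neg, H.Y_neg]
  group

theorem W_alt (u : Aˣ) :
    H.W u = H.Y (-((u⁻¹ : Aˣ) : A)) * H.X u * H.Y (-((u⁻¹ : Aˣ) : A)) := by
  have h1 := H.cW_X (H.π_W u) u
  have h2 := H.cW_Y (H.π_W u) (-((u⁻¹ : Aˣ) : A))
  have hu : (u : A) * ((u⁻¹ : Aˣ) : A) = 1 := u.mul_inv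
  have e1 : ((u⁻¹ : Aˣ) : A) ^ 2 * u = ((u⁻¹ : Aˣ) : A) := by
    linear_combination ((u⁻¹ : Aˣ) : A) * hu
  have e2 : -((u : A) ^ 2 * -((u⁻¹ : Aˣ) : A)) = u := by
    linear_combination (u : A) * hu
  rw [e1] at h1
  rw [e2] at h2
  calc H.W u = H.W u * H.W u * (H.W u)⁻¹ := by group
    _ = H.W u * (H.X u * H.Y (-((u⁻¹ : Aˣ) : A)) * H.X u) * (H.W u)⁻¹ := rfl
    _ = (H.W u * H.X u * (H.W u)⁻¹) * (H.W u * H.Y (-((u⁻¹ : Aˣ) : A)) * (H.W u)⁻¹) *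
          (H.W u * H.X u * (H.W u)⁻¹) := by group
    _ = _ := by rw [h1, h2]

theorem cD_W {g : U} {a : Aˣ} (hg : π g = dgM a) (u : Aˣ) :
    g * H.W u * g⁻¹ = H.W (a ^ 2 * u) := by
  have h1 := H.cD_X hg u
  have h2 := H.cD_Y hg (-((u⁻¹ : Aˣ) : A))
  have e1 : (((a ^ 2 * u : Aˣ)) : A) = (a : A) ^ 2 * u := by simp
  have e2 : -((((a ^ 2 * u)⁻¹ : Aˣ)) : A) = ((a⁻¹ : Aˣ) : A) ^ 2 * -((u⁻¹ : Aˣ) : A) := by
    rw [mul_inv, Units.val_mul, ← inv_pow, Units.val_pow_eq_pow_val, mul_neg]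
  unfold W
  rw [e1, e2, ← h1, ← h2]
  group

/-- the lift of the torus -/
noncomputable def h (a : Aˣ) : U := H.W a * (H.W 1)⁻¹

theorem π_h (a : Aˣ) : π (H.h a) = dgM a := by
  unfold h
  rw [map_mul, map_inv, H.π_W, H.π_W, dg_one, one_mul, mul_inv_cancel_right]

theorem h_one : H.h 1 = 1 := mul_inv_cancel _

theorem h_st {u v : Aˣ} (huv : (u : A) + v = 1) : H.h u * H.h v = H.h (u * v) := by
  have hu : (u : A) * ((u⁻¹ : Aˣ) : A) = 1 := u.mul_inv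
  have hv : (v : A) * ((v⁻¹ : Aˣ) : A) = 1 := v.mul_inv
  have h1 : (H.W 1)⁻¹ = H.Y 1 * H.X (-1) * H.Y 1 := by
    rw [← H.W_neg, H.W_alt]
    simp
  have h2 := H.cW_Y (H.π_W u) 1
  have h3 := H.cW_Y (H.π_W (-v)) 1
  rw [H.W_neg, inv_inv, Units.val_neg, neg_sq] at h3
  have h4 : H.W u * (H.W 1)⁻¹ * H.W v = H.W (u * v) := by
    calc H.W u * (H.W 1)⁻¹ * H.W v
        = (H.W u * H.Y 1 * (H.W u)⁻¹) * H.W u * H.X (-1) * H.W v *
            ((H.W v)⁻¹ * H.Y 1 * H.W v) := by rw [h1]; group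
      _ = (H.X (-((u : A) ^ 2 * 1)) * H.X u) * H.Y (-((u⁻¹ : Aˣ) : A)) *
            (H.X u * H.X (-1) * H.X v) * H.Y (-((v⁻¹ : Aˣ) : A)) *
            (H.X v * H.X (-((v : A) ^ 2 * 1))) := by
          rw [h2, h3]
          unfold W
          group
      _ = H.X ((u : A) * v) * (H.Y (-((u⁻¹ : Aˣ) : A)) * H.Y (-((v⁻¹ : Aˣ) : A))) *
            H.X ((u : A) * v) := by
          rw [H.X_add, H.X_add, H.X_add, H.X_add]
          have e1 : -((u : A) ^ 2 * 1) + u = u * v := by linear_combination (-(u : A)) * huv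
          have e2 : (u : A) + -1 + v = 0 := by linear_combination huv
          have e3 : (v : A) + -((v : A) ^ 2 * 1) = u * v := by
            linear_combination (-(v : A)) * huv
          rw [e1, e2, e3, H.X_zero]
          group
      _ = H.W (u * v) := by
          rw [H.Y_add]
          unfold W
          have e4 : -((u⁻¹ : Aˣ) : A) + -((v⁻¹ : Aˣ) : A) = -(((u * v)⁻¹ : Aˣ) : A) := by
            rw [mul_inv, Units.val_mul]
            linear_combination (-((u⁻¹ : Aˣ) : A) * ((v⁻¹ : Aˣ) : A)) * huv +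
              ((v⁻¹ : Aˣ) : A) * hu + ((u⁻¹ : Aˣ) : A) * hv
          rw [e4, Units.val_mul]
  unfold h
  rw [← h4]
  group

theorem h_cm_mul {a a' b : Aˣ} (h1 : Commute (H.h a) (H.h b)) (h2 : Commute (H.h a') (H.h b)) :
    Commute (H.h (a * a')) (H.h b) :=
  H.comm_of (u' := H.h a * H.h a') (v' := H.h b)
    (by rw [map_mul, H.π_h, H.π_h, H.π_h, dg_mul]) rfl (h1.mul_left h2)

theorem h_cm_sq (s b : Aˣ) : Commute (H.h (s ^ 2)) (H.h b) :=
  H.cd _ _ s b (H.π_h _) (H.π_h _)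

theorem h_cm (a b : Aˣ) : Commute (H.h a) (H.h b) := by
  obtain ⟨s, t, hst⟩ := H.sq a b
  have h0 : ((a * s ^ 2 : Aˣ) : A) + ((b * t ^ 2 : Aˣ) : A) = 1 := by
    simpa using hst
  have h1 : Commute (H.h (a * s ^ 2)) (H.h (b * t ^ 2)) := by
    rw [Commute, SemiconjBy, H.h_st h0, H.h_st (by rw [add_comm]; exact h0), mul_comm]
  have h2 : Commute (H.h a) (H.h (b * t ^ 2)) := by
    have := H.h_cm_mul h1 (H.h_cm_sq s⁻¹ _)
    rwa [inv_pow, mul_inv_cancel_right] at this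
  have := H.h_cm_mul h2.symm (H.h_cm_sq t⁻¹ _)
  rw [inv_pow, mul_inv_cancel_right] at this
  exact this.symm

theorem h_sq (a b : Aˣ) : H.h a * H.h (b ^ 2) = H.h (a * b ^ 2) := by
  have h1 := H.cD_W (H.π_h b) a
  have h2 := H.cD_W (H.π_h b) 1
  rw [mul_one] at h2
  have h3 : H.h b * H.h a * (H.h b)⁻¹ = H.h a := by
    rw [(H.h_cm b a).eq, mul_inv_cancel_right]
  have h4 : H.h b * H.h a * (H.h b)⁻¹ = H.W (b ^ 2 * a) * (H.W (b ^ 2))⁻¹ := by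
    rw [← h1, ← h2]
    calc H.h b * H.h a * (H.h b)⁻¹ = H.h b * (H.W a * (H.W 1)⁻¹) * (H.h b)⁻¹ := rfl
      _ = _ := by group
  rw [h3] at h4
  rw [h4, mul_comm a]
  unfold h
  group

theorem h_mul (a b : Aˣ) : H.h a * H.h b = H.h (a * b) := by
  obtain ⟨s, t, hst⟩ := H.sq a b
  have h0 : ((a * s ^ 2 : Aˣ) : A) + ((b * t ^ 2 : Aˣ) : A) = 1 := by
    simpa using hst
  have h1 := H.h_st h0
  have e : a * s ^ 2 * (b * t ^ 2) = a * b * s ^ 2 * t ^ 2 := by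
    simp only [mul_assoc, mul_left_comm (s ^ 2) b]
  rw [e, ← H.h_sq, ← H.h_sq, ← H.h_sq, ← H.h_sq] at h1
  have h2 := (H.h_cm_sq s b).eq
  have h3 : H.h a * H.h b * H.h (s ^ 2) * H.h (t ^ 2) =
      H.h (a * b) * H.h (s ^ 2) * H.h (t ^ 2) := by
    rw [← h1, mul_assoc (H.h a) (H.h b), ← h2]
    group
  exact mul_right_cancel (mul_right_cancel h3)

theorem h_inv (a : Aˣ) : H.h a⁻¹ = (H.h a)⁻¹ := by
  rw [eq_inv_iff_mul_eq_one, H.h_mul, inv_mul_cancel, H.h_one]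

theorem W_W (a b : Aˣ) : H.W a * H.W b = H.h (a * (-b)⁻¹) := by
  rw [← H.h_mul, H.h_inv]
  unfold h
  rw [H.W_neg]
  group

/-- the big cell -/
def B (y : U) : Prop := ∃ (a : A) (c : Aˣ) (b : A), y = H.X a * H.h c * H.Y b

theorem B_X {y : U} (hy : H.B y) (s : A) : H.B (H.X s * y) := by
  obtain ⟨a, c, b, rfl⟩ := hy
  exact ⟨s + a, c, b, by rw [← H.X_add]; group⟩

theorem B_h {y : U} (hy : H.B y) (d : Aˣ) : H.B (H.h d * y) := by
  obtain ⟨a, c, b, rfl⟩ := hy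
  refine ⟨(d : A) ^ 2 * a, d * c, b, ?_⟩
  rw [← H.cD_X (H.π_h d), ← H.h_mul]
  group

theorem B_Y {y : U} (hy : H.B y) (s : A) : H.B (y * H.Y s) := by
  obtain ⟨a, c, b, rfl⟩ := hy
  exact ⟨a, c, b + s, by rw [← H.Y_add]; group⟩

theorem B_h' {y : U} (hy : H.B y) (d : Aˣ) : H.B (y * H.h d) := by
  obtain ⟨a, c, b, rfl⟩ := hy
  refine ⟨a, c * d, (((d⁻¹)⁻¹ : Aˣ) : A) ^ 2 * b, ?_⟩
  rw [← H.cD_Y (H.π_h d⁻¹), ← H.h_mul, H.h_inv]
  group

theorem YX_unit (v e : Aˣ) (r : A) (he : (e : A) = 1 + v * r) :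
    H.Y v * H.X r = H.X (r * ((e⁻¹ : Aˣ) : A)) * H.h e⁻¹ * H.Y (v * ((e⁻¹ : Aˣ) : A)) := by
  have hv : (v : A) * ((v⁻¹ : Aˣ) : A) = 1 := v.mul_inv
  have hee : (e : A) * ((e⁻¹ : Aˣ) : A) = 1 := e.mul_inv
  have h1 : H.Y v = H.X ((v⁻¹ : Aˣ) : A) * H.W (-v⁻¹) * H.X ((v⁻¹ : Aˣ) : A) := by
    unfold W
    rw [inv_neg, inv_inv, Units.val_neg, Units.val_neg, neg_neg, H.X_neg]
    group
  have h2 : H.X ((v⁻¹ : Aˣ) : A) * H.X r = H.X ((e * v⁻¹ : Aˣ) : A) := by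
    rw [H.X_add, Units.val_mul, he]
    congr 1
    linear_combination (-r) * hv
  have e0 : (((e * v⁻¹)⁻¹ : Aˣ) : A) = v * ((e⁻¹ : Aˣ) : A) := by
    rw [mul_inv, inv_inv, Units.val_mul, mul_comm]
  have h3 : H.X ((e * v⁻¹ : Aˣ) : A) = H.Y (v * ((e⁻¹ : Aˣ) : A)) * H.W (e * v⁻¹) *
      H.Y (v * ((e⁻¹ : Aˣ) : A)) := by
    rw [H.W_alt, e0, H.Y_neg]
    group
  have h4 := H.cW_Y (H.π_W (-v⁻¹)) (v * ((e⁻¹ : Aˣ) : A))
  have h5 := H.W_W (-v⁻¹) (e * v⁻¹)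
  have e5 : -v⁻¹ * (-(e * v⁻¹))⁻¹ = e⁻¹ := by
    rw [inv_neg, neg_mul_neg, mul_inv, inv_inv, mul_comm e⁻¹, inv_mul_cancel_left]
  rw [e5] at h5
  have e6 : ((v⁻¹ : Aˣ) : A) + -((((-v⁻¹ : Aˣ)) : A) ^ 2 * (v * ((e⁻¹ : Aˣ) : A))) =
      r * ((e⁻¹ : Aˣ) : A) := by
    rw [Units.val_neg, neg_sq]
    rw [he] at hee
    linear_combination (-((v⁻¹ : Aˣ) : A)) * hee +
      (r * ((e⁻¹ : Aˣ) : A) - ((v⁻¹ : Aˣ) : A) * ((e⁻¹ : Aˣ) : A)) * hv
  calc H.Y v * H.X r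
      = H.X ((v⁻¹ : Aˣ) : A) * H.W (-v⁻¹) * (H.X ((v⁻¹ : Aˣ) : A) * H.X r) := by
        rw [h1]; group
    _ = H.X ((v⁻¹ : Aˣ) : A) *
          (H.W (-v⁻¹) * H.Y (v * ((e⁻¹ : Aˣ) : A)) * (H.W (-v⁻¹))⁻¹) *
          (H.W (-v⁻¹) * H.W (e * v⁻¹)) * H.Y (v * ((e⁻¹ : Aˣ) : A)) := by
        rw [h2, h3]; group
    _ = _ := by rw [h4, h5, H.X_add, e6]

theorem YX (v r : A) (he : IsUnit (1 + v * r)) : H.B (H.Y v * H.X r) := by
  obtain ⟨q, hq, hvq, hqr, -⟩ := H.many r 1 0 v isCoprime_one_right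
  obtain ⟨q, rfl⟩ := hq
  obtain ⟨w, hw⟩ := hvq
  obtain ⟨e1, he1⟩ := hqr
  obtain ⟨e, he⟩ := he
  have hv : v = w + q := by rw [hw]; ring
  have h1 := H.YX_unit q e1 r he1
  have hee : (e1 : A) * ((e1⁻¹ : Aˣ) : A) = 1 := e1.mul_inv
  have h2 := H.YX_unit w (e * e1⁻¹) (r * ((e1⁻¹ : Aˣ) : A)) (by
    rw [Units.val_mul, he, hv]
    rw [he1] at hee
    linear_combination hee)
  have h3 : H.B (H.Y w * H.X (r * ((e1⁻¹ : Aˣ) : A))) := ⟨_, _, _, h2⟩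
  have h4 := H.B_Y (H.B_h' h3 e1⁻¹) (q * ((e1⁻¹ : Aˣ) : A))
  have h5 : H.Y v * H.X r = H.Y w * H.X (r * ((e1⁻¹ : Aˣ) : A)) * H.h e1⁻¹ *
      H.Y (q * ((e1⁻¹ : Aˣ) : A)) := by
    rw [hv, ← H.Y_add, mul_assoc, h1]
    group
  rw [h5]
  exact h4

theorem π_cell (a : A) (c : Aˣ) (b : A) :
    π (H.X a * H.h c * H.Y b) = upM a * dgM c * loM b := by
  rw [map_mul, map_mul, H.π_X, H.π_h, H.π_Y]

theorem B_L {z : U} (hz : H.B z) (v : A) (hu : IsUnit ((π (H.Y v * z)).1 1 1)) :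
    H.B (H.Y v * z) := by
  obtain ⟨a, c, b, rfl⟩ := hz
  have h1 : (π (H.Y v * (H.X a * H.h c * H.Y b))).1 1 1 = (1 + v * a) * ((c⁻¹ : Aˣ) : A) := by
    rw [map_mul, H.π_cell, H.π_Y]
    simp only [mul_e]
    simp [upM, dgM, loM]
    ring
  rw [h1] at hu
  have h2 := H.B_Y (H.B_h' (H.YX v a (isUnit_of_mul_isUnit_left hu)) c) b
  have h3 : H.Y v * (H.X a * H.h c * H.Y b) = H.Y v * H.X a * H.h c * H.Y b := by group
  rw [h3]
  exact h2

theorem XY (s q : A) (he : IsUnit (1 - s * q)) :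
    ∃ (a : A) (c : Aˣ) (b : A), H.X s * H.Y (-q) = H.Y a * H.h c * H.X b := by
  obtain ⟨a, c, b, h1⟩ := H.YX (-s) q (by rwa [neg_mul, ← sub_eq_add_neg])
  have h2 := H.cW_Y (H.π_W 1) (-s)
  have h3 := H.cW_X (H.π_W 1) q
  have h4 := H.cW_X (H.π_W 1) a
  have h5 := H.cW_Y (H.π_W 1) b
  simp only [inv_one, Units.val_one, one_pow, one_mul, neg_neg] at h2 h3 h4 h5
  have h6 : H.W 1 * H.h c * (H.W 1)⁻¹ = H.h c⁻¹ := by
    have e1 := H.W_W 1 c
    have e2 := H.W_W (-1) (-1)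
    rw [H.W_neg] at e2
    calc H.W 1 * H.h c * (H.W 1)⁻¹ = H.W 1 * H.W c * ((H.W 1)⁻¹ * (H.W 1)⁻¹) := by
          unfold h; group
      _ = H.h c⁻¹ := by
          rw [e1, e2, H.h_mul]
          congr 1
          simp
  refine ⟨-a, c⁻¹, -b, ?_⟩
  rw [← h2, ← h3, ← h4, ← h5, ← h6]
  calc H.W 1 * H.Y (-s) * (H.W 1)⁻¹ * (H.W 1 * H.X q * (H.W 1)⁻¹)
      = H.W 1 * (H.Y (-s) * H.X q) * (H.W 1)⁻¹ := by group
    _ = _ := by rw [h1]; group

/-- the inductive property -/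
def P (y : U) : Prop := ∀ r : A, IsUnit ((π (H.Y r * y)).1 1 1) → H.B (H.Y r * y)

theorem P_one : H.P 1 := fun r _ => ⟨0, 1, r, by rw [H.X_zero, H.h_one]; group⟩

theorem P_Y {y : U} (hy : H.P y) (v : A) : H.P (H.Y v * y) := by
  intro r hr
  rw [← mul_assoc, H.Y_add] at hr ⊢
  exact hy _ hr

theorem P_X {y : U} (hy : H.P y) (s : A) : H.P (H.X s * y) := by
  intro r hr
  obtain ⟨q, -, -, h1, h2⟩ := H.many _ _ s 0 (cop (π y))
  have h3 : H.B (H.Y q * y) := hy q (by rw [map_mul, H.π_Y, lo_e]; exact h1)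
  obtain ⟨a, c, b, h4⟩ := H.XY s q h2
  have h5 : H.Y r * (H.X s * y) = H.Y (r + a) * (H.h c * (H.X b * (H.Y q * y))) := by
    calc H.Y r * (H.X s * y) = H.Y r * (H.X s * H.Y (-q)) * (H.Y q * y) := by
          rw [H.Y_neg]; group
      _ = _ := by rw [h4, ← H.Y_add]; group
  rw [h5] at hr ⊢
  exact H.B_L (H.B_h (H.B_X h3 b) c) _ hr

/-- the subgroup generated by the lifts -/
def S : Subgroup U := Subgroup.closure (Set.range H.X ∪ Set.range H.Y)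

theorem X_mem (t : A) : H.X t ∈ H.S := Subgroup.subset_closure (Or.inl ⟨t, rfl⟩)

theorem Y_mem (t : A) : H.Y t ∈ H.S := Subgroup.subset_closure (Or.inr ⟨t, rfl⟩)

theorem W_mem (u : Aˣ) : H.W u ∈ H.S :=
  H.S.mul_mem (H.S.mul_mem (H.X_mem _) (H.Y_mem _)) (H.X_mem _)

theorem h_mem (u : Aˣ) : H.h u ∈ H.S := H.S.mul_mem (H.W_mem _) (H.S.inv_mem (H.W_mem _))

theorem P_S {y : U} (hy : y ∈ H.S) : H.P y := by
  induction hy using Subgroup.closure_induction_left with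
  | one => exact H.P_one
  | mul_left x hx y _ ih =>
    rcases hx with ⟨t, rfl⟩ | ⟨t, rfl⟩
    · exact H.P_X ih t
    · exact H.P_Y ih t
  | inv_mul_cancel x hx y _ ih =>
    rcases hx with ⟨t, rfl⟩ | ⟨t, rfl⟩
    · rw [← H.X_neg]
      exact H.P_X ih _
    · rw [← H.Y_neg]
      exact H.P_Y ih _

theorem inj {y : U} (hy : y ∈ H.S) (h1 : π y = 1) : y = 1 := by
  have h2 := H.P_S hy 0
  rw [H.Y_zero, one_mul, h1] at h2
  obtain ⟨a, c, b, rfl⟩ := h2 (by simp)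
  rw [H.π_cell] at h1
  have e11 := congrArg (fun g : SL A => g.1 1 1) h1
  have e01 := congrArg (fun g : SL A => g.1 0 1) h1
  have e10 := congrArg (fun g : SL A => g.1 1 0) h1
  simp only [mul_e] at e11 e01 e10
  simp [upM, dgM, loM] at e11 e01 e10
  rw [e11, e01, e10, H.X_zero, H.Y_zero, H.h_one]
  group

theorem onto (g : SL A) : ∃ y ∈ H.S, π y = g := by
  obtain ⟨q, -, -, ⟨e, he⟩, -⟩ := H.many _ _ 0 0 (cop g)
  rw [← lo_e] at he
  have hd := (loM q * g).2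
  rw [Matrix.det_fin_two, ← he] at hd
  have hee : (e : A) * ((e⁻¹ : Aˣ) : A) = 1 := e.mul_inv
  have h1 : loM q * g = upM ((loM q * g).1 0 1 * ((e⁻¹ : Aˣ) : A)) * dgM e⁻¹ *
      loM ((loM q * g).1 1 0 * ((e⁻¹ : Aˣ) : A)) := by
    generalize loM q * g = g' at he hd
    apply sl_ext
    · simp only [mul_e]
      simp [upM, dgM, loM]
      linear_combination ((e⁻¹ : Aˣ) : A) * hd - (g'.1 0 0) * hee
    · simp only [mul_e]
      simp [upM, dgM, loM]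
    · simp only [mul_e]
      simp [upM, dgM, loM]
      linear_combination (-g'.1 1 0) * hee
    · simp only [mul_e]
      simp [upM, dgM, loM, he]
  refine ⟨(H.Y q)⁻¹ * (H.X ((loM q * g).1 0 1 * ((e⁻¹ : Aˣ) : A)) * H.h e⁻¹ *
    H.Y ((loM q * g).1 1 0 * ((e⁻¹ : Aˣ) : A))), H.S.mul_mem (H.S.inv_mem (H.Y_mem _))
    (H.S.mul_mem (H.S.mul_mem (H.X_mem _) (H.h_mem _)) (H.Y_mem _)), ?_⟩
  rw [map_mul, map_inv, H.π_cell, H.π_Y, ← h1, inv_mul_cancel_left]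

theorem comm_le : commutator U ≤ H.S := by
  rw [commutator_def, Subgroup.commutator_le]
  intro u _ v _
  obtain ⟨y, hy, h1⟩ := H.onto (π u)
  obtain ⟨z, hz, h2⟩ := H.onto (π v)
  rw [commutatorElement_def, H.cm_eq h1.symm h2.symm]
  exact H.S.mul_mem (H.S.mul_mem (H.S.mul_mem hy hz) (H.S.inv_mem hy)) (H.S.inv_mem hz)

end Hy

end St1

/-- **row St1** -/
theorem rowSt1 : RowSt1 := by
  intro A _ h2 h3 hm hs U _ π hsu hce hcu hcd u hu h1
  have H : St1.Hy π := ⟨h2, h3, hm, hs, hsu, hce, hcu, hcd⟩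
  exact H.inj (H.comm_le hu) h1

end Vale.Agent.Q258E
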