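import Vale.Agent.Q258E.Defs
import Vale.Agent.Q258D.A
import Vale.Agent.Q258D.G

/-!
# Orbits of the braid group, uniformly in the prime: definitions and statements of the parts
-/

namespace Vale.Agent.Q258E

open Vale.Agent.P258.Braid Vale.Agent.N258B Vale.Agent.Q258D Vale.Agent.Q258D.RA

/-! ### Powers of `SL(2, p)` -/

/-- `H` is the power `m` of `SL(2, p)` -/
def Pw (p m : ℕ) (H : Type) [Group H] : Prop := Nonempty (H ≃* (Fin m → SLp p))

/-- for all large primes `p`, all powers `m` of `SL(2, p)` and all bases -/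
def All (m : ℕ) (P : ∀ (H : Type) [Group H], (Fin 8 → H) → Prop) : Prop :=
  ∃ p0, ∀ p : ℕ, p.Prime → p0 ≤ p → ∀ (H : Type) [Group H], Pw p m H →
    ∀ b : Fin 8 → H, OddB b → NGen b → P H b

variable {H : Type} [Group H]

/-- the class of a list of colours and frames in the monoid of orbits -/
def cls (b : Fin 8 → H) (l : List (X H)) : M b := mkM b (FreeMonoid.ofList l)

/-- the class of a row -/
def clr (b : Fin 8 → H) (l : List (St 8 H)) : M b := cls b (l.map fun s => (s.lab, s.tr))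

/-- lists with the colours `cl` and the product `g` -/
def XL (b : Fin 8 → H) (cl : List (Fin 8)) (g : H) (l : List (X H)) : Prop :=
  l.map Prod.fst = cl ∧ RA.pm b (cls b l) = g

/-- generating products of caps -/
def Cp {b : Fin 8 → H} (a : M b) : Prop := a ∈ Caps' b ∧ GenM a

/-- the giant orbit -/
def InC (b : Fin 8 → H) (cl : List (Fin 8)) (l : List (St 8 H)) : Prop :=
  InX b cl l ∧ Cp (clr b l)

/-! ### Row Q: products of conjugates are equidistributed -/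

/-- six classes of `SL(2, p)` (inputs: `RowD1`, `RowD3`) -/
def RowQ1 : Prop :=
  ∀ η : ℝ, 0 < η → ∃ p0, ∀ (p : ℕ) [Fact p.Prime], p0 ≤ p → ∀ (n : ℕ) (c : Fin n → SLp p),
    6 ≤ Nat.card {i // c i ∉ Subgroup.center (SLp p)} → ∀ g : SLp p,
      (1 - η) * (Nat.card (SLp p) : ℝ) ^ n ≤ Nat.card (SLp p) *
        Nat.card {x : Fin n → SLp p // (List.ofFn fun i => (x i)⁻¹ * c i * x i).prod = g} ∧
      (Nat.card (SLp p) * Nat.card {x : Fin n → SLp p //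
        (List.ofFn fun i => (x i)⁻¹ * c i * x i).prod = g} : ℝ) ≤
          (1 + η) * (Nat.card (SLp p) : ℝ) ^ n

/-- lists of bands (inputs: `RowD1`, `RowQ1`) -/
def RowQ2 : Prop :=
  ∀ (m : ℕ) (η : ℝ), 0 < η → All m fun H _ b => ∀ cl : List (Fin 8), (∀ c, 3 ≤ cl.count c) →
    ∀ g : H, (1 - η) * (Nat.card H : ℝ) ^ cl.length ≤ Nat.card H * Nat.card {l // XL b cl g l} ∧
      (Nat.card H * Nat.card {l // XL b cl g l} : ℝ) ≤ (1 + η) * (Nat.card H : ℝ) ^ cl.length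

/-! ### Row E: generation -/

/-- escape from the proper subgroups of `SL(2, p)` (inputs: `RowD1`, `RowD3`) -/
def RowEs : Prop :=
  ∃ R C : ℕ, ∀ (p : ℕ) [Fact p.Prime], 5 ≤ p →
    (∃ ρ : Subgroup (SLp p) → ℕ, Monotone ρ ∧ (∀ K, ρ K ≤ R) ∧
      ∀ K, K ≠ ⊤ → ∃ L, L ≠ ⊤ ∧ ∀ K', K ≤ K' → ¬ K' ≤ L → ρ K < ρ K') ∧
    ∀ L : Subgroup (SLp p), L ≠ ⊤ → ∀ c, c ∉ Subgroup.center (SLp p) →
      p * Nat.card {x : SLp p // x⁻¹ * c * x ∈ L} ≤ C * Nat.card (SLp p)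

/-- small generating subsets, random generation (inputs: `RowD1`, `RowD3`, `RowEs`) -/
def RowEH : Prop :=
  ∀ m : ℕ, ∃ R : ℕ,
    (All m fun H _ _ => ∀ S : Set H, Subgroup.closure S = ⊤ →
      ∃ T : Finset H, (T : Set H) ⊆ S ∧ T.card ≤ R ∧ Subgroup.closure (T : Set H) = ⊤) ∧
    ∀ η : ℝ, 0 < η → All m fun H _ b => ∀ (I : Type) [Finite I] (col : I → Fin 8),
      (∀ j : Fin 4, R ≤ Nat.card {i // col i = ev j ∨ col i = od j}) →
        (Nat.card {x : I → H //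
          Subgroup.closure (Set.range fun i => (x i)⁻¹ * b (col i) * x i) ≠ ⊤} : ℝ) ≤
            η * (Nat.card H : ℝ) ^ Nat.card I

/-! ### Row S: stable equivalence with a bounded number of caps -/

/-- an upper triangular matrix -/
def upM {A : Type} [CommRing A] (t : A) : Matrix.SpecialLinearGroup (Fin 2) A :=
  ⟨!![1, t; 0, 1], by simp [Matrix.det_fin_two]⟩

/-- a diagonal matrix -/
def dgM {A : Type} [CommRing A] (a : Aˣ) : Matrix.SpecialLinearGroup (Fin 2) A :=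
  ⟨!![(a : A), 0; 0, ((a⁻¹ : Aˣ) : A)], by simp [Matrix.det_fin_two]⟩

/-- central extensions of `SL(2, A)` for rings with many units (no inputs) -/
def RowSt1 : Prop :=
  ∀ (A : Type) [CommRing A], IsUnit (2 : A) → IsUnit (3 : A) →
    (∀ a c s v : A, IsCoprime a c →
      ∃ q, IsUnit q ∧ IsUnit (v - q) ∧ IsUnit (c + q * a) ∧ IsUnit (1 - s * q)) →
    (∀ a b : Aˣ, ∃ s t : Aˣ, (a : A) * (s : A) ^ 2 + (b : A) * (t : A) ^ 2 = 1) →
    ∀ (U : Type) [Group U] (π : U →* Matrix.SpecialLinearGroup (Fin 2) A),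
      Function.Surjective π → π.ker ≤ Subgroup.center U →
      (∀ (u v : U) (s t : A), π u = upM s → π v = upM t → Commute u v) →
      (∀ (u v : U) (s t : Aˣ), π u = dgM (s ^ 2) → π v = dgM t → Commute u v) →
      ∀ u ∈ commutator U, π u = 1 → u = 1

/-- central extensions of products of the groups `SL(2, p)` (input: `RowSt1`) -/
def RowSt2 : Prop :=
  ∀ (m : ℕ) (I : Type) (p : I → ℕ), (∀ i, (p i).Prime ∧ 7 ≤ p i) →
    ∀ (U : Type) [Group U] (π : U →* ((i : I) → Fin m → SLp (p i))),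
      Function.Surjective π → π.ker ≤ Subgroup.center U →
      (∀ u v : U, (∀ i, π v i ∈ Subgroup.zpowers (π u i)) → Commute u v) →
      ∀ u ∈ commutator U, π u = 1 → u = 1

/-- bounded stable equivalence (inputs: `RowQ2`, `RowSt2`) -/
def RowS : Prop :=
  ∀ m L : ℕ, ∃ t : ℕ, All m fun _ _ b => ∀ a a' R : M b, GenM R → (∀ c, cnt a c = cnt a' c) →
    (∀ c, cnt a c ≤ L) → RA.pm b a = RA.pm b a' →
      R * a * P b (fun _ => t) = R * a' * P b fun _ => t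

/-! ### Row R: most rows contain caps -/

/-- powers are rarely central (inputs: `RowD1`, `RowD3`) -/
def RowOr : Prop :=
  ∃ C : ℕ, ∀ (p : ℕ) [Fact p.Prime], 5 ≤ p → ∀ E : ℕ, (∀ y : SLp p, y ^ E = 1) → ∀ a : ℕ,
    p * Nat.card {x : SLp p × Fin E //
      (x.1 ^ a)⁻¹ * x.1 ^ x.2.val ∈ Subgroup.center (SLp p)} ^ 3 ≤ C * (Nat.card (SLp p) * E) ^ 3

/-- nested products of powers -/
def nest : List (H × ℕ × ℕ) → H
  | [] => 1
  | x :: r => (x.1 ^ x.2.1)⁻¹ * nest r * x.1 ^ x.2.2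

/-- collisions (inputs: `RowD1`, `RowQ1`, `RowOr`) -/
def RowCv : Prop :=
  ∀ m : ℕ, ∃ N : ℕ, ∀ η : ℝ, 0 < η → All m fun H _ _ =>
    ∀ g : (Fin N → Fin (Nat.card H)) → (Fin N → Fin (Nat.card H)) → H,
      (Nat.card H * Nat.card {x : (Fin N → H) × (Fin N → Fin (Nat.card H)) ×
          (Fin N → Fin (Nat.card H)) //
        nest (List.ofFn fun i => (x.1 i, (x.2.1 i).val, (x.2.2 i).val)) = g x.2.1 x.2.2} : ℝ) ≤
          (1 + η) * (Nat.card H : ℝ) ^ (3 * N)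

/-- one cap (inputs: `RowQ2`, `RowCv`) -/
def RowR1 : Prop :=
  ∀ m : ℕ, ∃ L : ℕ, ∀ η : ℝ, 0 < η → All m fun H _ b => ∀ cl : List (Fin 8),
    (∀ c, L ≤ cl.count c) → ∀ (j : Fin 4) (Gd : M b → Prop),
      (Nat.card {l // XL b (ev j :: od j :: cl) 1 l ∧
        ¬ ∃ h l', XL b cl 1 l' ∧ Gd (cls b l') ∧ cls b l = cap b j h * cls b l'} : ℝ) ≤
        4 * (Nat.card H : ℝ) ^ 2 * Nat.card {l // XL b cl 1 l ∧ ¬ Gd (cls b l)} +
          η * (Nat.card H : ℝ) ^ (cl.length + 1)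

/-- many caps (inputs: `RowQ2`, `RowEH`, `RowR1`) -/
def RowR2 : Prop :=
  ∀ m : ℕ, ∃ k1 : ℕ, ∀ (n : ℕ) (η : ℝ), 0 < η → All m fun H _ b =>
    (Nat.card H * Nat.card {l // XL b (cs (k1 + n)) 1 l ∧
      ¬ ∃ a : M b, GenM a ∧ (∀ c, cnt a c = k1) ∧ cls b l = a * P b fun _ => n} : ℝ) ≤
        η * (Nat.card H : ℝ) ^ (8 * (k1 + n))

/-! ### Row U: the giant orbit -/

/-- products of caps (inputs: `RowEH`, `RowS`) -/
def RowU1 : Prop :=
  (∀ m : ℕ, ∃ k0 : ℕ, All m fun _ _ b => ∀ a a' : M b, Cp a → Cp a' → (∀ c, cnt a c = cnt a' c) →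
    (∀ c, k0 ≤ cnt a c) → a = a') ∧
  ∀ m L : ℕ, ∃ k0 : ℕ, All m fun _ _ b => ∀ a K : M b, RA.pm b a = 1 →
    (∀ j, cnt a (ev j) = cnt a (od j)) → (∀ c, cnt a c ≤ L) → K ∈ Caps' b →
      (∀ c, k0 ≤ cnt K c) → GenM (a * K) → Cp (a * K)

/-- the size of the giant orbit (inputs: `RowB3`, `RowQ2`, `RowEH`, `RowR2`, `RowU1`) -/
def RowU2 : Prop :=
  ∀ m : ℕ, ∃ k0 : ℕ, ∀ k ≥ k0, ∀ η : ℝ, 0 < η → All m fun H _ b =>
    (1 - η) * (Nat.card H : ℝ) ^ (8 * k) ≤ Nat.card H * Nat.card {l // InC b (cs k) l} ∧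
    (Nat.card H * Nat.card {l // InC b (cs k) l} : ℝ) ≤ (1 + η) * (Nat.card H : ℝ) ^ (8 * k) ∧
    (∀ u, InT k b u → Gen u → InC b (cs k) u) ∧
    (∀ e v, InB k b e v → pr v = 1 → Gen v → InC b (cs k) v) ∧
    (∀ e, (Nat.card {v // InB k b e v ∧ ¬ Gen v} : ℝ) ≤ η * Nat.card {v // InB k b e v}) ∧
    (Nat.card {u // InT k b u ∧ ¬ Gen u} : ℝ) ≤ η * Nat.card {u // InT k b u}

/-- the derived subgroups are transitive on the giant orbit (inputs: `RowD1`, `RowD4`, `RowEH`,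
`RowU1`, `RowU2`) -/
def RowU3 : Prop :=
  ∀ j m : ℕ, ∃ k0 : ℕ, ∀ k ≥ k0, ∃ p0, ∀ p : ℕ, p.Prime → p0 ≤ p → p % 4 = 1 → ∀ M : ℕ, ¬ p ∣ M →
    ∀ (H : Type) [Group H], Pw p m H → ∀ b : Fin 8 → H, OddB b → NGen b →
      ∀ l l', InC b (cs k) l → InC b (cs k) l' → ∃ g ∈ Der (8 * k) M j, bact H (8 * k) g l = l'

/-! ### Row W: words -/

/-- the number of words of length `n` with letters in range and the property `P` -/
noncomputable def wds (N n : ℕ) (P : Word → Prop) : ℕ :=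
  Nat.card {w : Word // w.length = n ∧ (∀ x ∈ w, x.1 + 1 < N) ∧ P w}

/-- the pure braids have finite index (no inputs) -/
def RowW0 : Prop := ∀ N : ℕ, (Tw N 1).FiniteIndex

/-- many words lie in the commutator subgroup of the pure braid group (input: `RowW0`) -/
def RowW1 : Prop :=
  ∀ N : ℕ, ∃ C d : ℕ, ∀ n : ℕ,
    (2 * (N - 1)) ^ (2 * n) ≤ C * (n + 1) ^ d * wds N (2 * n) fun w => toBraid N w ∈ Der N 1 1

/-- from cosets to words (no inputs) -/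
def RowW2 : Prop :=
  ∀ (N : ℕ), 2 ≤ N → ∀ (S D : Subgroup (BraidGroup N)) [S.Normal] [S.FiniteIndex] [D.Normal],
    D ≤ Tw N 1 → ∀ (A Bd : Word → Prop) (ε : ℝ), 0 ≤ ε →
      (∀ w0 w, (∀ x ∈ w0, x.1 + 1 < N) → InCoset D w0 w → A w0 → A w) →
      (∀ w0, (∀ x ∈ w0, x.1 + 1 < N) → A w0 →
        (cosets S D w0 Bd : ℝ) ≤ ε * cosets S D w0 fun _ => True) →
      ∃ C θ : ℝ, 0 ≤ θ ∧ θ < 1 ∧ ∀ n : ℕ,
        (wds N n fun w => A w ∧ Bd w : ℝ) ≤ ε * wds N n A + C * (θ * (2 * (N - 1 : ℕ))) ^ n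

end Vale.Agent.Q258E
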