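import Mathlib.Algebra.Group.Pi.Units
import Vale.Agent.Q258E.Rows

/-!
# Central extensions of products of the groups `SL(2, p)`
-/

namespace Vale.Agent.Q258E

open Vale.Agent.Q258D Matrix

namespace St2

/-! ### Commuting lifts -/

section Lifts

variable {U G : Type} [Group U] [Group G] (π : U →* G)

/-- all lifts of `x` and `y` commute -/
def Cm (x y : G) : Prop := ∀ u v : U, π u = x → π v = y → Commute u v

variable {π} (hs : Function.Surjective π) (hk : π.ker ≤ Subgroup.center U)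

theorem Cm.symm {x y : G} (h : Cm π x y) : Cm π y x := fun u v hu hv => (h v u hv hu).symm

include hk in
theorem exists_cen {u v : U} (h : π u = π v) : ∃ z, (∀ g, g * z = z * g) ∧ u = z * v :=
  ⟨u * v⁻¹, Subgroup.mem_center_iff.1 (hk (by simp [MonoidHom.mem_ker, h])), by simp⟩

include hk in
theorem cm_of {x y : G} {u v : U} (hu : π u = x) (hv : π v = y) (h : Commute u v) : Cm π x y := by
  intro u' v' hu' hv'
  obtain ⟨z, hz, rfl⟩ := exists_cen hk (hu'.trans hu.symm)
  obtain ⟨w, hw, rfl⟩ := exists_cen hk (hv'.trans hv.symm)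
  exact Commute.mul_left (hz _).symm (Commute.mul_right (hw _) h)

include hk in
theorem cm_one (x : G) : Cm π x 1 := fun u _ _ hv =>
  Subgroup.mem_center_iff.1 (hk hv) u

include hs hk in
theorem Cm.mul {x y z : G} (h : Cm π x y) (h' : Cm π x z) : Cm π x (y * z) := by
  obtain ⟨u, hu⟩ := hs x
  obtain ⟨v, hv⟩ := hs y
  obtain ⟨w, hw⟩ := hs z
  exact cm_of hk hu (by rw [map_mul, hv, hw]) ((h u v hu hv).mul_right (h' u w hu hw))

include hs hk in
theorem cm_comm {x a b : G} (ha : Commute x a) (hb : Commute x b) :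
    Cm π x (a * b * a⁻¹ * b⁻¹) := by
  obtain ⟨u, rfl⟩ := hs x
  obtain ⟨v, rfl⟩ := hs a
  obtain ⟨w, rfl⟩ := hs b
  obtain ⟨z, hz, e⟩ := exists_cen hk (u := u * v * u⁻¹) (v := v) (by
    rw [map_mul, map_mul, ha.eq, map_inv, mul_inv_cancel_right])
  obtain ⟨y, hy, f⟩ := exists_cen hk (u := u * w * u⁻¹) (v := w) (by
    rw [map_mul, map_mul, hb.eq, map_inv, mul_inv_cancel_right])
  refine cm_of hk (u := u) (v := v * w * v⁻¹ * w⁻¹) rfl (by simp) ?_
  have h1 : u * (v * w * v⁻¹ * w⁻¹) * u⁻¹ =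
      (u * v * u⁻¹) * (u * w * u⁻¹) * (u * v * u⁻¹)⁻¹ * (u * w * u⁻¹)⁻¹ := by group
  have h2 : z * v * (y * w) * (z * v)⁻¹ * (y * w)⁻¹ = v * w * v⁻¹ * w⁻¹ := by
    have a1 : z * v * (y * w) * (z * v)⁻¹ = y * (v * w * v⁻¹) := by
      rw [← hz v, ← hy (v * w * v⁻¹), ← hy w]
      have a2 : v * z * (w * y) * (v * z)⁻¹ = v * (z * (w * y) * z⁻¹) * v⁻¹ := by group
      rw [a2, ← hz, mul_inv_cancel_right, ← mul_assoc, mul_assoc (v * w), ← hy, mul_assoc (v * w)]
    rw [a1, ← hy (v * w * v⁻¹), ← hy w]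
    have a3 : v * w * v⁻¹ * y * (w * y)⁻¹ = v * w * v⁻¹ * w⁻¹ := by group
    exact a3
  rw [e, f, h2] at h1
  exact mul_inv_eq_iff_eq_mul.1 h1

end Lifts

/-! ### Matrices -/

section Mat

variable {A B : Type} [CommRing A] [CommRing B]

/-- a lower triangular matrix -/
def loM (t : A) : SpecialLinearGroup (Fin 2) A := ⟨!![1, 0; t, 1], by simp [Matrix.det_fin_two]⟩

theorem up_val (t : A) : (upM t).1 = !![1, t; 0, 1] := rfl

theorem lo_val (t : A) : (loM t).1 = !![1, 0; t, 1] := rfl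

theorem dg_val (a : Aˣ) : (dgM a).1 = !![(a : A), 0; 0, ((a⁻¹ : Aˣ) : A)] := rfl

theorem up_add (s t : A) : upM (s + t) = upM s * upM t := by
  apply Subtype.ext
  simp [up_val, add_comm]

theorem lo_add (s t : A) : loM (s + t) = loM s * loM t := by
  apply Subtype.ext
  simp [lo_val]

theorem up_zero : upM (0 : A) = 1 := by
  apply Subtype.ext
  simp [up_val, Matrix.one_fin_two]

theorem up_pow (s : A) (n : ℕ) : upM s ^ n = upM (n * s) := by
  induction n with
  | zero => simp [up_zero]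
  | succ n ih => rw [pow_succ, ih, ← up_add]; congr 1; push_cast; ring

theorem dg_mul (a b : Aˣ) : dgM (a * b) = dgM a * dgM b := by
  apply Subtype.ext
  simp [dg_val, mul_comm]

theorem dg_one : dgM (1 : Aˣ) = 1 := by
  apply Subtype.ext
  simp [dg_val, Matrix.one_fin_two]

/-- the diagonal matrices -/
def dgH : Aˣ →* SpecialLinearGroup (Fin 2) A where
  toFun := dgM
  map_one' := dg_one
  map_mul' := dg_mul

theorem dg_up (a : Aˣ) (t : A) : dgM a * upM t = upM (a ^ 2 * t) * dgM a := by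
  apply Subtype.ext
  simp [dg_val, up_val, pow_two, mul_right_comm]

theorem dg_lo (a : Aˣ) (t : A) : dgM a⁻¹ * loM t = loM (a ^ 2 * t) * dgM a⁻¹ := by
  apply Subtype.ext
  simp [dg_val, lo_val, pow_two, mul_right_comm]

theorem up_comm (a c : Aˣ) (ha : (a : A) = 2) (hc : (c : A) = 3) (t : A) :
    upM t = dgM a * upM (↑c⁻¹ * t) * (dgM a)⁻¹ * (upM (↑c⁻¹ * t))⁻¹ := by
  rw [dg_up, mul_inv_cancel_right, eq_mul_inv_iff_mul_eq, ← up_add, ha]
  congr 1
  have : t = c * (↑c⁻¹ * t) := (Units.mul_inv_cancel_left c t).symm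
  rw [hc] at this
  linear_combination this

theorem lo_comm (a c : Aˣ) (ha : (a : A) = 2) (hc : (c : A) = 3) (t : A) :
    loM t = dgM a⁻¹ * loM (↑c⁻¹ * t) * (dgM a⁻¹)⁻¹ * (loM (↑c⁻¹ * t))⁻¹ := by
  rw [dg_lo, mul_inv_cancel_right, eq_mul_inv_iff_mul_eq, ← lo_add, ha]
  congr 1
  have : t = c * (↑c⁻¹ * t) := (Units.mul_inv_cancel_left c t).symm
  rw [hc] at this
  linear_combination this

theorem dg_eq (a : Aˣ) : dgM a = upM (a : A) * (loM (-((a⁻¹ : Aˣ) : A)) *
    (upM ((a : A) - 1) * (loM 1 * upM (-1)))) := by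
  apply Subtype.ext
  simp [dg_val, lo_val, up_val]

theorem map_up (f : A →+* B) (t : A) : SpecialLinearGroup.map f (upM t) = upM (f t) := by
  apply Subtype.ext
  ext i j
  fin_cases i <;> fin_cases j <;> simp [up_val]

theorem map_dg (f : A →+* B) (a : Aˣ) :
    SpecialLinearGroup.map f (dgM a) = dgM (Units.map f.toMonoidHom a) := by
  apply Subtype.ext
  ext i j
  fin_cases i <;> fin_cases j <;> simp [dg_val]

end Mat

/-! ### Finite fields -/

section Fld

variable {F : Type} [Field F] [Fintype F]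

theorem many (h : 5 ≤ Fintype.card F) (a c s v : F) (hac : IsCoprime a c) :
    ∃ q, q ≠ 0 ∧ v - q ≠ 0 ∧ c + q * a ≠ 0 ∧ 1 - s * q ≠ 0 := by
  classical
  obtain ⟨q, -, hq⟩ := Finset.exists_mem_notMem_of_card_lt_card
    (s := ({0, v, -c / a, s⁻¹} : Finset F)) (t := Finset.univ)
    (Finset.card_le_four.trans_lt (by rw [Finset.card_univ]; omega))
  simp only [Finset.mem_insert, Finset.mem_singleton, not_or] at hq
  refine ⟨q, hq.1, fun e => hq.2.1 (sub_eq_zero.1 e).symm, fun e => ?_, fun e => ?_⟩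
  · by_cases ha : a = 0
    · subst ha
      rw [mul_zero, add_zero] at e
      subst e
      exact not_isCoprime_zero_zero hac
    · exact hq.2.2.1 (by rw [eq_div_iff ha]; linear_combination e)
  · exact hq.2.2.2 (eq_inv_of_mul_eq_one_right (by linear_combination -e))

omit [Fintype F] in
theorem conic0 (h2 : (2 : F) ≠ 0) (h3 : (3 : F) ≠ 0) (h5 : (5 : F) ≠ 0) {a s : F} (b : F)
    (h : a * s ^ 2 = 1) : ∃ x y : F, x ≠ 0 ∧ y ≠ 0 ∧ a * x ^ 2 + b * y ^ 2 = 1 := by
  have hs : s ≠ 0 := by rintro rfl; simp at h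
  have key : ∀ r : F, r ≠ 0 → 1 - b * r ^ 2 ≠ 0 → 1 + b * r ^ 2 ≠ 0 →
      ∃ x y : F, x ≠ 0 ∧ y ≠ 0 ∧ a * x ^ 2 + b * y ^ 2 = 1 := fun r h0 h1 h1' =>
    ⟨s * (1 - b * r ^ 2) / (1 + b * r ^ 2), 2 * r / (1 + b * r ^ 2),
      div_ne_zero (mul_ne_zero hs h1) h1', div_ne_zero (mul_ne_zero h2 h0) h1', by
        field_simp
        linear_combination (1 - b * r ^ 2) ^ 2 * h⟩
  by_cases a1 : 1 - b * 1 ^ 2 = 0
  · exact key 2 h2 (fun e => h3 (by linear_combination 4 * a1 - e))
      fun e => h5 (by linear_combination 4 * a1 + e)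
  by_cases a2 : 1 + b * 1 ^ 2 = 0
  · exact key 2 h2 (fun e => h5 (by linear_combination 4 * a2 + e))
      fun e => h3 (by linear_combination 4 * a2 - e)
  exact key 1 one_ne_zero a1 a2

theorem conic (ho : Fintype.card F % 2 = 1) (h2 : (2 : F) ≠ 0) (h3 : (3 : F) ≠ 0)
    (h5 : (5 : F) ≠ 0) {a b : F} (ha : a ≠ 0) (hb : b ≠ 0) :
    ∃ x y : F, x ≠ 0 ∧ y ≠ 0 ∧ a * x ^ 2 + b * y ^ 2 = 1 := by
  obtain ⟨x, y, h⟩ := FiniteField.exists_root_sum_quadratic
    (f := Polynomial.C a * Polynomial.X ^ 2 + Polynomial.C 0 * Polynomial.X + Polynomial.C 0)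
    (g := Polynomial.C b * Polynomial.X ^ 2 + Polynomial.C 0 * Polynomial.X + Polynomial.C (-1))
    (Polynomial.degree_quadratic ha) (Polynomial.degree_quadratic hb) ho
  simp only [Polynomial.eval_add, Polynomial.eval_mul, Polynomial.eval_C, Polynomial.eval_pow,
    Polynomial.eval_X] at h
  by_cases hy : y = 0
  · exact conic0 h2 h3 h5 (s := x) b (by rw [hy] at h; linear_combination h)
  by_cases hx : x = 0
  · obtain ⟨u, v, hu, hv, e⟩ := conic0 h2 h3 h5 (a := b) (s := y) a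
      (by rw [hx] at h; linear_combination h)
    exact ⟨v, u, hv, hu, by linear_combination e⟩
  exact ⟨x, y, hx, hy, by linear_combination h⟩

end Fld

theorem cast_ne {p n : ℕ} (h0 : 0 < n) (h : n < p) : (n : ZMod p) ≠ 0 := fun e =>
  Nat.not_dvd_of_pos_of_lt h0 h ((ZMod.natCast_eq_zero_iff _ _).1 e)

theorem two_units (N : ℕ) (hN : 0 < N) (k : ℤ) :
    ∃ u v : ℤ, u.gcd N = 1 ∧ v.gcd N = 1 ∧ u + v = 2 * k := by
  have key : ∀ w : ℤ, (∀ q : ℕ, q.Prime → q ∣ N → (w : ZMod q) ≠ 0) → w.gcd N = 1 := fun w h =>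
    Nat.coprime_of_dvd fun q hq h1 h2 => h q hq h2
      ((ZMod.intCast_zmod_eq_zero_iff_dvd _ _).2 (Int.natCast_dvd.2 h1))
  have pw : ∀ q : ℕ, q.Prime → q ∣ N → ∀ a : ZMod q,
      (a = 0 ∧ a ^ N.factorial = 0) ∨ (a ≠ 0 ∧ a ^ N.factorial = 1) := fun q hq h a => by
    have := Fact.mk hq
    by_cases ha : a = 0
    · exact .inl ⟨ha, by rw [ha, zero_pow N.factorial_ne_zero]⟩
    · obtain ⟨c, hc⟩ : q - 1 ∣ N.factorial :=
        Nat.dvd_factorial (by have := hq.two_le; omega) (by have := Nat.le_of_dvd hN h; omega)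
      exact .inr ⟨ha, by rw [hc, pow_mul, ZMod.pow_card_sub_one_eq_one ha, one_pow]⟩
  refine ⟨2 * (2 * k - 1) ^ N.factorial - 1, 2 * k - 1 + 2 * (1 - (2 * k - 1) ^ N.factorial),
    key _ fun q hq h => ?_, key _ fun q hq h => ?_, by ring⟩
  · have := Fact.mk hq
    push_cast
    rcases pw q hq h (2 * k - 1) with ⟨-, e⟩ | ⟨-, e⟩ <;> rw [e] <;> norm_num
  · have := Fact.mk hq
    push_cast
    rcases pw q hq h (2 * k - 1) with ⟨e', e⟩ | ⟨e', e⟩ <;> rw [e]
    · intro h0
      exact one_ne_zero (α := ZMod q) (by linear_combination k * h0 - (k + 1) * e')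
    · simpa using e'

theorem sq_gen {Γ : Type} [CommGroup Γ] [Finite Γ] [IsCyclic Γ] (s : Γ) :
    ∃ g : Γ × Γ, (∀ t, t ∈ Subgroup.zpowers g.1) ∧ (∀ t, t ∈ Subgroup.zpowers g.2) ∧
      s ^ 2 = g.1 * g.2 := by
  obtain ⟨g, hg⟩ := IsCyclic.exists_generator (α := Γ)
  obtain ⟨k, rfl⟩ := hg s
  obtain ⟨u, v, hu, hv, e⟩ := two_units (orderOf g) (orderOf_pos g) k
  refine ⟨(g ^ u, g ^ v), fun t => ?_, fun t => ?_, ?_⟩
  · exact Subgroup.zpowers_le_of_mem (mem_zpowers_zpow_iff.2 hu) (hg t)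
  · exact Subgroup.zpowers_le_of_mem (mem_zpowers_zpow_iff.2 hv) (hg t)
  · rw [← zpow_add, e, mul_comm, zpow_mul]
    exact (zpow_natCast _ 2).symm

/-! ### Products -/

section Prod

variable {m : ℕ} {I : Type} {p : I → ℕ}

/-- evaluation at a coordinate -/
def evl (i : I) (ν : Fin m) : ((i : I) → Fin m → ZMod (p i)) →+* ZMod (p i) :=
  (Pi.evalRingHom _ ν).comp (Pi.evalRingHom (fun i => Fin m → ZMod (p i)) i)

/-- the coordinates of a matrix -/
def ψ : SpecialLinearGroup (Fin 2) ((i : I) → Fin m → ZMod (p i)) →*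
    ((i : I) → Fin m → SLp (p i)) :=
  MonoidHom.pi fun i => MonoidHom.pi fun ν => SpecialLinearGroup.map (evl i ν)

theorem ψ_apply (x : SpecialLinearGroup (Fin 2) ((i : I) → Fin m → ZMod (p i))) (i ν) :
    ψ x i ν = SpecialLinearGroup.map (evl i ν) x := rfl

theorem ψ_bij : Function.Bijective (ψ (m := m) (p := p)) := by
  constructor
  · intro x y h
    ext a b i ν
    exact congrArg (fun z : (i : I) → Fin m → SLp (p i) => (z i ν).1 a b) h
  · intro z
    refine ⟨⟨Matrix.of fun a b i ν => (z i ν).1 a b, ?_⟩, rfl⟩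
    funext i ν
    have := (z i ν).2
    rw [Matrix.det_fin_two] at this ⊢
    exact this

/-- the part at the coordinates in `T` -/
def rT (T : Finset (Fin m)) : ((i : I) → Fin m → SLp (p i)) →* ((i : I) → Fin m → SLp (p i)) where
  toFun x i μ := if μ ∈ T then x i μ else 1
  map_one' := by funext i μ; simp
  map_mul' x y := by funext i μ; by_cases h : μ ∈ T <;> simp [h]

theorem rT_apply (T : Finset (Fin m)) (x : (i : I) → Fin m → SLp (p i)) (i μ) :
    rT T x i μ = if μ ∈ T then x i μ else 1 := rfl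

theorem rT_comm (ν : Fin m) (x y : (i : I) → Fin m → SLp (p i)) :
    Commute (rT {ν}ᶜ x) (rT {ν} y) := by
  funext i μ
  by_cases h : μ = ν <;> simp [rT_apply, h]

variable {U : Type} [Group U] {π : U →* ((i : I) → Fin m → SLp (p i))}
  (hs : Function.Surjective π) (hk : π.ker ≤ Subgroup.center U)

include hs hk in
theorem cm_split {x y : (i : I) → Fin m → SLp (p i)}
    (h1 : ∀ ν, Cm π (rT {ν} x) (rT {ν} y)) (h2 : ∀ ν, Cm π (rT {ν}ᶜ x) (rT {ν} y)) : Cm π x y := by
  have h : ∀ T : Finset (Fin m), Cm π x (rT T y) := fun T => by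
    induction T using Finset.induction_on with
    | empty =>
      have : rT ∅ y = 1 := by funext i μ; simp [rT_apply]
      rw [this]
      exact cm_one hk x
    | insert ν T hν ih =>
      have e1 : rT (insert ν T) y = rT {ν} y * rT T y := by
        funext i μ
        by_cases h : μ = ν <;> simp [rT_apply, h, hν]
      have e2 : x = rT {ν} x * rT {ν}ᶜ x := by
        funext i μ
        by_cases h : μ = ν <;> simp [rT_apply, h]
      rw [e1]
      refine Cm.mul hs hk ?_ ih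
      rw [e2]
      exact (Cm.mul hs hk (h1 ν).symm (h2 ν).symm).symm
  have : rT Finset.univ y = y := by funext i μ; simp [rT_apply]
  exact this ▸ h Finset.univ

theorem mem_zp {ν : Fin m} {x y : (i : I) → Fin m → SLp (p i)}
    (h : ∀ i, y i ν ∈ Subgroup.zpowers (x i ν)) (i : I) :
    rT {ν} y i ∈ Subgroup.zpowers (rT {ν} x i) := by
  obtain ⟨k, hk⟩ := h i
  refine ⟨k, funext fun μ => ?_⟩
  by_cases h : μ = ν
  · subst h
    simpa [rT_apply] using hk
  · simp [rT_apply, h]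

end Prod

end St2

open St2 in
theorem rowSt2 (h : RowSt1) : RowSt2 := by
  intro m I p hp U _ π hs hk hz u hu h1
  have : ∀ i, Fact (p i).Prime := fun i => ⟨(hp i).1⟩
  have un : ∀ x : (i : I) → Fin m → ZMod (p i), (∀ i ν, x i ν ≠ 0) → IsUnit x := fun x hx =>
    Pi.isUnit_iff.2 fun i => Pi.isUnit_iff.2 fun ν => (hx i ν).isUnit
  have nz : ∀ i (n : ℕ), 0 < n → n < 7 → (n : ZMod (p i)) ≠ 0 := fun i n h0 h7 =>
    cast_ne h0 (h7.trans_le (hp i).2)
  have h2 : IsUnit (2 : (i : I) → Fin m → ZMod (p i)) := un _ fun i _ => nz i 2 (by omega) (by omega)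
  have h3 : IsUnit (3 : (i : I) → Fin m → ZMod (p i)) := un _ fun i _ => nz i 3 (by omega) (by omega)
  let e := MulEquiv.ofBijective (ψ (m := m) (p := p)) ψ_bij
  have he : ∀ (v : U) x, (e.symm.toMonoidHom.comp π) v = x → π v = ψ x := fun v x hx =>
    (e.symm_apply_eq.1 hx)
  have zp : ∀ (ν : Fin m) (x y : (i : I) → Fin m → SLp (p i)),
      (∀ i, y i ν ∈ Subgroup.zpowers (x i ν)) → Cm π (rT {ν} x) (rT {ν} y) :=
    fun ν x y hxy a b ha hb => hz a b fun i => by rw [ha, hb]; exact mem_zp hxy i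
  have cu : ∀ (ν : Fin m) x t, Cm π (rT {ν}ᶜ x) (rT {ν} (ψ (upM t))) := fun ν x t => by
    rw [up_comm h2.unit h3.unit rfl rfl t]
    simp only [map_mul, map_inv]
    exact cm_comm hs hk (rT_comm ..) (rT_comm ..)
  have cl : ∀ (ν : Fin m) x t, Cm π (rT {ν}ᶜ x) (rT {ν} (ψ (loM t))) := fun ν x t => by
    rw [lo_comm h2.unit h3.unit rfl rfl t]
    simp only [map_mul, map_inv]
    exact cm_comm hs hk (rT_comm ..) (rT_comm ..)
  refine h ((i : I) → Fin m → ZMod (p i)) h2 h3 (fun a c s v hac => ?_) (fun a b => ?_) U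
    (e.symm.toMonoidHom.comp π) (e.symm.surjective.comp hs) (fun x hx => hk ?_)
    (fun a b s t ha hb => ?_) (fun a b s t ha hb => ?_) u hu ?_
  · choose q hq using fun i ν => many (F := ZMod (p i))
      (by rw [ZMod.card]; have := (hp i).2; omega) (a i ν) (c i ν) (s i ν) (v i ν)
      (hac.map (evl i ν))
    exact ⟨q, un _ fun i ν => (hq i ν).1, un _ fun i ν => (hq i ν).2.1,
      un _ fun i ν => (hq i ν).2.2.1, un _ fun i ν => (hq i ν).2.2.2⟩
  · choose x y hq using fun i ν => conic (F := ZMod (p i))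
      (by
        rw [ZMod.card]
        exact (hp i).1.eq_two_or_odd.resolve_left (by have := (hp i).2; omega))
      (nz i 2 (by omega) (by omega)) (nz i 3 (by omega) (by omega)) (nz i 5 (by omega) (by omega))
      (a.isUnit.map (evl i ν)).ne_zero (b.isUnit.map (evl i ν)).ne_zero
    exact ⟨(un x fun i ν => (hq i ν).1).unit, (un y fun i ν => (hq i ν).2.1).unit,
      funext fun i => funext fun ν => (hq i ν).2.2⟩
  · exact (he x 1 hx).trans (map_one _)
  · have base : ∀ (ν : Fin m) (s : (i : I) → Fin m → ZMod (p i)), (∀ i, s i ν ≠ 0) →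
        Cm π (rT {ν} (ψ (upM s))) (rT {ν} (ψ (upM t))) := fun ν s hs => zp ν _ _ fun i => by
      refine ⟨((t i ν / s i ν).val : ℕ), ?_⟩
      simp only [ψ_apply, map_up, zpow_natCast, up_pow, ZMod.natCast_zmod_val]
      exact congrArg upM (div_mul_cancel₀ _ (hs i))
    refine cm_split hs hk (fun ν => ?_) (fun ν => cu ν _ _) a b (he _ _ ha) (he _ _ hb)
    classical
    let s' : (i : I) → Fin m → ZMod (p i) := fun i μ => if s i μ = 1 then -1 else 1
    rw [← add_sub_cancel s' s, up_add, map_mul, map_mul]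
    refine (Cm.mul hs hk (base ν _ fun i => ?_).symm (base ν _ fun i => ?_).symm).symm
    · by_cases h : s i ν = 1 <;> simp [s', h]
    · by_cases h : s i ν = 1
      · have := nz i 2 (by omega) (by omega)
        simp only [s', Pi.sub_apply, h, if_true]
        exact fun e => this (by push_cast; linear_combination e)
      · simp [s', h, sub_eq_zero]
  · refine cm_split hs hk (fun ν => ?_) (fun ν => ?_) a b (he _ _ ha) (he _ _ hb)
    · choose g hg using fun i => sq_gen (Units.map (evl i ν).toMonoidHom s)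
      have base : ∀ g : (i : I) → (ZMod (p i))ˣ, (∀ i t, t ∈ Subgroup.zpowers (g i)) →
          Cm π (rT {ν} fun i _ => dgM (g i)) (rT {ν} (ψ (dgM t))) := fun g hg => zp ν _ _ fun i => by
        obtain ⟨k, hk⟩ := hg i (Units.map (evl i ν).toMonoidHom t)
        refine ⟨k, ?_⟩
        rw [ψ_apply, map_dg, ← hk]
        exact (map_zpow dgH _ k).symm
      have : rT {ν} (ψ (dgM (s ^ 2))) =
          rT {ν} (fun i _ => dgM (g i).1) * rT {ν} fun i _ => dgM (g i).2 := by
        funext i μ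
        by_cases h : μ = ν
        · subst h
          simp only [rT_apply, Finset.mem_singleton, if_true, Pi.mul_apply, ψ_apply, map_dg,
            map_pow, (hg i).2.2, dg_mul]
        · simp [rT_apply, h]
      rw [this]
      exact (Cm.mul hs hk (base _ fun i => (hg i).1).symm (base _ fun i => (hg i).2.1).symm).symm
    · rw [dg_eq t]
      simp only [map_mul]
      exact Cm.mul hs hk (cu _ _ _) (Cm.mul hs hk (cl _ _ _) (Cm.mul hs hk (cu _ _ _)
        (Cm.mul hs hk (cl _ _ _) (cu _ _ _))))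
  · exact (congrArg e.symm h1).trans (map_one _)

end Vale.Agent.Q258E
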