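import Vale.Agent.Q258E.Rows

/-!
# Row U1: products of caps
-/

namespace Vale.Agent.Q258E

open Vale.Agent.P258.Braid Vale.Agent.N258B Vale.Agent.Q258D Vale.Agent.Q258D.RA

namespace U1

variable {H : Type} [Group H] {b : Fin 8 → H}

theorem cap_mem (j : Fin 4) (h : H) : cap b j h ∈ Caps' b := Submonoid.subset_closure ⟨j, h, rfl⟩

theorem P_mem (n : Fin 4 → ℕ) : P b n ∈ Caps' b :=
  mul_mem (pow_mem (cap_mem _ _) _) (mul_mem (pow_mem (cap_mem _ _) _)
    (mul_mem (pow_mem (cap_mem _ _) _) (pow_mem (cap_mem _ _) _)))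

theorem cnt_cap_le (j : Fin 4) (h : H) (c : Fin 8) : cnt (cap b j h) c ≤ 1 := by
  rw [cnt_cap]
  by_cases h1 : c = ev j
  · rw [if_pos h1, if_neg (by rw [h1]; exact ev_ne_od j j)]
  · rw [if_neg h1]
    split_ifs <;> omega

theorem in_cap (hb : OddB b) {L : Subgroup H} {j : Fin 4} {h : H} :
    In L (cap b j h) ↔ px b (ev j, h) ∈ L := by
  rw [RA.cap, in_mul, in_gn, in_gn, px_od hb, L.inv_mem_iff, and_self]

theorem cnt_caps {K : M b} (hK : K ∈ Caps' b) (j : Fin 4) : cnt K (od j) = cnt K (ev j) := by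
  induction hK using Submonoid.closure_induction with
  | mem x hx =>
    obtain ⟨i, h, rfl⟩ := hx
    simp only [cnt_cap, ev_inj, od_inj, if_neg (ev_ne_od _ _), if_neg (ev_ne_od _ _).symm,
      add_zero, zero_add]
  | one => rw [cnt_one, cnt_one]
  | mul x y _ _ hx hy => rw [cnt_mul, cnt_mul, hx, hy]

/-- next to a generating element, caps are standard -/
theorem caps_eq (hb : OddB b) {R : M b} (hR : GenM R) {K : M b} (hK : K ∈ Caps' b) :
    R * K = R * P b fun j => cnt K (ev j) := by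
  obtain ⟨n, hn⟩ := hR.caps hb hK
  obtain rfl : n = fun j => cnt K (ev j) := funext fun j => by
    have := congrArg (fun x => cnt x (ev j)) hn
    simp only [cnt_mul, cnt_P_ev] at this
    omega
  exact hn

theorem in_of_all (a : M b) (L : Subgroup H)
    (h : ∀ g, (∀ K : Subgroup H, In K a → g ∈ K) → g ∈ L) : In L a := by
  induction a using M_ind with
  | h1 => exact in_one _
  | h s a ih =>
    exact in_mul.2 ⟨in_gn.2 (h _ fun K hK => in_gn.1 (in_mul.1 hK).1),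
      ih fun g hg => h g fun K hK => hg K (in_mul.1 hK).2⟩

/-- the labels of a product of caps -/
theorem labels (hb : OddB b) {K : M b} (hK : K ∈ Caps' b) :
    ∃ S : Set H, (∀ L : Subgroup H, S ⊆ L → In L K) ∧ ∀ T : Finset H,
      ∃ K1 ∈ Caps' b, ∃ K2 ∈ Caps' b, K = K1 * K2 ∧ (∀ c, cnt K1 c ≤ T.card) ∧
        ∀ L : Subgroup H, In L K1 → ∀ g ∈ T, g ∈ S → g ∈ L := by
  classical
  induction hK using Submonoid.closure_induction_left with
  | one =>
    exact ⟨∅, fun L _ => in_one L, fun T => ⟨1, one_mem _, 1, one_mem _, (one_mul _).symm,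
      fun c => by rw [cnt_one]; exact Nat.zero_le _, fun L _ g _ hg => hg.elim⟩⟩
  | mul_left x hx y hy ih =>
    obtain ⟨j, h, rfl⟩ := hx
    obtain ⟨S, h1, h2⟩ := ih
    refine ⟨insert (px b (ev j, h)) S, fun L hL => in_mul.2
      ⟨(in_cap hb).2 (hL (Set.mem_insert _ _)), h1 L fun g hg => hL (Set.mem_insert_of_mem _ hg)⟩,
      fun T => ?_⟩
    by_cases hT : px b (ev j, h) ∈ T
    · obtain ⟨K1, k1, K2, k2, e, hc, hL⟩ := h2 (T.erase (px b (ev j, h)))
      refine ⟨cap b j h * K1, mul_mem (cap_mem _ _) k1, K2, k2, by rw [e, mul_assoc],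
        fun c => ?_, fun L hin g hg hs => ?_⟩
      · have e1 := hc c
        have e2 := cnt_cap_le (b := b) j h c
        have e3 := Finset.card_erase_add_one hT
        rw [cnt_mul]
        omega
      · by_cases hg' : g = px b (ev j, h)
        · rw [hg']
          exact (in_cap hb).1 (in_mul.1 hin).1
        · exact hL L (in_mul.1 hin).2 g (Finset.mem_erase.2 ⟨hg', hg⟩)
            ((Set.mem_insert_iff.1 hs).resolve_left hg')
    · obtain ⟨K1, k1, K2, k2, e, hc, hL⟩ := h2 T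
      refine ⟨K1, k1, cap b j h * K2, mul_mem (cap_mem _ _) k2, ?_, hc,
        fun L hin g hg hs => hL L hin g hg ((Set.mem_insert_iff.1 hs).resolve_left ?_)⟩
      · rw [e, ← mul_assoc, central (pm_cap hb j h), mul_assoc]
      · rintro rfl
        exact hT hg

/-- few caps suffice for generation -/
theorem split (hb : OddB b) {R : ℕ} (hT : ∀ S : Set H, Subgroup.closure S = ⊤ →
      ∃ T : Finset H, (T : Set H) ⊆ S ∧ T.card ≤ R ∧ Subgroup.closure (T : Set H) = ⊤)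
    {a K : M b} (hK : K ∈ Caps' b) (hg : GenM (a * K)) :
    ∃ K1 ∈ Caps' b, ∃ K2 ∈ Caps' b, K = K1 * K2 ∧ (∀ c, cnt K1 c ≤ R) ∧ GenM (a * K1) := by
  obtain ⟨S, h1, h2⟩ := labels hb hK
  obtain ⟨T, t1, t2, t3⟩ := hT ({g | ∀ L : Subgroup H, In L a → g ∈ L} ∪ S) (hg _ (in_mul.2
    ⟨in_of_all a _ fun g hg => Subgroup.subset_closure (Or.inl hg),
      h1 _ fun g hg => Subgroup.subset_closure (Or.inr hg)⟩))
  obtain ⟨K1, k1, K2, k2, e, hc, hL⟩ := h2 T
  refine ⟨K1, k1, K2, k2, e, fun c => (hc c).trans t2, fun L hin => ?_⟩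
  rw [eq_top_iff, ← t3, Subgroup.closure_le]
  intro g hg
  rcases t1 hg with h | h
  · exact h L (in_mul.1 hin).1
  · exact hL L (in_mul.1 hin).2 g hg h

theorem uniq (hb : OddB b) {R : ℕ} (hT : ∀ S : Set H, Subgroup.closure S = ⊤ →
      ∃ T : Finset H, (T : Set H) ⊆ S ∧ T.card ≤ R ∧ Subgroup.closure (T : Set H) = ⊤)
    {a a' : M b} (ha : Cp a) (ha' : Cp a') (hc : ∀ c, cnt a c = cnt a' c)
    (hk : ∀ c, 2 * R ≤ cnt a c) : a = a' := by
  obtain ⟨K1, k1, K2, k2, rfl, c1, g1⟩ := split hb hT (a := 1) ha.1 (by rw [one_mul]; exact ha.2)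
  obtain ⟨L1, l1, L2, l2, rfl, d1, g2⟩ := split hb hT (a := 1) ha'.1 (by rw [one_mul]; exact ha'.2)
  rw [one_mul] at g1 g2
  have e1 : (fun j => cnt K2 (ev j)) =
      (fun j => cnt L1 (ev j)) + fun j => cnt K2 (ev j) - cnt L1 (ev j) := funext fun j => by
    have h1 := hk (ev j)
    have h2 := c1 (ev j)
    have h3 := d1 (ev j)
    rw [cnt_mul] at h1
    simp only [Pi.add_apply]
    omega
  have e2 : (fun j => cnt L2 (ev j)) =
      (fun j => cnt K1 (ev j)) + fun j => cnt K2 (ev j) - cnt L1 (ev j) := funext fun j => by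
    have h1 := hk (ev j)
    have h2 := c1 (ev j)
    have h3 := d1 (ev j)
    have h4 := hc (ev j)
    rw [cnt_mul] at h1
    rw [cnt_mul, cnt_mul] at h4
    simp only [Pi.add_apply]
    omega
  rw [caps_eq hb g1 k2, caps_eq hb g2 l2, e1, e2, P_add hb, P_add hb, ← mul_assoc, ← mul_assoc,
    ← caps_eq hb g1 l1, ← caps_eq hb g2 k1, central (pm_caps hb k1)]

/-- the product of a list of caps -/
theorem list_caps (hb : OddB b) (l : List (Fin 4 × H)) :
    ∃ K ∈ Caps' b, (∀ c, cnt K c ≤ l.length) ∧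
      ∀ L : Subgroup H, In L K → ∀ y ∈ l, px b (ev y.1, y.2) ∈ L := by
  induction l with
  | nil => exact ⟨1, one_mem _, fun c => by rw [cnt_one]; exact Nat.zero_le _, by simp⟩
  | cons x l ih =>
    obtain ⟨K, k1, k2, k3⟩ := ih
    refine ⟨cap b x.1 x.2 * K, mul_mem (cap_mem _ _) k1, fun c => ?_, fun L hL y hy => ?_⟩
    · have h1 := k2 c
      have h2 := cnt_cap_le (b := b) x.1 x.2 c
      rw [cnt_mul, List.length_cons]
      omega
    · rcases List.mem_cons.1 hy with rfl | hy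
      · exact (in_cap hb).1 (in_mul.1 hL).1
      · exact k3 L (in_mul.1 hL).2 y hy

theorem finite_of_pw {p m : ℕ} (hp : p.Prime) (h : Pw p m H) : Finite H := by
  obtain ⟨e⟩ := h
  have : NeZero p := ⟨hp.ne_zero⟩
  have : Finite (SLp p) := Subtype.finite
  exact Finite.of_equiv _ e.toEquiv.symm

/-- a short generating product of caps -/
theorem gen_caps [Finite H] (hb : OddB b) {R : ℕ}
    (h : ∀ (I : Type) [Finite I] (col : I → Fin 8),
      (∀ j : Fin 4, R ≤ Nat.card {i // col i = ev j ∨ col i = od j}) →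
        (Nat.card {x : I → H //
          Subgroup.closure (Set.range fun i => (x i)⁻¹ * b (col i) * x i) ≠ ⊤} : ℝ) ≤
            (1 / 2 : ℝ) * (Nat.card H : ℝ) ^ Nat.card I) :
    ∃ K ∈ Caps' b, (∀ c, cnt K c ≤ 4 * R) ∧ GenM K := by
  have h1 := h (Fin 4 × Fin R) (fun i => ev i.1) fun j => by
    have := Nat.card_le_card_of_injective
      (fun r : Fin R => (⟨(j, r), Or.inl rfl⟩ : {i : Fin 4 × Fin R // ev i.1 = ev j ∨ ev i.1 = od j}))
      fun r r' e => congrArg (fun i => i.1.2) e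
    rwa [Nat.card_fin] at this
  have h2 : ∃ x : Fin 4 × Fin R → H,
      Subgroup.closure (Set.range fun i => (x i)⁻¹ * b (ev i.1) * x i) = ⊤ := by
    by_contra hc
    push Not at hc
    rw [Nat.card_congr (Equiv.subtypeUnivEquiv hc), Nat.card_fun, Nat.cast_pow] at h1
    have : (0 : ℝ) < (Nat.card H : ℝ) ^ Nat.card (Fin 4 × Fin R) :=
      pow_pos (Nat.cast_pos.2 Nat.card_pos) _
    linarith
  obtain ⟨x, hx⟩ := h2
  obtain ⟨K, k1, k2, k3⟩ := list_caps hb
    ((Finset.univ : Finset (Fin 4 × Fin R)).toList.map fun i => (i.1, x i))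
  refine ⟨K, k1, fun c => ?_, fun L hL => ?_⟩
  · simpa using k2 c
  · rw [eq_top_iff, ← hx, Subgroup.closure_le]
    rintro _ ⟨i, rfl⟩
    exact L.inv_mem_iff.1 (k3 L hL (i.1, x i) (List.mem_map.2 ⟨i, by simp, rfl⟩))

theorem absorb (hb : OddB b) {R L t : ℕ} (hT : ∀ S : Set H, Subgroup.closure S = ⊤ →
      ∃ T : Finset H, (T : Set H) ⊆ S ∧ T.card ≤ R ∧ Subgroup.closure (T : Set H) = ⊤)
    {K0 : M b} (k0 : K0 ∈ Caps' b) (c0 : ∀ c, cnt K0 c ≤ 4 * R) (g0 : GenM K0)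
    (hS : ∀ a a' R' : M b, GenM R' → (∀ c, cnt a c = cnt a' c) → (∀ c, cnt a c ≤ L + R) →
      RA.pm b a = RA.pm b a' → R' * a * P b (fun _ => t) = R' * a' * P b fun _ => t)
    {a K : M b} (ha : RA.pm b a = 1) (hc : ∀ j, cnt a (ev j) = cnt a (od j))
    (hL : ∀ c, cnt a c ≤ L) (hK : K ∈ Caps' b) (hk : ∀ c, 5 * R + t ≤ cnt K c)
    (hg : GenM (a * K)) : a * K ∈ Caps' b := by
  obtain ⟨K1, k1, K2, k2, rfl, c1, g1⟩ := split hb hT hK hg
  have e1 : (fun j => cnt K2 (ev j)) = (fun j => cnt K0 (ev j)) +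
      ((fun _ => t) + fun j => cnt K2 (ev j) - cnt K0 (ev j) - t) := funext fun j => by
    have h1 := hk (ev j)
    have h2 := c1 (ev j)
    have h3 := c0 (ev j)
    rw [cnt_mul] at h1
    simp only [Pi.add_apply]
    omega
  have e2 := hS (a * K1) (P b fun j => cnt (a * K1) (ev j)) K0 g0 (fun c => by
      obtain ⟨j, rfl | rfl⟩ := ev_or_od c
      · rw [cnt_P_ev]
      · rw [cnt_P_od, cnt_mul, cnt_mul, hc, cnt_caps k1])
    (fun c => by rw [cnt_mul]; exact add_le_add (hL c) (c1 c))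
    (by rw [map_mul, ha, pm_caps hb k1, pm_P hb, one_mul])
  rw [← mul_assoc, caps_eq hb g1 k2, e1, P_add hb, P_add hb, ← mul_assoc, ← caps_eq hb g1 k0,
    ← central (pm_caps hb k0), ← mul_assoc, e2]
  exact mul_mem (mul_mem (mul_mem k0 (P_mem _)) (P_mem _)) (P_mem _)

end U1

theorem rowU1 (hE : RowEH) (hS : RowS) : RowU1 := by
  refine ⟨fun m => ?_, fun m L => ?_⟩
  · obtain ⟨R, ⟨p0, h⟩, -⟩ := hE m
    exact ⟨2 * R, p0, fun p hp h0 H _ hH b hb hn a a' ha ha' hc hk =>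
      U1.uniq hb (h p hp h0 H hH b hb hn) ha ha' hc hk⟩
  · obtain ⟨R, ⟨p0, h⟩, h'⟩ := hE m
    obtain ⟨p1, h1⟩ := h' (1 / 2) (by norm_num)
    obtain ⟨t, p2, h2⟩ := hS m (L + R)
    refine ⟨5 * R + t, p0 + p1 + p2, fun p hp h0 H _ hH b hb hn a K ha hc hL hK hk hg => ⟨?_, hg⟩⟩
    have := U1.finite_of_pw hp hH
    obtain ⟨K0, k0, c0, g0⟩ := U1.gen_caps hb (h1 p hp (by omega) H hH b hb hn)
    exact U1.absorb hb (h p hp (by omega) H hH b hb hn) k0 c0 g0
      (h2 p hp (by omega) H hH b hb hn) ha hc hL hK hk hg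

end Vale.Agent.Q258E
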