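import Vale.Agent.Q258E.Rows
import Vale.Agent.Q258D.B3
import Vale.Agent.Q258D.C

/-!
# Row U2: the size of the giant orbit
-/

set_option linter.all false

namespace Vale.Agent.Q258E

open Vale.Agent.P258.Braid Vale.Agent.Q258D Vale.Agent.Q258D.RA

namespace U2

/-! ### Large primes -/

theorem all_and {m : ℕ} {P Q : ∀ (H : Type) [Group H], (Fin 8 → H) → Prop} (h : All m P)
    (h' : All m Q) : All m fun H _ b => P H b ∧ Q H b := by
  obtain ⟨p0, h⟩ := h
  obtain ⟨p1, h'⟩ := h'
  exact ⟨max p0 p1, fun p hp hp0 H _ hH b ho hg =>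
    ⟨h p hp (le_of_max_le_left hp0) H hH b ho hg, h' p hp (le_of_max_le_right hp0) H hH b ho hg⟩⟩

theorem all_mono {m : ℕ} {P Q : ∀ (H : Type) [Group H], (Fin 8 → H) → Prop} (h : All m P)
    (h' : ∀ (H : Type) [Group H] [Finite H] (b : Fin 8 → H), OddB b → P H b → Q H b) :
    All m Q := by
  obtain ⟨p0, h⟩ := h
  refine ⟨p0, fun p hp hp0 H _ hH b ho hg => ?_⟩
  haveI : NeZero p := ⟨hp.ne_zero⟩
  haveI : Finite H := by
    obtain ⟨e⟩ := hH
    exact Finite.of_equiv _ e.toEquiv.symm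
  exact h' H b ho (h p hp hp0 H hH b ho hg)

variable {H : Type} [Group H] {b : Fin 8 → H}

/-! ### Rows and lists -/

theorem cls_eq (l : List (X H)) : cls b l = (l.map (gn b)).prod := by
  induction l with
  | nil => exact map_one _
  | cons s l ih =>
    rw [List.map_cons, List.prod_cons, ← ih, cls, FreeMonoid.ofList_cons, map_mul]
    rfl

theorem clr_row (k : ℕ) (F : ℕ → H) :
    clr b (row k b F) = ((List.range (8 * k)).map fun s => gn b (colr k s, F s)).prod := by
  rw [clr, cls_eq, row, List.map_map, List.map_map]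
  rfl

theorem map_toSt (l : List (X H)) : (toSt b l).map (fun s => (s.lab, s.tr)) = l := by
  unfold toSt
  rw [List.map_map]
  exact List.map_id' l

theorem fst_map (l : List (St 8 H)) : (l.map fun s => (s.lab, s.tr)).map Prod.fst = labs l := by
  simp [labs]

theorem card_InC (cl : List (Fin 8)) : Nat.card {l // InC b cl l} =
    Nat.card {l : List (X H) // l.map Prod.fst = cl ∧ Cp (cls b l)} :=
  Nat.card_congr
    { toFun := fun l => ⟨l.1.map fun s : St 8 H => (s.lab, s.tr), (fst_map _).trans l.2.1.2, l.2.2⟩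
      invFun := fun l => ⟨toSt b l.1, ⟨fun s hs => by
        obtain ⟨x, -, rfl⟩ := List.mem_map.1 hs
        rfl, by rw [← fst_map, map_toSt, l.2.1]⟩, by rw [clr, map_toSt]; exact l.2.2⟩
      left_inv := fun l => Subtype.ext (based_eq l.2.1.1)
      right_inv := fun l => Subtype.ext (map_toSt l.1) }

theorem finite_XL [Finite H] (cl : List (Fin 8)) (g : H) : Finite {l // XL b cl g l} := by
  have h1 : Finite {l : List (X H) // l.length = cl.length} := by
    haveI := Fintype.ofFinite (X H)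
    exact (inferInstance : Finite (List.Vector (X H) cl.length))
  exact RG.fin_mono h1 fun l h => by rw [← h.1, List.length_map]

theorem genM_clr {l : List (St 8 H)} (h : Based b l) (hg : Gen l) : GenM (clr b l) :=
  gen_mk (by rwa [based_eq h])

theorem pm_clr {l : List (St 8 H)} (h : Based b l) : RA.pm b (clr b l) = pr l := by
  rw [clr, cls, pm_mk, based_eq h]

theorem cnt_clr {l : List (St 8 H)} (c : Fin 8) : cnt (clr b l) c = (labs l).count c := by
  rw [clr, cls, cnt_mk, fst_map]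

theorem length_cs (k : ℕ) : (cs k).length = 8 * k := by simp [cs]

theorem cap_mem (j : Fin 4) (h : H) : cap b j h ∈ Caps' b := Submonoid.subset_closure ⟨j, h, rfl⟩

theorem P_mem (n : Fin 4 → ℕ) : P b n ∈ Caps' b :=
  mul_mem (pow_mem (cap_mem _ _) _) (mul_mem (pow_mem (cap_mem _ _) _)
    (mul_mem (pow_mem (cap_mem _ _) _) (pow_mem (cap_mem _ _) _)))

theorem cnt_P_const (n : ℕ) (c : Fin 8) : cnt (P b fun _ => n) c = n := by
  obtain ⟨j, rfl | rfl⟩ := ev_or_od c
  · exact cnt_P_ev _ _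
  · exact cnt_P_od _ _

theorem cnt_caps {K : M b} (hK : K ∈ Caps' b) (j : Fin 4) : cnt K (ev j) = cnt K (od j) := by
  induction hK using Submonoid.closure_induction with
  | mem x hx =>
    obtain ⟨i, h, rfl⟩ := hx
    simp only [cnt_cap, ev_inj, od_inj, if_neg (ev_ne_od _ _), if_neg (ev_ne_od _ _).symm]
    omega
  | one => rw [cnt_one, cnt_one]
  | mul x y _ _ hx hy => rw [cnt_mul, cnt_mul, hx, hy]

/-! ### The size of the orbit -/

theorem upper [Finite H] (hb : OddB b) (cl : List (Fin 8)) :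
    Nat.card {l // InC b cl l} ≤ Nat.card {l // XL b cl 1 l} := by
  haveI := finite_XL (b := b) cl 1
  rw [card_InC]
  exact RG.card_mono fun l h => ⟨h.1, pm_caps hb h.2.1⟩

theorem lower [Finite H] (hb : OddB b) (cl : List (Fin 8)) (D : List (X H) → Prop)
    (hD : ∀ l, XL b cl 1 l → D l → Cp (cls b l)) :
    Nat.card {l // XL b cl 1 l} ≤
      Nat.card {l // InC b cl l} + Nat.card {l // XL b cl 1 l ∧ ¬ D l} := by
  haveI := finite_XL (b := b) cl 1
  haveI : Finite {l : List (X H) // l.map Prod.fst = cl ∧ Cp (cls b l)} :=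
    RG.fin_mono (finite_XL (b := b) cl 1) fun l h => ⟨h.1, pm_caps hb h.2.1⟩
  rw [card_InC, RG.card_split (XL b cl 1) D]
  exact Nat.add_le_add_right (RG.card_mono fun l h => ⟨h.1.1, hD l h.1 h.2⟩) _

/-! ### Products over ranges -/

theorem prod_pairs {G : Type} [Monoid G] (g : ℕ → G) : ∀ n : ℕ,
    ((List.range (2 * n)).map g).prod =
      ((List.range n).map fun i => g (2 * i) * g (2 * i + 1)).prod
  | 0 => rfl
  | n + 1 => by
    rw [show 2 * (n + 1) = 2 * n + 1 + 1 by ring, List.prod_range_succ, List.prod_range_succ,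
      List.prod_range_succ, prod_pairs g n, mul_assoc]

theorem prod_shift {G : Type} [Monoid G] (g : ℕ → G) (n : ℕ) :
    ((List.range (2 * (n + 1))).map g).prod =
      g 0 * ((List.range n).map fun i => g (2 * i + 1) * g (2 * i + 2)).prod * g (2 * n + 1) := by
  rw [show 2 * (n + 1) = 2 * n + 1 + 1 by ring, List.prod_range_succ, List.prod_range_succ',
    prod_pairs (fun s => g (s + 1)) n]

theorem prod_four {G : Type} [Monoid G] (g : ℕ → G) (n : ℕ) :
    ((List.range (4 * n)).map g).prod =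
      ((List.range n).map fun s => g (0 * n + s)).prod *
      ((List.range n).map fun s => g (1 * n + s)).prod *
      ((List.range n).map fun s => g (2 * n + s)).prod *
      ((List.range n).map fun s => g (3 * n + s)).prod := by
  rw [show 4 * n = 3 * n + n by ring, List.range_add, List.map_append, List.prod_append,
    show 3 * n = 2 * n + n by ring, List.range_add, List.map_append, List.prod_append,
    show 2 * n = 1 * n + n by ring, List.range_add, List.map_append, List.prod_append]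
  simp only [List.map_map, zero_mul, zero_add, one_mul]
  rfl

theorem colr_j {k s : ℕ} (j : Fin 4) (hs : s < 2 * k) :
    colr k (j * (2 * k) + s) = if s % 2 = 0 then ev j else od j :=
  RC.colr_blk j hs _ _ (by fin_cases j <;> rfl) (by fin_cases j <;> rfl)

/-! ### Rows that fit the caps at the top -/

theorem inT_caps {k : ℕ} {u : List (St 8 H)} (h : InT k b u) : clr b u ∈ Caps' b := by
  obtain ⟨f, rfl⟩ := h
  rw [clr_row, show 8 * k = 2 * (4 * k) by ring, prod_pairs]
  refine Submonoid.list_prod_mem _ fun y hy => ?_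
  obtain ⟨i, hi, rfl⟩ := List.mem_map.1 hy
  have hi := List.mem_range.1 hi
  have hk : 0 < k := by omega
  have h1 := Nat.mod_lt i hk
  have h2 := Nat.div_add_mod i k
  let j : Fin 4 := ⟨i / k, (Nat.div_lt_iff_lt_mul hk).2 hi⟩
  have e : 2 * i = j * (2 * k) + 2 * (i % k) := by
    change _ = i / k * (2 * k) + _
    conv_lhs => rw [← h2]
    ring
  have e1 : colr k (2 * i) = ev j := by rw [e, colr_j j (by omega), if_pos (by omega)]
  have e2 : colr k (2 * i + 1) = od j := by
    rw [e, add_assoc, colr_j j (by omega), if_neg (by omega)]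
  rw [e1, e2, show 2 * i / 2 = i by omega, show (2 * i + 1) / 2 = i by omega]
  exact cap_mem j (f i)

/-! ### Twisted caps -/

variable (b) in
/-- a twisted cap -/
def tc (j : Fin 4) (h : H) : M b := gn b (od j, h) * gn b (ev j, h)

theorem pm_tc (hb : OddB b) (j : Fin 4) (h : H) : RA.pm b (tc b j h) = 1 := by
  rw [tc, map_mul, pm_gn, pm_gn, px_od hb, inv_mul_cancel]

theorem cnt_tc (j : Fin 4) (h : H) (c : Fin 8) : cnt (tc b j h) c ≤ 1 := by
  rw [tc, cnt_mul, cnt_gn, cnt_gn]
  split_ifs with h1 h2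
  · exact absurd (h2.symm.trans h1) (ev_ne_od _ _)
  all_goals omega

theorem tc_move (hb : OddB b) {R : M b} (hR : GenM R) (j : Fin 4) (h : H) :
    R * tc b j h = R * tc b j 1 := by
  rw [← hR.move h (pm_tc hb j h), tc, map_mul, lm_gn, lm_gn]
  simp only [lx, mul_inv_cancel, tc]

/-- the twisted cap is turned into a cap -/
def Ab (j : Fin 4) (a : M b) : Prop := a * tc b j 1 = a * cap b j 1

theorem Ab.left {j : Fin 4} {a : M b} (h : Ab j a) (x : M b) : Ab j (x * a) := by
  unfold Ab at h ⊢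
  rw [mul_assoc, h, mul_assoc]

theorem Ab.right (hb : OddB b) {j : Fin 4} {a : M b} (h : Ab j a) (y : M b) : Ab j (a * y) := by
  unfold Ab at h ⊢
  rw [mul_assoc, ← central (pm_tc hb j 1), ← mul_assoc, h, mul_assoc, central (pm_cap hb j 1),
    mul_assoc]

theorem ab_gn (hb : OddB b) (j : Fin 4) : Ab j (gn b (ev j, 1)) := by
  unfold Ab
  rw [← central (pm_cap hb j 1), tc, cap, mul_assoc]

theorem to_caps (hb : OddB b) {R : M b} (hR : GenM R) (hA : ∀ j, Ab j R) :
    ∀ L : List (M b), (∀ y ∈ L, ∃ j h, y = tc b j h) → ∃ K ∈ Caps' b, R * L.prod = R * K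
  | [], _ => ⟨1, one_mem _, rfl⟩
  | y :: L, h => by
    obtain ⟨K, hK, e⟩ := to_caps hb hR hA L fun z hz => h z (List.mem_cons_of_mem _ hz)
    obtain ⟨j, x, rfl⟩ := h y List.mem_cons_self
    refine ⟨K * cap b j 1, mul_mem hK (cap_mem _ _), ?_⟩
    rw [List.prod_cons, ← mul_assoc, tc_move hb hR, hA j, mul_assoc, central (pm_cap hb j 1),
      ← mul_assoc, e, mul_assoc]

/-! ### A small generating part -/

theorem exists_span (a : M b) : ∃ K0 : Subgroup H, ∀ K, In K a ↔ K0 ≤ K := by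
  induction a using M_ind with
  | h1 => exact ⟨⊥, fun K => ⟨fun _ => bot_le, fun _ => in_one K⟩⟩
  | h s a ih =>
    obtain ⟨K0, h⟩ := ih
    exact ⟨Subgroup.zpowers (px b s) ⊔ K0, fun K => by
      rw [in_mul, in_gn, h, sup_le_iff, Subgroup.zpowers_le]⟩

theorem in_prod {K : Subgroup H} : ∀ L : List (M b), (∀ y ∈ L, In K y) → In K L.prod
  | [], _ => in_one K
  | y :: L, h => by
    rw [List.prod_cons]
    exact in_mul.2 ⟨h y List.mem_cons_self, in_prod L fun z hz => h z (List.mem_cons_of_mem _ hz)⟩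

theorem extract (C : M b) (L : List (M b)) (hL : ∀ y ∈ L, RA.pm b y = 1 ∧ ∀ c, cnt y c ≤ 1)
    (T : Finset H) (hT : ∀ t ∈ T, ∃ y ∈ C :: L, ∀ K, In K y → t ∈ K) :
    ∃ (A : M b) (L1 : List (M b)), (∀ y ∈ L1, y ∈ L) ∧ L.prod = A * L1.prod ∧
      (∀ c, cnt A c ≤ T.card) ∧ (∀ t ∈ T, ∀ K, In K (C * A) → t ∈ K) ∧
      ∀ y ∈ L, y ∈ L1 ∨ ∀ K, In K A → In K y := by
  classical
  induction T using Finset.induction_on with
  | empty =>
    exact ⟨1, L, fun _ h => h, (one_mul _).symm, fun c => by rw [cnt_one]; exact Nat.zero_le _,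
      fun _ h => absurd h (Finset.notMem_empty _), fun _ h => Or.inl h⟩
  | insert t T ht ih =>
    obtain ⟨A, L1, h1, h2, h3, h4, h5⟩ := ih fun x hx => hT x (Finset.mem_insert_of_mem hx)
    rw [Finset.card_insert_of_notMem ht]
    by_cases hc : ∀ K, In K (C * A) → t ∈ K
    · refine ⟨A, L1, h1, h2, fun c => (h3 c).trans (Nat.le_succ _), fun x hx => ?_, h5⟩
      rcases Finset.mem_insert.1 hx with rfl | hx
      · exact hc
      · exact h4 x hx
    · obtain ⟨y, hy, hy'⟩ := hT t (Finset.mem_insert_self _ _)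
      rcases List.mem_cons.1 hy with rfl | hy
      · exact absurd (fun K hK => hy' K (in_mul.1 hK).1) hc
      rcases h5 y hy with h6 | h6
      · obtain ⟨s, u, rfl⟩ := List.append_of_mem h6
        refine ⟨A * y, s ++ u, fun z hz => h1 z ?_, ?_, fun c => ?_, fun x hx K hK => ?_,
          fun z hz => ?_⟩
        · rcases List.mem_append.1 hz with hz | hz
          · exact List.mem_append_left _ hz
          · exact List.mem_append_right _ (List.mem_cons_of_mem _ hz)
        · rw [h2, List.prod_append, List.prod_append, List.prod_cons, mul_assoc A,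
            ← mul_assoc s.prod, ← central (hL y hy).1, mul_assoc y]
        · rw [cnt_mul]
          exact Nat.add_le_add (h3 c) ((hL y hy).2 c)
        · rw [← mul_assoc] at hK
          rcases Finset.mem_insert.1 hx with rfl | hx
          · exact hy' K (in_mul.1 hK).2
          · exact h4 x hx K (in_mul.1 hK).1
        · rcases h5 z hz with h7 | h7
          · rcases List.mem_append.1 h7 with h7 | h7
            · exact Or.inl (List.mem_append_left _ h7)
            · rcases List.mem_cons.1 h7 with rfl | h7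
              · exact Or.inr fun K hK => (in_mul.1 hK).2
              · exact Or.inl (List.mem_append_right _ h7)
          · exact Or.inr fun K hK => h7 K (in_mul.1 hK).1
      · exact absurd (fun K hK => hy' K (h6 K (in_mul.1 hK).2)) hc

theorem small_gen {R : ℕ} (hE : ∀ S : Set H, Subgroup.closure S = ⊤ →
      ∃ T : Finset H, (T : Set H) ⊆ S ∧ T.card ≤ R ∧ Subgroup.closure (T : Set H) = ⊤)
    (C : M b) (L : List (M b)) (hL : ∀ y ∈ L, RA.pm b y = 1 ∧ ∀ c, cnt y c ≤ 1)
    (hg : GenM (C * L.prod)) :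
    ∃ (A : M b) (L1 : List (M b)), (∀ y ∈ L1, y ∈ L) ∧ L.prod = A * L1.prod ∧
      (∀ c, cnt A c ≤ R) ∧ GenM (C * A) := by
  have h1 : Subgroup.closure {g | ∃ y ∈ C :: L, ∀ K, In K y → g ∈ K} = ⊤ := by
    apply hg
    rw [← List.prod_cons]
    refine in_prod _ fun y hy => ?_
    obtain ⟨K0, h⟩ := exists_span y
    exact (h _).2 fun g hg => Subgroup.subset_closure ⟨y, hy, fun K hK => (h K).1 hK hg⟩
  obtain ⟨T, t1, t2, t3⟩ := hE _ h1
  obtain ⟨A, L1, a1, a2, a3, a4, -⟩ := extract C L hL T fun t ht => t1 ht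
  refine ⟨A, L1, a1, a2, fun c => (a3 c).trans t2, fun K hK => ?_⟩
  rw [eq_top_iff, ← t3, Subgroup.closure_le]
  exact fun t ht => a4 t ht K hK

/-! ### Rows that fit the caps at the bottom -/

variable (b) in
/-- the two ends of a block -/
def en (e : ℕ → H) (j : Fin 4) : M b := gn b (ev j, 1) * gn b (od j, e j)

theorem pm_tcs (hb : OddB b) {L : List (M b)} (hL : ∀ y ∈ L, ∃ j h, y = tc b j h) :
    RA.pm b L.prod = 1 := by
  rw [map_list_prod]
  refine List.prod_eq_one fun y hy => ?_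
  obtain ⟨z, hz, rfl⟩ := List.mem_map.1 hy
  obtain ⟨j, h, rfl⟩ := hL z hz
  exact pm_tc hb j h

theorem block (hb : OddB b) (n : ℕ) (e f : ℕ → H) (hf : ∀ j, f ((n + 1) * j) = 1) (j : Fin 4) :
    ∃ L : List (M b), (∀ y ∈ L, ∃ j h, y = tc b j h) ∧
      ((List.range (2 * (n + 1))).map fun s => gn b (colr (n + 1) (j * (2 * (n + 1)) + s),
        if (j * (2 * (n + 1)) + s) % (2 * (n + 1)) = 2 * (n + 1) - 1
          then e ((j * (2 * (n + 1)) + s) / (2 * (n + 1)))
          else f ((j * (2 * (n + 1)) + s + 1) / 2))).prod = en b e j * L.prod := by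
  have m1 : ∀ s < 2 * (n + 1), (j * (2 * (n + 1)) + s) % (2 * (n + 1)) = s := fun s hs => by
    rw [add_comm, Nat.add_mul_mod_self_right, Nat.mod_eq_of_lt hs]
  have m2 : ∀ s, (j * (2 * (n + 1)) + s + 1) / 2 = (n + 1) * j + (s + 1) / 2 := fun s => by
    rw [show j * (2 * (n + 1)) = 2 * ((n + 1) * j) by ring]
    omega
  have m3 : (j * (2 * (n + 1)) + (2 * n + 1)) / (2 * (n + 1)) = j := by
    rw [add_comm, Nat.add_mul_div_right _ _ (by omega), Nat.div_eq_of_lt (by omega), zero_add]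
  let L : List (M b) := (List.range n).map fun i => tc b j (f ((n + 1) * j + (i + 1)))
  have hL : ∀ y ∈ L, ∃ j h, y = tc b j h := fun y hy => by
    obtain ⟨i, -, rfl⟩ := List.mem_map.1 hy
    exact ⟨_, _, rfl⟩
  have hp := pm_tcs hb hL
  refine ⟨L, hL, ?_⟩
  have k0 : ∀ s < 2 * n + 1, (if (j * (2 * (n + 1)) + s) % (2 * (n + 1)) = 2 * (n + 1) - 1
      then e ((j * (2 * (n + 1)) + s) / (2 * (n + 1)))
      else f ((j * (2 * (n + 1)) + s + 1) / 2)) = f ((n + 1) * j + (s + 1) / 2) := fun s hs => by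
    rw [m1 s (by omega), if_neg (by omega), m2]
  have k1 : ∀ s < 2 * (n + 1), s % 2 = 0 → colr (n + 1) (j * (2 * (n + 1)) + s) = ev j :=
    fun s hs h => by rw [colr_j j hs, if_pos h]
  have k2 : ∀ s < 2 * (n + 1), s % 2 = 1 → colr (n + 1) (j * (2 * (n + 1)) + s) = od j :=
    fun s hs h => by rw [colr_j j hs, if_neg (by omega)]
  rw [prod_shift, en, mul_assoc, mul_assoc, ← central hp, k0 0 (by omega), k1 0 (by omega) rfl,
    k2 (2 * n + 1) (by omega) (by omega), m1 (2 * n + 1) (by omega), if_pos (by omega), m3,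
    show (n + 1) * j + (0 + 1) / 2 = (n + 1) * j from rfl, hf]
  congr 3
  refine List.map_congr_left fun i hi => ?_
  have hi := List.mem_range.1 hi
  rw [k0 _ (by omega), k0 _ (by omega), k2 (2 * i + 1) (by omega) (by omega),
    k1 (2 * i + 2) (by omega) (by omega),
    show (2 * i + 1 + 1) / 2 = i + 1 by omega, show (2 * i + 2 + 1) / 2 = i + 1 by omega]
  rfl

variable (b) in
/-- the ends of the four blocks -/
def core (e : ℕ → H) : M b := en b e 0 * en b e 1 * en b e 2 * en b e 3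

theorem inB_eq (hb : OddB b) {k : ℕ} (hk : 0 < k) {e : ℕ → H} {v : List (St 8 H)}
    (h : InB k b e v) :
    ∃ L : List (M b), (∀ y ∈ L, ∃ j h, y = tc b j h) ∧ clr b v = core b e * L.prod := by
  obtain ⟨f, hf, rfl⟩ := h
  obtain ⟨n, rfl⟩ : ∃ n, k = n + 1 := ⟨k - 1, by omega⟩
  obtain ⟨L0, a0, e0⟩ := block hb n e f hf 0
  obtain ⟨L1, a1, e1⟩ := block hb n e f hf 1
  obtain ⟨L2, a2, e2⟩ := block hb n e f hf 2
  obtain ⟨L3, a3, e3⟩ := block hb n e f hf 3
  refine ⟨L0 ++ L1 ++ L2 ++ L3, fun y hy => ?_, ?_⟩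
  · simp only [List.mem_append] at hy
    rcases hy with ((hy | hy) | hy) | hy
    exacts [a0 y hy, a1 y hy, a2 y hy, a3 y hy]
  · rw [clr_row, show 8 * (n + 1) = 4 * (2 * (n + 1)) by ring, prod_four]
    refine (congrArg₂ (· * ·) (congrArg₂ (· * ·) (congrArg₂ (· * ·) e0 e1) e2) e3).trans ?_
    have c : ∀ a s x t : M b, RA.pm b s = 1 → a * s * (x * t) = a * x * (s * t) :=
      fun a s x t hs => by rw [mul_assoc, ← mul_assoc s, central hs, mul_assoc, mul_assoc]
    have p0 := pm_tcs hb a0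
    have p1 := pm_tcs hb a1
    have p2 := pm_tcs hb a2
    rw [c _ _ _ _ p0, c _ (L0.prod * L1.prod) _ _ (by rw [map_mul, p0, p1, one_mul]),
      c _ (L0.prod * L1.prod * L2.prod) _ _
        (by rw [map_mul, map_mul, p0, p1, p2, one_mul, one_mul]), List.prod_append,
      List.prod_append, List.prod_append, core]

theorem ab_core (hb : OddB b) (e : ℕ → H) (j : Fin 4) : Ab j (core b e) := by
  have h : ∀ j, Ab j (en b e j) := fun j => (ab_gn hb j).right hb _
  fin_cases j
  · exact (((h 0).right hb _).right hb _).right hb _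
  · exact (((h 1).left _).right hb _).right hb _
  · exact ((h 2).left _).right hb _
  · exact (h 3).left _

theorem cnt_core (e : ℕ → H) (c : Fin 8) : cnt (core b e) c ≤ 8 := by
  simp only [core, en, cnt_mul, cnt_gn]
  split_ifs <;> omega

theorem inB_cp (hb : OddB b) {R k0 k : ℕ} (hE : ∀ S : Set H, Subgroup.closure S = ⊤ →
      ∃ T : Finset H, (T : Set H) ⊆ S ∧ T.card ≤ R ∧ Subgroup.closure (T : Set H) = ⊤)
    (hU : ∀ a K : M b, RA.pm b a = 1 → (∀ j, cnt a (ev j) = cnt a (od j)) →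
      (∀ c, cnt a c ≤ 8 + R) → K ∈ Caps' b → (∀ c, k0 ≤ cnt K c) → GenM (a * K) → Cp (a * K))
    (hk : k0 + 8 + R ≤ k) {e : ℕ → H} {v : List (St 8 H)} (h : InB k b e v) (hp : pr v = 1)
    (hg : Gen v) : InC b (cs k) v := by
  have hx : InX b (cs k) v := by
    obtain ⟨f, -, rfl⟩ := h
    exact inX_row _ _ _
  refine ⟨hx, ?_⟩
  have g1 := genM_clr hx.1 hg
  have p1 := (pm_clr hx.1).trans hp
  have c1 : ∀ c, cnt (clr b v) c = k := fun c => by rw [cnt_clr, hx.2, RC.count_cs]
  obtain ⟨L, hL, e1⟩ := inB_eq hb (by omega) h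
  rw [e1] at g1 p1 c1 ⊢
  obtain ⟨A, L1, a1, a2, a3, a4⟩ := small_gen hE (core b e) L (fun y hy => by
    obtain ⟨j, x, rfl⟩ := hL y hy
    exact ⟨pm_tc hb j x, cnt_tc j x⟩) g1
  obtain ⟨K, hK, e2⟩ := to_caps hb a4 (fun j => (ab_core hb e j).right hb A) L1
    fun y hy => hL y (a1 y hy)
  rw [a2, ← mul_assoc, e2] at g1 p1 c1 ⊢
  have c2 : ∀ c, cnt (core b e * A) c ≤ 8 + R := fun c => by
    rw [cnt_mul]
    exact Nat.add_le_add (cnt_core e c) (a3 c)
  refine hU _ K (by rwa [map_mul, pm_caps hb hK, mul_one] at p1) (fun j => ?_) c2 hK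
    (fun c => ?_) g1
  · have h1 := c1 (ev j)
    have h2 := c1 (od j)
    have h3 := cnt_caps hK j
    rw [cnt_mul] at h1 h2
    omega
  · have h1 := c1 c
    have h2 := c2 c
    rw [cnt_mul] at h1
    omega

/-! ### Rows that do not generate -/

theorem par_bad [Finite H] {k R : ℕ} {I : Finset ℕ} {Q : List (St 8 H) → Prop}
    {Φ : (ℕ → H) → ℕ → H} (h : B3.Par k b I Q Φ) {η : ℝ}
    (hE : ∀ (I : Type) [Finite I] (col : I → Fin 8),
      (∀ j : Fin 4, R ≤ Nat.card {i // col i = ev j ∨ col i = od j}) →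
        (Nat.card {x : I → H //
          Subgroup.closure (Set.range fun i => (x i)⁻¹ * b (col i) * x i) ≠ ⊤} : ℝ) ≤
            η * (Nat.card H : ℝ) ^ Nat.card I)
    (hk : R + 1 ≤ k) (hI : ∀ j < 4, ∀ a, a + 1 < k → k * j + (a + 1) ∈ I) :
    (Nat.card {l // Q l ∧ ¬ Gen l} : ℝ) ≤ η * Nat.card {l // Q l} := by
  have h0 := hE I (fun i => colr k (2 * i.1)) fun j => by
    have h1 : Nat.card (Fin R) ≤
        Nat.card {i : I // colr k (2 * i.1) = ev j ∨ colr k (2 * i.1) = od j} := by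
      refine Nat.card_le_card_of_injective
        (fun a => ⟨⟨k * j.1 + (a.1 + 1), hI _ j.2 a.1 (by have := a.2; omega)⟩, Or.inl ?_⟩) ?_
      · have := a.2
        change colr k (2 * (k * j.1 + (a.1 + 1))) = _
        rw [show 2 * (k * j.1 + (a.1 + 1)) = j * (2 * k) + 2 * (a.1 + 1) by ring,
          colr_j j (by omega), if_pos (by omega)]
      · intro a a' e
        have := congrArg (fun z => z.1.1) e
        simp only at this
        exact Fin.ext (by omega)
    rwa [Nat.card_eq_fintype_card, Fintype.card_fin] at h1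
  rw [Nat.card_eq_fintype_card (α := I), Fintype.card_coe] at h0
  rw [h.card, Nat.cast_pow]
  refine le_trans (Nat.cast_le.2 (Nat.card_le_card_of_injective
    (fun l : {l // Q l ∧ ¬ Gen l} => (⟨B3.psi I ⟨l.1, l.2.1⟩, ?_⟩ : {x : I → H //
      Subgroup.closure (Set.range fun i => (x i)⁻¹ * b (colr k (2 * i.1)) * x i) ≠ ⊤})) ?_)) h0
  · obtain ⟨l, hl, hn⟩ := l
    refine fun e => hn ?_
    rw [Gen, eq_top_iff, ← e, Subgroup.closure_le]
    rintro _ ⟨i, rfl⟩
    obtain ⟨f, -, rfl⟩ := h.ex l hl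
    have h3 := h.sub i.1 i.2
    simp only [B3.psi]
    rw [frm_row _ _ (by omega)]
    have h4 : Q258D.mk b (colr k (2 * i.1)) (Φ f (2 * i.1)) ∈ row k b (Φ f) :=
      List.mem_map.2 ⟨2 * i.1, List.mem_range.2 (by omega), rfl⟩
    exact mem_span h4
  · intro l l' e
    have := h.bij.1 (congrArg Subtype.val e)
    exact Subtype.ext (congrArg (fun z : {l // Q l} => z.1) this)

end U2

open U2 in
theorem rowU2 (hQ : RowQ2) (hE : RowEH) (hR : RowR2) (hU : RowU1) : RowU2 := by
  intro m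
  obtain ⟨R, hE1, hE2⟩ := hE m
  obtain ⟨k1, hR⟩ := hR m
  obtain ⟨k2, hU1⟩ := hU.2 m k1
  obtain ⟨k3, hU2⟩ := hU.2 m (8 + R)
  refine ⟨k1 + k2 + k3 + 8 + R, fun k hk η hη => ?_⟩
  obtain ⟨n, rfl⟩ : ∃ n, k = k1 + n := ⟨k - k1, by omega⟩
  refine all_mono (all_and (all_and (all_and (hQ m (η / 2) (half_pos hη))
    (hR n (η / 2) (half_pos hη))) (all_and hE1 (hE2 η hη))) (all_and hU1 hU2)) ?_
  rintro H _ _ b hb ⟨⟨⟨q, r⟩, e1, e2⟩, u1, u2⟩
  obtain ⟨q1, q2⟩ := q (cs (k1 + n)) (fun c => by rw [RC.count_cs]; omega) 1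
  rw [length_cs] at q1 q2
  have hpos : (0 : ℝ) ≤ Nat.card H := Nat.cast_nonneg _
  have hpow : (0 : ℝ) ≤ η * (Nat.card H : ℝ) ^ (8 * (k1 + n)) := by positivity
  have h4 : ∀ j < 4, ∀ a, a + 1 < k1 + n → (k1 + n) * j + (a + 1) < 4 * (k1 + n) := by
    intro j hj a ha
    have : (k1 + n) * j ≤ (k1 + n) * 3 := Nat.mul_le_mul_left _ (by omega)
    omega
  refine ⟨?_, ?_, fun u hu hg => ?_, fun e v hv hp hg => inB_cp hb e1 u2 (by omega) hv hp hg,
    fun e => ?_, ?_⟩
  · have h1 := lower hb (cs (k1 + n))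
      (fun l => ∃ a : M b, GenM a ∧ (∀ c, cnt a c = k1) ∧ cls b l = a * P b fun _ => n)
      fun l hl ⟨a, a1, a2, a3⟩ => by
        have hp := hl.2
        rw [a3] at hp ⊢
        exact u1 a _ (by rwa [map_mul, pm_P hb, mul_one] at hp) (fun j => by rw [a2, a2])
          (fun c => (a2 c).le) (P_mem _) (fun c => by rw [cnt_P_const]; omega) (a1.mul _)
    have h2 := mul_le_mul_of_nonneg_left ((Nat.cast_le (α := ℝ)).2 h1) hpos
    rw [Nat.cast_add, mul_add] at h2
    linarith
  · have h2 := mul_le_mul_of_nonneg_left ((Nat.cast_le (α := ℝ)).2 (upper hb (cs (k1 + n)))) hpos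
    linarith
  · exact ⟨RG.InT.inX hu, inT_caps hu, genM_clr (RG.InT.inX hu).1 hg⟩
  · refine par_bad (B3.parB (by omega) b e) e2 (by omega) fun j hj a ha => ?_
    refine Finset.mem_filter.2 ⟨Finset.mem_range.2 (h4 j hj a ha), ?_⟩
    rw [Nat.mul_add_mod, Nat.mod_eq_of_lt ha]
    omega
  · exact par_bad (B3.parT _ b) e2 (by omega) fun j hj a ha => Finset.mem_range.2 (h4 j hj a ha)

end Vale.Agent.Q258E
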