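import Vale.Agent.Q258E.Rows
import Vale.Agent.Q258D.C
import Vale.Agent.Q258D.D4

/-!
# Row U3: the derived subgroups are transitive on the giant orbit
-/

set_option linter.all false

namespace Vale.Agent.Q258E

open Vale.Agent.P258.Braid Vale.Agent.N258B Vale.Agent.Q258D Vale.Agent.Q258D.RA
open Vale.Agent.Q258D.RC
open scoped commutatorElement

namespace U3

variable {H H' : Type} [Group H] [Group H'] {b : Fin 8 → H} {b' : Fin 8 → H'}

/-! ### Classes of rows -/

theorem clr_nil : clr b [] = 1 := map_one (mkM b)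

theorem clr_cons (s : St 8 H) (l : List (St 8 H)) :
    clr b (s :: l) = gn b (s.lab, s.tr) * clr b l := by
  unfold clr cls gn
  rw [List.map_cons, FreeMonoid.ofList_cons, map_mul]

theorem clr_append (l l' : List (St 8 H)) : clr b (l ++ l') = clr b l * clr b l' := by
  unfold clr cls
  rw [List.map_append, FreeMonoid.ofList_append, map_mul]

theorem clr_cross (e : Bool) : ∀ (i : ℕ) (l : List (St 8 H)), Based b l →
    clr b (cross i e l) = clr b l
  | 0, [], _ => rfl
  | 0, [_], _ => rfl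
  | 0, s :: t :: l, h => by
    have hs : s.col = s.tr⁻¹ * b s.lab * s.tr := congrArg St.col (h s (by simp))
    have ht : t.col = t.tr⁻¹ * b t.lab * t.tr := congrArg St.col (h t (by simp))
    simp only [cross, clr_cons, ← mul_assoc]
    congr 1
    cases e
    · simp only [half]
      rw [gn_rel]
      congr 2
      simp only [lx, px, ht]
      group
    · simp only [half]
      rw [gn_rel (s.lab, s.tr)]
      congr 2
      simp only [lx, px, hs]
      group
  | _ + 1, [], _ => rfl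
  | i + 1, s :: l, h => by
    simp only [cross, clr_cons]
    rw [clr_cross e i l fun y hy => h y (by simp [hy])]

theorem clr_bact {N : ℕ} (β : BraidGroup N) {l : List (St 8 H)} (h : Based b l) :
    clr b (bact H N β l) = clr b l :=
  (bact_ind β l (fun l' => Based b l' ∧ clr b l' = clr b l) ⟨h, rfl⟩ fun i e l' h' =>
    ⟨cross_based e i l' h'.1, (clr_cross e i l' h'.1).trans h'.2⟩).2

theorem exists_bact {N : ℕ} {l l' : List (St 8 H)} (h : Based b l) (h' : Based b l')
    (hl : l.length = N) (e : clr b l = clr b l') : ∃ g : BraidGroup N, bact H N g l = l' := by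
  obtain ⟨w, hw⟩ := br_of_eq e
  rw [FreeMonoid.toList_ofList, FreeMonoid.toList_ofList, based_eq h, based_eq h',
    run_eq_bact, hl] at hw
  exact ⟨_, hw⟩

theorem cnt_clr (l : List (St 8 H)) (c : Fin 8) : cnt (clr b l) c = (labs l).count c := by
  unfold clr cls
  rw [cnt_mk]
  simp [labs, Function.comp_def]

theorem pm_clr {l : List (St 8 H)} (h : Based b l) : RA.pm b (clr b l) = pr l := by
  unfold clr cls
  rw [pm_mk, based_eq h]

theorem gen_clr {l : List (St 8 H)} (h : Based b l) (hg : Gen l) : GenM (clr b l) :=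
  gen_mk (by rwa [based_eq h])

/-- the map of monoids given by a homomorphism -/
def mapM (f : H →* H') (hf : ∀ c, f (b c) = b' c) : M b →* M b' :=
  liftM (fun x => gn b' (x.1, f x.2)) fun s t => by
    rw [gn_rel]
    congr 2
    simp only [lx, px, ← hf, map_mul, map_inv]

theorem mapM_gn (f : H →* H') (hf : ∀ c, f (b c) = b' c) (x : X H) :
    mapM f hf (gn b x) = gn b' (x.1, f x.2) := liftM_gn _ _ _

theorem mapM_clr (f : H →* H') (hf : ∀ c, f (b c) = b' c) (l : List (St 8 H)) :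
    mapM f hf (clr b l) = clr b' (l.map (St.map f)) := by
  induction l with
  | nil => exact map_one _
  | cons s l ih => rw [clr_cons, map_mul, ih, mapM_gn, List.map_cons, clr_cons]; rfl

theorem mapM_caps (f : H →* H') (hf : ∀ c, f (b c) = b' c) {a : M b} (h : a ∈ Caps' b) :
    mapM f hf a ∈ Caps' b' := by
  induction h using Submonoid.closure_induction with
  | mem x hx =>
    obtain ⟨j, h, rfl⟩ := hx
    exact Submonoid.subset_closure ⟨j, f h, by rw [RA.cap, map_mul, mapM_gn, mapM_gn]; rfl⟩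
  | one => rw [map_one]; exact one_mem _
  | mul x y _ _ hx hy => rw [map_mul]; exact mul_mem hx hy

theorem in_mapM (f : H →* H') (hf : ∀ c, f (b c) = b' c) (K : Subgroup H') (a : M b)
    (h : In K (mapM f hf a)) : In (K.comap f) a := by
  induction a using M_ind with
  | h1 => exact in_one _
  | h s a ih =>
    rw [map_mul, mapM_gn] at h
    refine in_mul.2 ⟨in_gn.2 ?_, ih (in_mul.1 h).2⟩
    have := in_gn.1 (in_mul.1 h).1
    simpa only [px, Subgroup.mem_comap, ← hf, map_mul, map_inv] using this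

theorem inC_map (f : H →* H') (hf : ∀ c, f (b c) = b' c) (hs : Function.Surjective f)
    {cl : List (Fin 8)} {l : List (St 8 H)} (h : InC b cl l) : InC b' cl (l.map (St.map f)) := by
  refine ⟨⟨fun s hs => ?_, (labs_map f l).trans h.1.2⟩, ?_, ?_⟩
  · obtain ⟨t, ht, rfl⟩ := List.mem_map.1 hs
    rw [h.1.1 t ht]
    simp [St.map, mk, hf]
  · rw [← mapM_clr f hf]
    exact mapM_caps f hf h.2.1
  · rw [← mapM_clr f hf]
    intro K hK
    have := h.2.2 _ (in_mapM f hf K _ hK)
    rw [eq_top_iff]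
    intro y _
    obtain ⟨x, rfl⟩ := hs y
    have hx : x ∈ K.comap f := by rw [this]; trivial
    exact hx

theorem inC_bact {N : ℕ} {cl : List (Fin 8)} {l l0 : List (St 8 H)} (h : InC b cl l)
    (g : BraidGroup N) (h0 : labs l0 = cl) (h1 : labs (bact H N g l0) = cl) :
    InC b cl (bact H N g l) :=
  ⟨⟨h.1.1.bact g, (labs_bact_congr g (h.1.2.trans h0.symm)).trans h1⟩, by
    rw [clr_bact g h.1.1]; exact h.2⟩

theorem len_cs {k : ℕ} {l : List (St 8 H)} (h : labs l = cs k) : l.length = 8 * k := by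
  rw [← labs_length, h]; simp [cs]

/-! ### Partners -/

variable (b) in
/-- generating products of caps with `k` bands of every colour are equal -/
def One (k : ℕ) : Prop :=
  ∀ a a' : M b, Cp a → Cp a' → (∀ c, cnt a c = k) → (∀ c, cnt a' c = k) → a = a'

theorem One.ex {k : ℕ} (h : One b k) {l l' : List (St 8 H)} (h1 : Based b l)
    (h2 : ∀ c, (labs l).count c = k) (h3 : Cp (clr b l)) (h' : InC b (cs k) l') :
    ∃ g : BraidGroup (8 * k), bact H (8 * k) g l = l' :=
  exists_bact h1 h'.1.1 (by rw [← labs_length]; exact length_of_count h2)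
    (h _ _ h3 h'.2 (fun c => by rw [cnt_clr, h2]) fun c => by rw [cnt_clr, h'.1.2, count_cs])

theorem One.ex' {k : ℕ} (h : One b k) {l l' : List (St 8 H)} (h1 : InC b (cs k) l)
    (h' : InC b (cs k) l') : ∃ g : BraidGroup (8 * k), bact H (8 * k) g l = l' :=
  h.ex h1.1.1 (fun c => by rw [h1.1.2, count_cs]) h1.2 h'

variable (b) in
/-- partners -/
def Par (k : ℕ) (l l' : List (St 8 H)) : Prop :=
  InC b (cs k) l ∧ InC b (cs k) l' ∧ InC (dbl b) (cs k) (zip2 l l')

theorem abs_common {A : Type} [Finite A] (R : A → A → Prop)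
    (hom : ∀ y y', ∃ φ : A → A, Function.Injective φ ∧ ∀ x, R x y → R (φ x) y')
    (big : Nat.card A ^ 2 < 2 * Nat.card {z : A × A // R z.1 z.2}) (y y' : A) :
    ∃ x, R x y ∧ R x y' := by
  classical
  haveI := Fintype.ofFinite A
  by_contra hcon
  let d : A → ℕ := fun y => (Finset.univ.filter fun x => R x y).card
  have h1 : ∀ y y', d y ≤ d y' := fun y y' => by
    obtain ⟨φ, hφ, h⟩ := hom y y'
    exact Finset.card_le_card_of_injOn φ (fun x hx => by
      simp only [Finset.coe_filter, Finset.mem_univ, true_and, Set.mem_setOf_eq] at hx ⊢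
      exact h x hx) hφ.injOn
  have h2 : d y + d y' ≤ Fintype.card A := by
    rw [← Finset.card_union_of_disjoint (Finset.disjoint_filter.2 fun x _ a a' => hcon ⟨x, a, a'⟩)]
    exact Finset.card_le_univ _
  have h3 : Nat.card {z : A × A // R z.1 z.2} = ∑ y, d y := by
    rw [Nat.card_eq_fintype_card, Fintype.card_subtype, Finset.card_filter, Fintype.sum_prod_type,
      Finset.sum_comm]
    exact Finset.sum_congr rfl fun y _ => (Finset.card_filter _ _).symm
  have h4 : ∑ z, 2 * d z ≤ ∑ _z : A, Fintype.card A := Finset.sum_le_sum fun z _ => by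
    have := h1 z y
    have := h1 z y'
    omega
  rw [← Finset.mul_sum, ← h3, Finset.sum_const, Finset.card_univ, smul_eq_mul] at h4
  rw [Nat.card_eq_fintype_card (α := A), pow_two] at big
  omega

variable (b) in
/-- the size of the giant orbit -/
def Sz (k : ℕ) : Prop :=
  (1 - 1 / 10) * (Nat.card H : ℝ) ^ (8 * k) ≤ Nat.card H * Nat.card {l // InC b (cs k) l} ∧
    (Nat.card H * Nat.card {l // InC b (cs k) l} : ℝ) ≤ (1 + 1 / 10) * (Nat.card H : ℝ) ^ (8 * k)

variable (b) in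
/-- two rows have a common partner -/
def Com (k : ℕ) : Prop :=
  ∀ l l', InC b (cs k) l → InC b (cs k) l' → ∃ x, Par b k x l ∧ Par b k x l'

theorem partner [Finite H] {k : ℕ} (h1 : One b k) (hs : Sz b k) (hs2 : Sz (dbl b) k) :
    Com b k := by
  intro l l' hl hl'
  have hpos : (0 : ℝ) < Nat.card H := by exact_mod_cast Nat.card_pos
  have hX : (0 : ℝ) < (Nat.card H : ℝ) ^ (8 * k) := by positivity
  have hO : 0 < Nat.card {l // InC b (cs k) l} := by
    by_contra h0
    have h0' : Nat.card {l // InC b (cs k) l} = 0 := by omega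
    have a1 := hs.1
    rw [h0'] at a1
    simp only [Nat.cast_zero, mul_zero] at a1
    linarith
  haveI : Finite {l // InC b (cs k) l} := Nat.finite_of_card_ne_zero hO.ne'
  have hc : Nat.card {z // InC (dbl b) (cs k) z} ≤ Nat.card {z : {l // InC b (cs k) l} ×
      {l // InC b (cs k) l} // Par b k z.1.1 z.2.1} := by
    refine Nat.card_le_card_of_injective (fun z =>
      have a1 := inC_map (MonoidHom.fst H H) (fun _ => rfl) Prod.fst_surjective z.2
      have a2 := inC_map (MonoidHom.snd H H) (fun _ => rfl) Prod.snd_surjective z.2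
      ⟨(⟨_, a1⟩, ⟨_, a2⟩), a1, a2, by rw [zip2_eta]; exact z.2⟩) fun z z' e => Subtype.ext ?_
    have e1 := congrArg (fun w => w.1.1.1) e
    have e2 := congrArg (fun w => w.1.2.1) e
    simp only at e1 e2
    rw [← zip2_eta z.1, e1, e2, zip2_eta]
  obtain ⟨x, a, a'⟩ := abs_common (A := {l // InC b (cs k) l}) (fun x y => Par b k x.1 y.1)
    (fun y y' => by
      obtain ⟨g, hg⟩ := h1.ex' y.2 y'.2
      have q : labs (bact H (8 * k) g y.1) = cs k := by rw [hg]; exact y'.2.1.2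
      refine ⟨fun x => ⟨_, inC_bact x.2 g y.2.1.2 q⟩, fun x x' e =>
        Subtype.ext ((bact H (8 * k) g).injective (congrArg Subtype.val e)), fun x hx =>
          ⟨inC_bact x.2 g y.2.1.2 q, y'.2, ?_⟩⟩
      have e : labs x.1 = labs y.1 := x.2.1.2.trans y.2.1.2.symm
      have := inC_bact hx.2.2 g hx.2.2.1.2
        ((labs_bact_congr g (hx.2.2.1.2.trans y.2.1.2.symm)).trans q)
      rwa [bact_zip2 g e, hg] at this)
    (by
      have a1 := hs.2
      have a2 := hs2.1
      rw [Nat.card_prod, Nat.cast_mul, mul_pow] at a2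
      have a3 : (Nat.card {z // InC (dbl b) (cs k) z} : ℝ) ≤ Nat.card {z : {l // InC b (cs k) l} ×
        {l // InC b (cs k) l} // Par b k z.1.1 z.2.1} := by exact_mod_cast hc
      generalize Nat.card {z // InC (dbl b) (cs k) z} = u at *
      generalize Nat.card {z : {l // InC b (cs k) l} ×
        {l // InC b (cs k) l} // Par b k z.1.1 z.2.1} = v at *
      generalize Nat.card {l // InC b (cs k) l} = w at *
      generalize (Nat.card H : ℝ) ^ (8 * k) = Y at *
      generalize (Nat.card H : ℝ) = h at *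
      have a4 : (h * w) ^ 2 ≤ ((1 + 1 / 10) * Y) ^ 2 := pow_le_pow_left₀ (by positivity) a1 2
      have a5 : h * h * u ≤ h * h * v := mul_le_mul_of_nonneg_left a3 (by positivity)
      have a6 : h * h * (w : ℝ) ^ 2 < h * h * (2 * v) := by nlinarith [mul_pos hX hX]
      exact_mod_cast lt_of_mul_lt_mul_left a6 (by positivity)) ⟨l, hl⟩ ⟨l', hl'⟩
  exact ⟨x.1, a, a'⟩

/-! ### Primitivity -/

variable (b) in
/-- transitivity on the giant orbit -/
def TrC (k : ℕ) (Γ : Subgroup (BraidGroup (8 * k))) : Prop :=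
  ∀ l l', InC b (cs k) l → InC b (cs k) l' → ∃ g ∈ Γ, bact H (8 * k) g l = l'

theorem prim {k : ℕ} (h1 : One (dbl b) k) (h2 : Com b k) (Γ : Subgroup (BraidGroup (8 * k)))
    [hN : Γ.Normal] (hΓ : Γ ≤ Tw (8 * k) 1) {n : BraidGroup (8 * k)} (hn : n ∈ Γ)
    {x : List (St 8 H)} (hx : Based b x) (hc : ∀ c, (labs x).count c = k)
    (hg : Cp (clr (dbl b) (zip2 x (bact H (8 * k) n x)))) : TrC b k Γ := by
  have e : labs x = labs (bact H (8 * k) n x) := (labs_pure (hΓ hn) x).symm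
  have key : ∀ l l', Par b k l l' → ∃ g ∈ Γ, bact H (8 * k) g l = l' := by
    rintro l l' ⟨hl, hl', hz⟩
    obtain ⟨g, hg⟩ := h1.ex (based_zip2 e hx (hx.bact n)) (by rw [labs_zip2 e]; exact hc) hg hz
    rw [bact_zip2 g e] at hg
    obtain ⟨e1, e2⟩ := zip2_inj (labs_bact_congr g e) (hl.1.2.trans hl'.1.2.symm) hg
    refine ⟨g * n * g⁻¹, hN.conj_mem n hn g, ?_⟩
    rw [← e1, ← e2, ← Equiv.Perm.mul_apply, ← map_mul, ← Equiv.Perm.mul_apply, ← map_mul]
    congr 2
    group
  intro l l' hl hl'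
  obtain ⟨y, g1, g2⟩ := h2 l l' hl hl'
  obtain ⟨a, ha, ea⟩ := key y l g1
  obtain ⟨a', ha', ea'⟩ := key y l' g2
  refine ⟨a' * a⁻¹, Γ.mul_mem ha' (Γ.inv_mem ha), ?_⟩
  rw [← ea, ← ea', ← Equiv.Perm.mul_apply, ← map_mul]
  congr 2
  group

theorem succ {k M j : ℕ} (h1 : One (dbl b) k) (h2 : Com b k) (h3 : TrC b k (Der (8 * k) M j))
    (h4 : TrC (dbl b) k (Der (8 * k) M j)) : TrC b k (Der (8 * k) M (j + 1)) := by
  intro l0 l1 hl0 hl1
  obtain ⟨l, g1, -⟩ := h2 l0 l0 hl0 hl0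
  have hl := g1.1
  obtain ⟨x, g2, g3⟩ := h2 l l0 hl hl0
  have hx := g2.1
  obtain ⟨d, hd, ed⟩ := h3 x l hx hl
  obtain ⟨g, hg, eg⟩ := h4 _ _ g2.2.2 g3.2.2
  have e1 : labs x = labs l := hx.1.2.trans hl.1.2.symm
  rw [bact_zip2 g e1] at eg
  obtain ⟨e2, e3⟩ := zip2_inj (labs_bact_congr g e1) (hx.1.2.trans hl0.1.2.symm) eg
  have e4 : bact H (8 * k) g⁻¹ x = x := by
    rw [map_inv, Equiv.Perm.inv_eq_iff_eq, e2]
  have e5 : bact H (8 * k) d⁻¹ l = x := by
    rw [map_inv, Equiv.Perm.inv_eq_iff_eq, ed]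
  have e6 : bact H (8 * k) ⁅g, d⁆ l = l0 := by
    rw [commutatorElement_def, map_mul, map_mul, map_mul, Equiv.Perm.mul_apply,
      Equiv.Perm.mul_apply, Equiv.Perm.mul_apply, e5, e4, ed, e3]
  exact prim h1 h2 (Der (8 * k) M (j + 1)) (der_le _ M _)
    (Subgroup.commutator_mem_commutator hg hd) hl.1.1 (by rw [hl.1.2]; exact count_cs k)
    (by rw [e6]; exact g1.2.2.2) l0 l1 hl0 hl1

/-! ### Powers of `SL(2, p)` -/

theorem pw_prod {p m m' : ℕ} (h : Pw p m H) (h' : Pw p m' H') : Pw p (m + m') (H × H') := by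
  obtain ⟨e⟩ := h
  obtain ⟨e'⟩ := h'
  refine ⟨(e.prodCongr e').trans { Fin.appendEquiv m m' with map_mul' := fun x y => ?_ }⟩
  funext i
  induction i using Fin.addCases <;> simp

theorem pw_fin {p m : ℕ} [Fact p.Prime] (h : Pw p m H) : Finite H :=
  h.elim fun e => Finite.of_equiv _ e.symm.toEquiv

theorem pw_perf {p m : ℕ} (hp : commutator (SLp p) = ⊤) (h : Pw p m H) : commutator H = ⊤ := by
  obtain ⟨e⟩ := h
  have h1 : commutator (Fin m → SLp p) = ⊤ := by
    rw [commutator_def] at hp ⊢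
    rw [← Subgroup.pi_top Set.univ, Subgroup.commutator_pi_pi_of_finite]
    simp only [hp]
  have h2 := Subgroup.map_top_of_surjective e.symm.toMonoidHom e.symm.surjective
  rw [commutator_def, ← h2, ← Subgroup.map_commutator, ← commutator_def, h1]

theorem ngen_dbl (hH : commutator H = ⊤) (hn : NGen b) : NGen (dbl b) := by
  set N := Subgroup.normalClosure (Set.range (dbl b)) with hN
  have hd : ∀ g, (g, g) ∈ N := fun g => by
    have : Subgroup.normalClosure (Set.range b) ≤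
        N.comap ((MonoidHom.id H).prod (MonoidHom.id H)) :=
      Subgroup.normalClosure_le_normal (by
        rintro _ ⟨c, rfl⟩
        exact Subgroup.subset_normalClosure ⟨c, rfl⟩)
    exact this (by rw [show Subgroup.normalClosure (Set.range b) = ⊤ from hn]; trivial)
  have h1 : commutator H ≤ N.comap (MonoidHom.inr H H) := by
    rw [commutator_def, Subgroup.commutator_le]
    intro g _ y _
    have := N.mul_mem ((inferInstance : N.Normal).conj_mem _ (hd y) (1, g)) (N.inv_mem (hd y))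
    simpa [commutatorElement_def] using this
  unfold NGen
  rw [← hN, eq_top_iff]
  rintro ⟨g, g'⟩ -
  have := N.mul_mem (hd g) (h1 (show g⁻¹ * g' ∈ _ by rw [hH]; trivial))
  simpa using this

theorem norm_top {G : Type} [Group G] {m : ℕ} (hp : commutator G = ⊤)
    (hq : ∀ K : Subgroup G, K.Normal → K = ⊤ ∨ K ≤ Subgroup.center G) (e : H ≃* (Fin m → G))
    (N : Subgroup H) [hN : N.Normal] (h : ∀ ν, ∃ u ∈ N, e u ν ∉ Subgroup.center G) : N = ⊤ := by
  have key : ∀ ν y, e.symm (Pi.mulSingle ν y) ∈ N := fun ν => by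
    obtain ⟨u, hu, hc⟩ := h ν
    let ι : G →* H := e.symm.toMonoidHom.comp (MonoidHom.mulSingle (fun _ : Fin m => G) ν)
    have h1 : ∀ y, ⁅e u ν, y⁆ ∈ N.comap ι := fun y => by
      have := N.mul_mem hu (hN.conj_mem _ (N.inv_mem hu) (ι y))
      refine (congrArg (· ∈ N) ?_).mp this
      apply e.injective
      funext μ
      simp only [ι, map_mul, map_inv, MonoidHom.comp_apply, MulEquiv.toMonoidHom_eq_coe,
        MonoidHom.coe_coe, MulEquiv.apply_symm_apply, MonoidHom.mulSingle_apply, Pi.mul_apply,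
        Pi.inv_apply, commutatorElement_def]
      by_cases hμ : μ = ν
      · subst hμ
        simp only [Pi.mulSingle_eq_same, mul_assoc]
      · simp [Pi.mulSingle_eq_of_ne hμ]
    rcases hq (N.comap ι) inferInstance with h2 | h2
    · intro y
      have : y ∈ N.comap ι := by rw [h2]; trivial
      exact this
    · exfalso
      let q := QuotientGroup.mk' (Subgroup.center G)
      have h3 : ∀ y, y ∈ (Subgroup.center _).comap q ↔ ∀ z, ⁅y, z⁆ ∈ Subgroup.center G :=
        fun y => by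
          rw [Subgroup.mem_comap, Subgroup.mem_center_iff]
          have : ∀ z, ⁅y, z⁆ ∈ Subgroup.center G ↔ q z * q y = q y * q z := fun z => by
            rw [← QuotientGroup.eq_one_iff]
            change q _ = 1 ↔ _
            rw [map_commutatorElement, commutatorElement_eq_one_iff_mul_comm, eq_comm]
          exact ⟨fun a z => (this z).2 (a _), fun a z => by
            obtain ⟨z, rfl⟩ := QuotientGroup.mk'_surjective _ z
            exact (this z).1 (a z)⟩
      rcases hq ((Subgroup.center _).comap q) inferInstance with h4 | h4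
      · have : commutator G ≤ Subgroup.center G := by
          rw [commutator_def, Subgroup.commutator_le]
          exact fun y _ z _ => (h3 y).1 (by rw [h4]; trivial) z
        exact hc (this (by rw [hp]; trivial))
      · exact hc (h4 ((h3 _).2 fun z => h2 (h1 z)))
  rw [eq_top_iff]
  intro x _
  have := Subgroup.pi_mem_of_mulSingle_mem (H := N.comap e.symm.toMonoidHom) (e x)
    fun ν => key ν _
  simpa using this

/-- the element by which a label is moved by a twist -/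
def mov (M : ℕ) (b : Fin 8 → H) (t : Fin 8 × H × H) : H :=
  (t.2.1⁻¹ * b t.1 * t.2.1)⁻¹ * ((t.2.2⁻¹ * b t.1 * t.2.2 * (t.2.1⁻¹ * b t.1 * t.2.1)) ^ M *
    (t.2.1⁻¹ * b t.1 * t.2.1) * ((t.2.2⁻¹ * b t.1 * t.2.2 * (t.2.1⁻¹ * b t.1 * t.2.1)) ^ M)⁻¹)

theorem exists_mov {G : Type} [Group G] {M : ℕ} (hM : Mov G M) (hz : Subgroup.center G ≠ ⊤)
    (hn : NGen b) (π : H →* G) (hπ : Function.Surjective π) :
    ∃ t, π (mov M b t) ∉ Subgroup.center G := by
  by_contra hcon
  push Not at hcon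
  apply hz
  rw [eq_top_iff, ← hM (π '' Set.range b) (by
    rw [← Subgroup.map_normalClosure _ _ hπ, show Subgroup.normalClosure (Set.range b) = ⊤ from hn,
      Subgroup.map_top_of_surjective _ hπ])]
  refine Subgroup.normalClosure_le_normal ?_
  rintro _ ⟨_, ⟨_, ⟨c, rfl⟩, rfl⟩, a, a', ha, ha', rfl⟩
  obtain ⟨y, rfl⟩ := isConj_iff.1 ha
  obtain ⟨y', rfl⟩ := isConj_iff.1 ha'
  obtain ⟨h, rfl⟩ := hπ y
  obtain ⟨h', rfl⟩ := hπ y'
  have := hcon (c, h⁻¹, h'⁻¹)
  simpa only [mov, map_mul, map_inv, map_pow, inv_inv, SetLike.mem_coe] using this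

/-! ### The twists -/

theorem gen_tw {M : ℕ} (hb : OddB b) (r : List (St 8 H)) (L : List (Fin 8 × H × H))
    (hL : Subgroup.closure {g | ∃ t ∈ L, g = t.2.1⁻¹ * b t.1 * t.2.1} = ⊤)
    (hN : ∀ N : Subgroup H, N.Normal → (∀ t ∈ L, mov M b t ∈ N) → N = ⊤) :
    Gen (zip2 (L.flatMap (quad b) ++ r) (L.flatMap (quad' M b) ++ r)) := by
  set K := span (zip2 (L.flatMap (quad b) ++ r) (L.flatMap (quad' M b) ++ r)) with hK
  have h1 : ∀ t ∈ L, ((t.2.1⁻¹ * b t.1 * t.2.1)⁻¹, (t.2.1⁻¹ * b t.1 * t.2.1)⁻¹) ∈ K :=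
    fun t ht => mem_span (mem_zip_all M b r t L ht
      ⟨bar t.1, ((t.2.1⁻¹ * b t.1 * t.2.1)⁻¹, (t.2.1⁻¹ * b t.1 * t.2.1)⁻¹), (t.2.1, t.2.1)⟩ (by
        simp [zip2, quad, quad', mk, hb t.1, mul_assoc]))
  have hd : ∀ g, (g, g) ∈ K := by
    intro g
    have : ⊤ ≤ K.comap ((MonoidHom.id H).prod (MonoidHom.id H)) := by
      rw [← hL, Subgroup.closure_le]
      rintro _ ⟨t, ht, rfl⟩
      have := K.inv_mem (h1 t ht)
      simpa using this
    exact this (Subgroup.mem_top g)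
  have h3 := hN (K.comap (MonoidHom.inr H H)) ⟨fun a ha g => by
    have := K.mul_mem (K.mul_mem (hd g) ha) (K.inv_mem (hd g))
    simpa using this⟩ fun t ht => by
      have h2 := mem_span (mem_zip_all M b r t L ht _ List.mem_cons_self)
      have e := (step_col (mk b t.1 t.2.1, mk b t.1 t.2.2) M).1
      have := K.mul_mem (h1 t ht)
        ((congrArg (fun z => (t.2.1⁻¹ * b t.1 * t.2.1, z) ∈ K) e).mp h2)
      rw [Prod.mk_mul_mk, inv_mul_cancel] at this
      exact this
  unfold Gen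
  rw [← hK, eq_top_iff]
  rintro ⟨g, g'⟩ -
  have := K.mul_mem (hd g) (show g⁻¹ * g' ∈ K.comap (MonoidHom.inr H H) by rw [h3]; trivial)
  simpa using this

theorem zip2_append {l l₁ : List (St 8 H)} {l' l₁' : List (St 8 H')} (h : l.length = l'.length) :
    zip2 (l ++ l₁) (l' ++ l₁') = zip2 l l' ++ zip2 l₁ l₁' := List.zipWith_append h

theorem zip2_pad : ∀ n, zip2 (pad b n) (pad b n) = pad (dbl b) n
  | 0 => rfl
  | n + 1 => by rw [pad, zip2_append rfl, zip2_pad n]; rfl

theorem pad_caps : ∀ n, clr b (pad b n) ∈ Caps' b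
  | 0 => by rw [pad, clr_nil]; exact one_mem _
  | n + 1 => by
    rw [pad, clr_append]
    refine mul_mem ?_ (pad_caps n)
    have h : ∀ j, RA.cap b j 1 ∈ Caps' b := fun j => Submonoid.subset_closure ⟨j, 1, rfl⟩
    have := mul_mem (h 0) (mul_mem (h 1) (mul_mem (h 2) (h 3)))
    rw [show List.finRange 8 = [0, 1, 2, 3, 4, 5, 6, 7] from rfl]
    simp only [List.map_cons, List.map_nil, clr_cons, clr_nil, mul_one]
    simp only [RA.cap, mul_assoc] at this
    exact this

variable (b) in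
/-- absorption of a bounded core -/
def Abs (L k0 : ℕ) : Prop :=
  ∀ a K : M b, RA.pm b a = 1 → (∀ j, cnt a (ev j) = cnt a (od j)) → (∀ c, cnt a c ≤ L) →
    K ∈ Caps' b → (∀ c, k0 ≤ cnt K c) → GenM (a * K) → Cp (a * K)

theorem base {k M L k0 : ℕ} (hb : OddB b) (h1 : One (dbl b) k) (h2 : Com b k)
    (h3 : Abs (dbl b) L k0) (hk : L + k0 ≤ k) (P : List (H × H)) (hP : 4 * P.length ≤ L)
    (hL : Subgroup.closure {g | ∃ t ∈ trip P, g = t.2.1⁻¹ * b t.1 * t.2.1} = ⊤)
    (hN : ∀ N : Subgroup H, N.Normal → (∀ t ∈ trip P, mov M b t ∈ N) → N = ⊤) :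
    TrC b k (Tw (8 * k) M) := by
  obtain ⟨m, hm⟩ := Nat.exists_eq_add_of_le (show 4 * P.length ≤ k by omega)
  obtain ⟨p1, p2, p3, p4⟩ := pad_spec hb m
  obtain ⟨n, hn, e⟩ := twist_all (N := 8 * k) M b (pad b m) (trip P) [] (by
    rw [List.nil_append, List.length_append, (count_trip b 0 P).2, p4, hm]
    ring)
  rw [List.nil_append, List.nil_append] at e
  have hx : Based b ((trip P).flatMap (quad b) ++ pad b m) := fun s hs =>
    (List.mem_append.1 hs).elim (based_quad b _ s) (p1 s)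
  have el := (labs_pure (tw_le _ M hn) ((trip P).flatMap (quad b) ++ pad b m)).symm
  have hz := based_zip2 el hx (hx.bact n)
  have hp := pr_zip2 el
  have hg := gen_clr hz (by rw [e]; exact gen_tw hb _ _ hL hN)
  refine prim h1 h2 _ (tw_le _ M) hn hx (fun c => ?_) ?_
  · rw [labs_append, List.count_append, (count_trip b c P).1, p3, hm]
  rw [pr_bact, pr_append, pr_quad hb, p2, mul_one, ← pm_clr hz] at hp
  rw [e, labs_append, labs_append, List.append_cancel_right_eq] at el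
  rw [e, zip2_append (len_of_labs el), zip2_pad, clr_append] at hp hg ⊢
  have hc : ∀ c, cnt (clr (dbl b) (zip2 ((trip P).flatMap (quad b))
      ((trip P).flatMap (quad' M b)))) c = 4 * P.length := fun c => by
    rw [cnt_clr, labs_zip2 el, (count_trip b c P).1]
  refine h3 _ _ ?_ (fun j => by rw [hc, hc]) (fun c => by rw [hc]; exact hP) (pad_caps m)
    (fun c => ?_) hg
  · rw [map_mul, pm_caps (oddB_dbl hb) (pad_caps m), mul_one] at hp
    exact hp
  · rw [cnt_clr, (pad_spec (oddB_dbl hb) m).2.2.1]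
    omega

theorem mem_trip {P : List (H × H)} {t : Fin 8 × H × H} (h : t.2 ∈ P) : t ∈ trip P :=
  List.mem_flatMap.2 ⟨t.2, h, List.mem_map.2 ⟨t.1, List.mem_finRange _, rfl⟩⟩

theorem exists_P {p m M R : ℕ} [Fact p.Prime] (hp : 5 ≤ p) (h4 : p % 4 = 1) (hM : ¬ p ∣ M)
    (hH : Pw p m H) (hn : NGen b)
    (hE : ∀ S : Set H, Subgroup.closure S = ⊤ →
      ∃ T : Finset H, (T : Set H) ⊆ S ∧ T.card ≤ R ∧ Subgroup.closure (T : Set H) = ⊤) :
    ∃ P : List (H × H), P.length ≤ R + m ∧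
      Subgroup.closure {g | ∃ t ∈ trip P, g = t.2.1⁻¹ * b t.1 * t.2.1} = ⊤ ∧
      ∀ N : Subgroup H, N.Normal → (∀ t ∈ trip P, mov M b t ∈ N) → N = ⊤ := by
  obtain ⟨e⟩ := hH
  obtain ⟨-, d2, -, d4, d5, -⟩ := rowD1 p hp
  obtain ⟨T, hT, hc, hg⟩ := hE _ hn
  have h1 : ∀ g : T, ∃ t : Fin 8 × H, g.1 = t.2⁻¹ * b t.1 * t.2 := fun g => by
    obtain ⟨_, ⟨c, rfl⟩, hc⟩ := Group.mem_conjugatesOfSet_iff.1 (hT g.2)
    obtain ⟨h, hh⟩ := isConj_iff.1 hc
    exact ⟨(c, h⁻¹), by rw [← hh, inv_inv]⟩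
  choose f hf using h1
  have hz : Subgroup.center (SLp p) ≠ ⊤ := fun h => by
    have h2 := (d2 (upM 1)).1 (by rw [h]; trivial)
    have h3 : (upM (1 : ZMod p)).1 0 1 = 0 := by
      rcases h2 with h2 | h2 <;> rw [h2] <;> simp
    simp [upM] at h3
  have h2 := fun ν : Fin m => exists_mov ((rowD4 rowD1 (rowD3 rowD1)).1 p hp h4 M hM) hz hn
    ((Pi.evalMonoidHom _ ν).comp e.toMonoidHom)
    ((Function.surjective_eval ν).comp e.surjective)
  choose u hu using h2
  refine ⟨T.attach.toList.map (fun g => ((f g).2, (f g).2)) ++ List.ofFn fun ν => (u ν).2,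
    by simpa using hc, ?_, fun N hN h => norm_top d5 d4 e N fun ν =>
      ⟨_, h _ (mem_trip (List.mem_append_right _ (List.mem_ofFn.2 ⟨ν, rfl⟩))), hu ν⟩⟩
  rw [eq_top_iff, ← hg]
  refine Subgroup.closure_mono fun g hg => ⟨((f ⟨g, hg⟩).1, (f ⟨g, hg⟩).2, (f ⟨g, hg⟩).2),
    mem_trip (List.mem_append_left _ (List.mem_map.2 ⟨⟨g, hg⟩, by simp, rfl⟩)), hf ⟨g, hg⟩⟩

/-! ### All large primes -/

theorem common (hU1 : RowU1) (hU2 : RowU2) (m : ℕ) : ∃ k0, ∀ k ≥ k0, ∃ p0, ∀ p : ℕ, p.Prime →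
    p0 ≤ p → ∀ (H : Type) [Group H], Pw p m H → ∀ b : Fin 8 → H, OddB b → NGen b →
      5 ≤ p ∧ NGen (dbl b) ∧ One (dbl b) k ∧ Com b k := by
  obtain ⟨k1, p1, h1⟩ := hU1.1 m
  obtain ⟨k2, p2, h2⟩ := hU1.1 (m + m)
  obtain ⟨k3, h3⟩ := hU2 m
  obtain ⟨k4, h4⟩ := hU2 (m + m)
  refine ⟨k1 + k2 + k3 + k4, fun k hk => ?_⟩
  obtain ⟨p3, h3⟩ := h3 k (by omega) (1 / 10) (by norm_num)
  obtain ⟨p4, h4⟩ := h4 k (by omega) (1 / 10) (by norm_num)
  refine ⟨5 + p1 + p2 + p3 + p4, fun p hp h0 H _ hH b hb hn => ?_⟩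
  haveI := Fact.mk hp
  haveI := pw_fin hH
  have hn2 := ngen_dbl (pw_perf (rowD1 p (by omega)).2.2.2.2.1 hH) hn
  have a3 := h3 p hp (by omega) H hH b hb hn
  have a4 := h4 p hp (by omega) _ (pw_prod hH hH) _ (oddB_dbl hb) hn2
  exact ⟨by omega, hn2, fun a a' x x' c c' => h2 p hp (by omega) _ (pw_prod hH hH) _ (oddB_dbl hb)
    hn2 a a' x x' (fun i => (c i).trans (c' i).symm) fun i => by rw [c]; omega,
    partner (fun a a' x x' c c' => h1 p hp (by omega) H hH b hb hn a a' x x'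
      (fun i => (c i).trans (c' i).symm) fun i => by rw [c]; omega) ⟨a3.1, a3.2.1⟩
      ⟨a4.1, a4.2.1⟩⟩

end U3

open U3 in
theorem rowU3 (hE : RowEH) (hU1 : RowU1) (hU2 : RowU2) : RowU3 := by
  intro j
  induction j with
  | zero =>
    intro m
    obtain ⟨k1, h1⟩ := common hU1 hU2 m
    obtain ⟨R, ⟨p2, h2⟩, -⟩ := hE m
    obtain ⟨k3, p3, h3⟩ := hU1.2 (m + m) (4 * (R + m))
    refine ⟨k1 + (4 * (R + m) + k3), fun k hk => ?_⟩
    obtain ⟨p1, h1⟩ := h1 k (by omega)
    refine ⟨p1 + p2 + p3, fun p hp h0 h4 M hM H _ hH b hb hn => ?_⟩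
    haveI := Fact.mk hp
    obtain ⟨a0, a1, a2, a3⟩ := h1 p hp (by omega) H hH b hb hn
    obtain ⟨P, q1, q2, q3⟩ := exists_P a0 h4 hM hH hn (h2 p hp (by omega) H hH b hb hn)
    exact base hb a2 a3 (h3 p hp (by omega) _ (pw_prod hH hH) _ (oddB_dbl hb) a1) (by omega) P
      (by omega) q2 q3
  | succ j ih =>
    intro m
    obtain ⟨k1, h1⟩ := common hU1 hU2 m
    obtain ⟨k2, h2⟩ := ih m
    obtain ⟨k3, h3⟩ := ih (m + m)
    refine ⟨k1 + k2 + k3, fun k hk => ?_⟩
    obtain ⟨p1, h1⟩ := h1 k (by omega)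
    obtain ⟨p2, h2⟩ := h2 k (by omega)
    obtain ⟨p3, h3⟩ := h3 k (by omega)
    refine ⟨p1 + p2 + p3, fun p hp h0 h4 M hM H _ hH b hb hn => ?_⟩
    obtain ⟨a0, a1, a2, a3⟩ := h1 p hp (by omega) H hH b hb hn
    exact succ a2 a3 (h2 p hp (by omega) h4 M hM H hH b hb hn)
      (h3 p hp (by omega) h4 M hM _ (pw_prod hH hH) _ (oddB_dbl hb) a1)

end Vale.Agent.Q258E
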