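import Vale.Agent.Q258E.Rows
import Mathlib.Algebra.Order.Chebyshev
import Mathlib.Data.Set.Finite.List

/-!
# Rows W0 and W1: the pure braids have finite index, many words lie in the commutator subgroup
-/

namespace Vale.Agent.Q258E

open Vale.Agent.P258.Braid Vale.Agent.N258B Vale.Agent.Q258D

namespace W0

variable {G : Type} [Group G]

/-- the products `s n * s (n - 1) * ...` with `k` factors -/
def dn (s : ℕ → G) (n : ℕ) : ℕ → G
  | 0 => 1
  | k + 1 => dn s n k * s (n - k)

theorem dn_comm {s : ℕ → G} (hc : ∀ i j, i + 2 ≤ j → s i * s j = s j * s i) (n j : ℕ) :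
    ∀ k, j + k + 1 ≤ n → dn s n k * s j = s j * dn s n k
  | 0, _ => by simp [dn]
  | k + 1, h => by
    rw [dn, mul_assoc, ← hc j (n - k) (by omega), ← mul_assoc, dn_comm hc n j k (by omega),
      mul_assoc]

theorem dn_shift {s : ℕ → G} (hc : ∀ i j, i + 2 ≤ j → s i * s j = s j * s i) (n j : ℕ)
    (hb : s j * s (j + 1) * s j = s (j + 1) * s j * s (j + 1)) (hj : j + 1 ≤ n) :
    ∀ k, k ≤ n + 1 → n + 1 ≤ j + k → dn s n k * s (j + 1) = s j * dn s n k
  | 0, _, h => by omega
  | k + 1, h1, h2 => by
    by_cases h : n + 1 ≤ j + k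
    · rw [dn, mul_assoc, hc (n - k) (j + 1) (by omega), ← mul_assoc,
        dn_shift hc n j hb hj k (by omega) h, mul_assoc]
    · obtain ⟨k, rfl⟩ : ∃ k', k = k' + 1 := ⟨k - 1, by omega⟩
      have e1 : n - (k + 1) = j := by omega
      have e2 : n - k = j + 1 := by omega
      rw [dn, dn, e1, e2]
      calc dn s n k * s (j + 1) * s j * s (j + 1)
          = dn s n k * (s (j + 1) * s j * s (j + 1)) := by simp only [mul_assoc]
        _ = dn s n k * s j * (s (j + 1) * s j) := by rw [← hb]; simp only [mul_assoc]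
        _ = s j * (dn s n k * s (j + 1) * s j) := by
          rw [dn_comm hc n j k (by omega)]; simp only [mul_assoc]

/-- involutions with the relations of the braid group generate a finite group -/
theorem fin_closure {s : ℕ → G} (h2 : ∀ i, s i * s i = 1)
    (hc : ∀ i j, i + 2 ≤ j → s i * s j = s j * s i) :
    ∀ n, (∀ j, j + 1 < n → s j * s (j + 1) * s j = s (j + 1) * s j * s (j + 1)) →
      (Subgroup.closure (s '' {i | i < n}) : Set G).Finite
  | 0, _ => by simp
  | n + 1, hb => by
    have ih := fin_closure h2 hc n fun j hj => hb j (by omega)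
    set W := Subgroup.closure (s '' {i | i < n}) with hW
    have hm : ∀ j, j < n → s j ∈ W := fun j hj => Subgroup.subset_closure ⟨j, hj, rfl⟩
    have step : ∀ (w : G) (k j : ℕ), w ∈ W → k ≤ n + 1 → j < n + 1 →
        ∃ w' ∈ W, ∃ k' ≤ n + 1, w * dn s n k * s j = w' * dn s n k' := by
      intro w k j hw hk hj
      rcases lt_trichotomy (j + k) n with h | h | h
      · exact ⟨w * s j, W.mul_mem hw (hm j (by omega)), k, hk, by
          rw [mul_assoc, dn_comm hc n j k h, mul_assoc]⟩
      · exact ⟨w, hw, k + 1, by omega, by rw [dn, show n - k = j by omega, mul_assoc]⟩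
      · by_cases h' : j + k = n + 1
        · obtain ⟨k, rfl⟩ : ∃ k', k = k' + 1 := ⟨k - 1, by omega⟩
          exact ⟨w, hw, k, by omega, by
            rw [dn, show n - k = j by omega, mul_assoc, mul_assoc, h2, mul_one]⟩
        · obtain ⟨j, rfl⟩ : ∃ j', j = j' + 1 := ⟨j - 1, by omega⟩
          exact ⟨w * s j, W.mul_mem hw (hm j (by omega)), k, hk, by
            rw [mul_assoc, dn_shift hc n j (hb j hj) (by omega) k hk (by omega), mul_assoc]⟩
    refine ((ih.prod (Set.finite_le_nat (n + 1))).image fun x => x.1 * dn s n x.2).subset ?_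
    intro g hg
    have key : ∃ w ∈ W, ∃ k ≤ n + 1, g = w * dn s n k := by
      induction hg using Subgroup.closure_induction_right with
      | one => exact ⟨1, W.one_mem, 0, by omega, by simp [dn]⟩
      | mul_right x _ y hy ih =>
        obtain ⟨w, hw, k, hk, rfl⟩ := ih
        obtain ⟨j, hj, rfl⟩ := hy
        exact step w k j hw hk hj
      | mul_inv_cancel x _ y hy ih =>
        obtain ⟨w, hw, k, hk, rfl⟩ := ih
        obtain ⟨j, hj, rfl⟩ := hy
        rw [inv_eq_of_mul_eq_one_right (h2 j)]
        exact step w k j hw hk hj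
    obtain ⟨w, hw, k, hk, rfl⟩ := key
    exact ⟨(w, k), ⟨hw, hk⟩, rfl⟩

theorem letter_of {N : ℕ} (i : Fin (N - 1)) :
    letter N (i.val, true) = PresentedGroup.of i := by
  simp [letter, i.2]

theorem letter_comm (N i j : ℕ) (h : i + 2 ≤ j) :
    letter N (i, true) * letter N (j, true) = letter N (j, true) * letter N (i, true) := by
  by_cases hj : j < N - 1
  · have hi : i < N - 1 := by omega
    have := PresentedGroup.one_of_mem (rels := braidRels N)
      (Or.inr ⟨⟨i, hi⟩, ⟨j, hj⟩, h, rfl⟩)
    rw [map_mul, map_inv, mul_inv_eq_one, map_mul, map_mul] at this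
    rw [letter_of ⟨i, hi⟩, letter_of ⟨j, hj⟩]
    exact this
  · have : letter N (j, true) = 1 := by simp [letter, hj]
    rw [this, mul_one, one_mul]

theorem letter_braid (N i : ℕ) (h : i + 1 < N - 1) :
    letter N (i, true) * letter N (i + 1, true) * letter N (i, true) =
      letter N (i + 1, true) * letter N (i, true) * letter N (i + 1, true) := by
  have hi : i < N - 1 := by omega
  have := PresentedGroup.one_of_mem (rels := braidRels N)
    (Or.inl ⟨⟨i, hi⟩, ⟨i + 1, h⟩, rfl, rfl⟩)
  rw [map_mul, map_inv, mul_inv_eq_one, map_mul, map_mul, map_mul, map_mul] at this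
  rw [letter_of ⟨i, hi⟩, letter_of ⟨i + 1, h⟩]
  exact this

end W0

open W0 in
theorem rowW0 : RowW0 := by
  intro N
  let f := QuotientGroup.mk' (Tw N 1)
  have hf := fin_closure (s := fun i => f (letter N (i, true)))
    (fun i => by
      rw [← map_mul]
      exact (QuotientGroup.eq_one_iff _).2 (Subgroup.subset_normalClosure ⟨i, by simp [pow_two]⟩))
    (fun i j h => by simp only [← map_mul, letter_comm N i j h]) (N - 1)
    (fun j h => by simp only [← map_mul, letter_braid N j h])
  have htop : Subgroup.closure ((fun i => f (letter N (i, true))) '' {i | i < N - 1}) = ⊤ := by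
    have h1 : (fun i => f (letter N (i, true))) '' {i | i < N - 1} =
        f '' Set.range (PresentedGroup.of : _ → BraidGroup N) := by
      ext g
      constructor
      · rintro ⟨i, hi, rfl⟩
        exact ⟨_, ⟨⟨i, hi⟩, rfl⟩, by rw [← letter_of ⟨i, hi⟩]⟩
      · rintro ⟨_, ⟨i, rfl⟩, rfl⟩
        exact ⟨i.val, i.2, by simp only [letter_of]⟩
    rw [h1, ← MonoidHom.map_closure, PresentedGroup.closure_range_of]
    exact Subgroup.map_top_of_surjective _ (QuotientGroup.mk'_surjective _)
  rw [htop, Subgroup.coe_top] at hf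
  have := Set.finite_univ_iff.1 hf
  exact Subgroup.finiteIndex_of_finite_quotient

namespace W1

variable {G : Type} [Group G] (P : Subgroup G)

/-- the part of an element in the subgroup -/
noncomputable def pt (g : G) : P :=
  ⟨((g : G ⧸ P).out)⁻¹ * g, QuotientGroup.eq.1 (QuotientGroup.out_eq' _)⟩

/-- the cocycle -/
noncomputable def sch (x : G) (q : G ⧸ P) : P := pt P (x * q.out)

theorem pt_mul (x g : G) : pt P (x * g) = sch P x g * pt P g := by
  have h : ((x * (g : G ⧸ P).out : G) : G ⧸ P) = (x * g : G) := by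
    rw [QuotientGroup.eq, mul_inv_rev, mul_assoc, inv_mul_cancel_left]
    exact (pt P g).2
  refine Subtype.ext ?_
  simp only [sch, pt, h, Subgroup.coe_mul, mul_assoc, mul_inv_cancel_left]

theorem exists_mult {L : Type} [Fintype L] [Fintype (G ⧸ P)] (x : L → G) : ∀ w : List L,
    ∃ m : L × (G ⧸ P) → ℕ, (∀ t, m t ≤ w.length) ∧
      Abelianization.of (pt P (w.map x).prod) =
        (∏ t, Abelianization.of (sch P (x t.1) t.2) ^ m t) * Abelianization.of (pt P 1)
  | [] => ⟨fun _ => 0, fun _ => le_rfl, by simp⟩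
  | a :: w => by
    classical
    obtain ⟨m, h1, h2⟩ := exists_mult x w
    refine ⟨fun t => m t + if t = (a, (((w.map x).prod : G) : G ⧸ P)) then 1 else 0,
      fun t => ?_, ?_⟩
    · have := h1 t
      simp only [List.length_cons]
      split_ifs <;> omega
    · rw [List.map_cons, List.prod_cons, pt_mul, map_mul, h2, ← mul_assoc]
      congr 1
      simp only [pow_add, Finset.prod_mul_distrib, pow_ite, pow_one, pow_zero,
        Finset.prod_ite_eq', Finset.mem_univ, if_true]
      exact mul_comm _ _

theorem mem_comm {g h : G} (h1 : (g : G ⧸ P) = h)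
    (h2 : Abelianization.of (pt P g) = Abelianization.of (pt P h)) : g⁻¹ * h ∈ ⁅P, P⁆ := by
  have h3 : (pt P g)⁻¹ * pt P h ∈ commutator P := by
    rw [← Abelianization.ker_of, MonoidHom.mem_ker, map_mul, map_inv, h2, inv_mul_cancel]
  have h4 : g⁻¹ * h = (((pt P g)⁻¹ * pt P h : P) : G) := by
    simp only [pt, h1, Subgroup.coe_mul, Subgroup.coe_inv, mul_inv_rev, inv_inv, mul_assoc,
      mul_inv_cancel_left]
  rw [h4, ← Subgroup.map_subtype_commutator]
  exact Subgroup.mem_map_of_mem _ h3

theorem card_sq_le {W K : Type} [Fintype W] [Fintype K] (F : W → K) :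
    Fintype.card W ^ 2 ≤ Fintype.card K * Nat.card {z : W × W // F z.1 = F z.2} := by
  classical
  have h1 : Fintype.card W = ∑ k, (Finset.univ.filter fun w => F w = k).card :=
    Finset.card_eq_sum_card_fiberwise (f := F) fun _ _ => Finset.mem_univ _
  have h2 : Nat.card {z : W × W // F z.1 = F z.2} =
      ∑ k, (Finset.univ.filter fun w => F w = k).card ^ 2 := by
    rw [Nat.card_eq_fintype_card, Fintype.card_subtype,
      Finset.card_eq_sum_card_fiberwise (f := fun z : W × W => F z.1) (t := Finset.univ)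
        fun _ _ => Finset.mem_univ _]
    refine Finset.sum_congr rfl fun k _ => ?_
    rw [pow_two, ← Finset.card_product]
    congr 1
    ext z
    simp only [Finset.mem_filter, Finset.mem_univ, true_and, Finset.mem_product]
    exact ⟨fun h => ⟨h.2, h.1 ▸ h.2⟩, fun h => ⟨h.1.trans h.2.symm, h.1⟩⟩
  rw [h1, h2]
  exact sq_sum_le_card_mul_sum_sq

/-- letters in range -/
def emb {N : ℕ} (a : Fin (N - 1) × Bool) : ℕ × Bool := (a.1.val, a.2)

theorem emb_inj {N : ℕ} : Function.Injective (emb (N := N)) := fun a b h => by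
  simp only [emb, Prod.mk.injEq] at h
  exact Prod.ext (Fin.ext h.1) h.2

theorem fin_words (N n : ℕ) (Q : Word → Prop) :
    Finite {w : Word // w.length = n ∧ (∀ x ∈ w, x.1 + 1 < N) ∧ Q w} := by
  refine Set.Finite.to_subtype
    (((List.finite_length_eq (Fin (N - 1) × Bool) n).image (List.map emb)).subset ?_)
  rintro w ⟨h1, h2, -⟩
  refine ⟨w.attach.map fun x => (⟨x.1.1, by have := h2 x.1 x.2; omega⟩, x.1.2), by simpa using h1,
    ?_⟩
  rw [List.map_map]
  exact List.attach_map_subtype_val w

end W1

open W1 in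
theorem rowW1 (h : RowW0) : RowW1 := by
  classical
  intro N
  have := h N
  have : Fintype (BraidGroup N ⧸ Tw N 1) := Fintype.ofFinite _
  refine ⟨Fintype.card (BraidGroup N ⧸ Tw N 1),
    Fintype.card ((Fin (N - 1) × Bool) × (BraidGroup N ⧸ Tw N 1)), fun n => ?_⟩
  choose m hm1 hm2 using exists_mult (Tw N 1) fun a : Fin (N - 1) × Bool => letter N (emb a)
  have hb : ∀ w : List (Fin (N - 1) × Bool),
      (w.map fun a => letter N (emb a)).prod = toBraid N (w.map emb) := fun w => by
    simp [toBraid, Function.comp_def]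
  let F : (Fin n → Fin (N - 1) × Bool) → (BraidGroup N ⧸ Tw N 1) ×
      ((Fin (N - 1) × Bool) × (BraidGroup N ⧸ Tw N 1) → Fin (n + 1)) := fun u =>
    (toBraid N ((List.ofFn u).map emb), fun t => ⟨m (List.ofFn u) t, by
      have := hm1 (List.ofFn u) t
      rw [List.length_ofFn] at this
      omega⟩)
  have h1 := card_sq_le F
  have hr : ∀ w : List (Fin (N - 1) × Bool), ∀ x ∈ w.map emb, x.1 + 1 < N := fun w x hx => by
    obtain ⟨a, -, rfl⟩ := List.mem_map.1 hx
    have := a.1.2
    simp only [emb]
    omega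
  have hl : ∀ u : Fin n → Fin (N - 1) × Bool, (inverse ((List.ofFn u).map emb)).length = n :=
    fun u => by simp [inverse]
  have := fin_words N (2 * n) fun w => toBraid N w ∈ Der N 1 1
  have h2 : Nat.card {z : (Fin n → Fin (N - 1) × Bool) × (Fin n → Fin (N - 1) × Bool) //
      F z.1 = F z.2} ≤ wds N (2 * n) fun w => toBraid N w ∈ Der N 1 1 := by
    refine Nat.card_le_card_of_injective (fun z =>
      ⟨inverse ((List.ofFn z.1.1).map emb) ++ (List.ofFn z.1.2).map emb, ?_, ?_, ?_⟩) ?_
    · rw [List.length_append, hl, List.length_map, List.length_ofFn, two_mul]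
    · intro x hx
      rcases List.mem_append.1 hx with hx | hx
      · simp only [inverse, List.mem_reverse] at hx
        obtain ⟨y, hy, rfl⟩ := List.mem_map.1 hx
        exact hr _ y hy
      · exact hr _ x hx
    · simp only [toBraid_append, toBraid_inverse]
      refine mem_comm (Tw N 1) (congrArg Prod.fst z.2) ?_
      have e : m (List.ofFn z.1.1) = m (List.ofFn z.1.2) :=
        funext fun t => congrArg Fin.val (congrFun (congrArg Prod.snd z.2) t)
      rw [← hb, ← hb, hm2, hm2, e]
    · intro z z' e
      have e1 := List.append_inj (congrArg Subtype.val e) ((hl _).trans (hl _).symm)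
      have e2 := congrArg inverse e1.1
      rw [inverse_inverse, inverse_inverse] at e2
      exact Subtype.ext (Prod.ext
        (List.ofFn_injective (List.map_injective_iff.2 emb_inj e2))
        (List.ofFn_injective (List.map_injective_iff.2 emb_inj e1.2)))
  simp only [Fintype.card_pi, Fintype.card_prod, Fintype.card_fin, Fintype.card_bool,
    Finset.prod_const, Finset.card_univ] at h1 ⊢
  rw [← pow_mul, mul_comm n 2] at h1
  rw [mul_comm 2 (N - 1)]
  exact h1.trans (Nat.mul_le_mul_left _ h2)

end Vale.Agent.Q258E
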