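import Vale.Agent.Q258E.Rows
import Mathlib.Algebra.Order.Ring.Pow

/-!
# Row W2: from cosets to words
-/

set_option linter.all false

namespace Vale.Agent.Q258E

open Vale.Agent.P258.Braid Vale.Agent.N258B Vale.Agent.Q258D Finset

namespace W2

section Words

variable {α : Type} (T : Finset α)

/-- the words of length `n` with letters in `T` -/
def Wn : ℕ → Finset (List α)
  | 0 => {[]}
  | n + 1 => (T ×ˢ Wn n).map ⟨fun p => p.1 :: p.2, fun p q h => by
      simpa [Prod.ext_iff] using h⟩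

theorem mem_Wn {n : ℕ} {w : List α} : w ∈ Wn T n ↔ w.length = n ∧ ∀ x ∈ w, x ∈ T := by
  induction n generalizing w with
  | zero =>
    simp only [Wn, mem_singleton, List.length_eq_zero_iff]
    exact ⟨fun h => by simp [h], fun h => h.1⟩
  | succ n ih =>
    cases w with
    | nil => simp [Wn]
    | cons x w =>
      simp only [Wn, mem_map, mem_product, Function.Embedding.coeFn_mk, List.cons.injEq,
        Prod.exists, List.length_cons, Nat.add_right_cancel_iff, List.mem_cons, forall_eq_or_imp]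
      constructor
      · rintro ⟨a, b, ⟨h1, h2⟩, e⟩
        obtain ⟨rfl, rfl⟩ := List.cons.inj e
        exact ⟨(ih.1 h2).1, h1, (ih.1 h2).2⟩
      · rintro ⟨h1, h2, h3⟩
        exact ⟨x, w, ⟨h2, ih.2 ⟨h1, h3⟩⟩, rfl⟩

theorem card_Wn (n : ℕ) : (Wn T n).card = T.card ^ n := by
  induction n with
  | zero => simp [Wn]
  | succ n ih => rw [Wn, card_map, card_product, ih, pow_succ']

theorem sum_Wn_add (f : List α → ℝ) (m n : ℕ) :
    ∑ w ∈ Wn T (m + n), f w = ∑ u ∈ Wn T m, ∑ w ∈ Wn T n, f (u ++ w) := by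
  induction m generalizing f with
  | zero => simp [Wn]
  | succ m ih =>
    rw [Nat.add_right_comm, Wn, Wn, sum_map, sum_map, sum_product, sum_product]
    exact sum_congr rfl fun x _ => ih fun w => f (x :: w)

/-- a signed count along words decays if some words of length `L` cancel -/
theorem decay {G F : Type} [Group G] [Fintype F] [Nonempty F] (t : List α → G)
    (ht : ∀ u v, t (u ++ v) = t u * t v) (hT : 2 ≤ T.card) {L : ℕ} (hL : 0 < L) (u : F → List α)
    (hu : Function.Injective u) (hm : ∀ f, u f ∈ Wn T L) :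
    ∃ C θ : ℝ, 0 ≤ θ ∧ θ < 1 ∧ ∀ φ : G → ℝ, (∀ β, |φ β| ≤ 1) →
      (∀ β γ, ∑ f, φ (β * t (u f) * γ) = 0) →
      ∀ n β, |∑ w ∈ Wn T n, φ (β * t w)| ≤ C * (θ * T.card) ^ n := by
  classical
  set q : ℝ := (T.card : ℝ) with hq
  have q2 : (2 : ℝ) ≤ q := by rw [hq]; exact_mod_cast hT
  have q0 : 0 < q := by linarith
  have L1 : (1 : ℝ) ≤ L := by exact_mod_cast hL
  have qL : 2 ≤ q ^ L := q2.trans (le_self_pow₀ (by linarith) hL.ne')
  set a : ℝ := 1 / (L * q ^ L) with ha
  have hd : 2 ≤ L * q ^ L := by nlinarith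
  have a0 : 0 < a := by positivity
  have a1 : a ≤ 1 / 2 := one_div_le_one_div_of_le (by norm_num) hd
  have θ0 : 0 < 1 - a := by linarith
  have key : q ^ L - 1 ≤ ((1 - a) * q) ^ L := by
    have h1 := one_add_mul_le_pow (a := -a) (by linarith) L
    have h2 : (1 + L * -a) * q ^ L = q ^ L - 1 := by
      rw [ha]
      field_simp
      ring
    rw [mul_pow, ← h2, sub_eq_add_neg]
    exact mul_le_mul_of_nonneg_right h1 (by positivity)
  refine ⟨((1 - a) ^ L)⁻¹, 1 - a, θ0.le, by linarith, fun φ h1 h0 n => ?_⟩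
  induction n using Nat.strong_induction_on with
  | _ n ih =>
    intro β
    by_cases hn : n < L
    · refine (abs_sum_le_sum_abs _ _).trans ((sum_le_card_nsmul _ _ 1 fun w _ => h1 _).trans ?_)
      rw [card_Wn, nsmul_eq_mul, mul_one, Nat.cast_pow, mul_pow, ← mul_assoc]
      refine le_mul_of_one_le_left (by positivity) ?_
      rw [← div_eq_inv_mul, one_le_div (by positivity)]
      exact pow_le_pow_of_le_one θ0.le (by linarith) hn.le
    · obtain ⟨m, rfl⟩ := Nat.exists_eq_add_of_le (not_lt.1 hn)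
      have hs : univ.image u ⊆ Wn T L := image_subset_iff.2 fun f _ => hm f
      rw [sum_Wn_add, ← sum_sdiff hs, sum_image fun x _ y _ h => hu h, sum_comm (s := univ)]
      have e : ∑ w ∈ Wn T m, ∑ f, φ (β * t (u f ++ w)) = 0 :=
        sum_eq_zero fun w _ => by simpa only [ht, mul_assoc] using h0 β (t w)
      rw [e, add_zero]
      refine (abs_sum_le_sum_abs _ _).trans ((sum_le_card_nsmul _ _
        (((1 - a) ^ L)⁻¹ * ((1 - a) * q) ^ m) fun v _ => ?_).trans ?_)
      · simpa only [ht, mul_assoc] using ih m (by omega) (β * t v)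
      · have c : (((Wn T L \ univ.image u).card : ℕ) : ℝ) ≤ q ^ L - 1 := by
          have h2 := card_sdiff_add_card_eq_card hs
          have h3 : 0 < (univ.image u).card := card_pos.2 (univ_nonempty.image u)
          rw [card_Wn] at h2
          have h4 : (Wn T L \ univ.image u).card + 1 ≤ T.card ^ L := by omega
          have h5 : (((Wn T L \ univ.image u).card : ℕ) : ℝ) + 1 ≤ q ^ L := by
            rw [hq]; exact_mod_cast h4
          linarith
        rw [nsmul_eq_mul, pow_add, mul_left_comm]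
        exact mul_le_mul_of_nonneg_left
          (mul_le_mul_of_nonneg_right (c.trans key) (by positivity)) (by positivity)

end Words

variable {N : ℕ}

/-- the letters in range -/
def Lt (N : ℕ) : Finset (ℕ × Bool) := range (N - 1) ×ˢ univ

theorem mem_Lt {x : ℕ × Bool} : x ∈ Lt N ↔ x.1 + 1 < N := by
  simp only [Lt, mem_product, mem_range, mem_univ, and_true]
  omega

theorem card_Lt : (Lt N).card = 2 * (N - 1) := by simp [Lt, mul_comm]

theorem wds_eq (n : ℕ) (P : Word → Prop) [DecidablePred P] :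
    (wds N n P : ℝ) = ∑ w ∈ Wn (Lt N) n, if P w then 1 else 0 := by
  rw [sum_boole, wds, ← Nat.card_eq_finsetCard]
  congr 1
  refine Nat.card_congr (Equiv.subtypeEquivRight fun w => ?_)
  simp only [mem_filter, mem_Wn, mem_Lt, and_assoc]

/-- the parity of the length -/
def sg (N : ℕ) : BraidGroup N →* ℤˣ :=
  PresentedGroup.toGroup (f := fun _ => -1) (by
    rintro r (⟨i, j, -, rfl⟩ | ⟨i, j, -, rfl⟩) <;> simp)

theorem sg_letter {x : ℕ × Bool} (h : x.1 + 1 < N) : sg N (letter N x) = -1 := by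
  unfold letter
  rw [dif_pos (by omega)]
  split_ifs
  · exact PresentedGroup.toGroup.of _
  · rw [map_inv]
    exact (congrArg _ (PresentedGroup.toGroup.of _)).trans (by simp)

theorem sg_toBraid {w : Word} (h : ∀ x ∈ w, x.1 + 1 < N) :
    sg N (toBraid N w) = (-1) ^ w.length := by
  induction w with
  | nil => exact map_one _
  | cons x w ih =>
    have e : toBraid N (x :: w) = letter N x * toBraid N w := by simp [toBraid]
    rw [e, map_mul, sg_letter (h x (by simp)), ih fun y hy => h y (by simp [hy]),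
      List.length_cons, pow_succ']

theorem even_length {w : Word} (h : ∀ x ∈ w, x.1 + 1 < N) (hw : toBraid N w ∈ Tw N 1) :
    Even w.length := by
  have hk : Tw N 1 ≤ (sg N).ker := by
    refine Subgroup.normalClosure_le_normal ?_
    rintro _ ⟨i, rfl⟩
    change sg N (_ ^ _) = 1
    rw [map_pow, Nat.mul_one]
    exact Int.units_pow_two _
  have := (sg_toBraid h).symm.trans (hk hw)
  rwa [neg_one_pow_eq_one_iff_even (by decide)] at this

theorem exists_pad (hN : 2 ≤ N) (k : ℕ) :
    ∃ v : Word, v.length = k + k ∧ (∀ x ∈ v, x.1 + 1 < N) ∧ toBraid N v = 1 := by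
  induction k with
  | zero => exact ⟨[], rfl, by simp, rfl⟩
  | succ k ih =>
    obtain ⟨v, h1, h2, h3⟩ := ih
    refine ⟨[(0, true), (0, false)] ++ v, by simp [h1]; omega, fun x hx => ?_, ?_⟩
    · rcases List.mem_append.1 hx with hx | hx
      · have : x.1 = 0 := by
          simp only [List.mem_cons, List.not_mem_nil, or_false] at hx
          rcases hx with rfl | rfl <;> rfl
        omega
      · exact h2 x hx
    · have := letter_not N (0, true)
      rw [toBraid_append, h3, mul_one]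
      simp only [toBraid, List.map_cons, List.map_nil, List.prod_cons, List.prod_nil, mul_one]
      exact mul_eq_one_iff_eq_inv'.2 this

variable (S D : Subgroup (BraidGroup N)) [S.Normal]

/-- words of one length for all classes of `D` modulo `S` -/
theorem exists_words (hN : 2 ≤ N) [S.FiniteIndex] (hD : D ≤ Tw N 1) :
    ∃ (L : ℕ) (u : D.map (QuotientGroup.mk' S) → Word), 0 < L ∧ ∀ f, u f ∈ Wn (Lt N) L ∧
      toBraid N (u f) ∈ D ∧ (toBraid N (u f) : BraidGroup N ⧸ S) = f.1 := by
  have h : ∀ f : D.map (QuotientGroup.mk' S), ∃ (w : Word) (k : ℕ), w.length = k + k ∧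
      (∀ x ∈ w, x.1 + 1 < N) ∧ toBraid N w ∈ D ∧ (toBraid N w : BraidGroup N ⧸ S) = f.1 := by
    rintro ⟨_, d, hd, rfl⟩
    obtain ⟨w, hw, rfl⟩ := exists_word d
    obtain ⟨k, hk⟩ := even_length hw (hD hd)
    exact ⟨w, k, hk, hw, hd, rfl⟩
  choose w k h1 h2 h3 h4 using h
  obtain ⟨K, hK⟩ := (Set.finite_range k).bddAbove
  choose v g1 g2 g3 using fun f => exists_pad hN (K + 1 - k f)
  refine ⟨2 * (K + 1), fun f => w f ++ v f, by omega, fun f => ⟨(mem_Wn _).2 ⟨?_, fun x hx => ?_⟩,
    ?_, ?_⟩⟩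
  · have := hK ⟨f, rfl⟩
    rw [List.length_append, h1, g1]
    omega
  · exact mem_Lt.2 ((List.mem_append.1 hx).elim (h2 f x) (g2 f x))
  · rw [toBraid_append, g3, mul_one]
    exact h3 f
  · rw [toBraid_append, g3, mul_one]
    exact h4 f

/-- the class `q` contains a word of the coset `β D` with the property `P` -/
def Rl (P : Word → Prop) (β : BraidGroup N) (q : BraidGroup N ⧸ S) : Prop :=
  ∃ w : Word, ((∀ x ∈ w, x.1 + 1 < N) ∧ β⁻¹ * toBraid N w ∈ D) ∧ P w ∧
    (toBraid N w : BraidGroup N ⧸ S) = q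

variable {S D}

theorem rl_mul {P : Word → Prop} {β d : BraidGroup N} (hd : d ∈ D) :
    Rl S D P (β * d) = Rl S D P β := by
  funext q
  simp only [Rl, mul_inv_rev, mul_assoc, D.mul_mem_cancel_left (D.inv_mem hd)]

theorem card_rl [D.Normal] (P : Word → Prop) (δ γ : BraidGroup N) :
    Nat.card {q // Rl S D P δ q} = Nat.card {f : D.map (QuotientGroup.mk' S) //
      Rl S D P δ ((δ : BraidGroup N ⧸ S) * ((γ : BraidGroup N ⧸ S)⁻¹ * f.1 * γ))} := by
  refine (Nat.card_congr (Equiv.ofBijective (fun f => ⟨_, f.2⟩) ⟨fun f g h => ?_, ?_⟩)).symm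
  · have h' := congrArg Subtype.val h
    exact Subtype.ext (Subtype.ext (mul_left_cancel (mul_right_cancel (mul_left_cancel h'))))
  · rintro ⟨_, w, hw, hP, rfl⟩
    have e : (δ : BraidGroup N ⧸ S) * ((γ : BraidGroup N ⧸ S)⁻¹ *
        ((γ * (δ⁻¹ * toBraid N w) * γ⁻¹ : BraidGroup N) : BraidGroup N ⧸ S) * γ) = toBraid N w := by
      simp [mul_assoc]
    exact ⟨⟨⟨_, _, Subgroup.Normal.conj_mem ‹_› _ hw.2 γ, rfl⟩, w, hw, hP, e.symm⟩, Subtype.ext e⟩

end W2

open W2 in
theorem rowW2 : RowW2 := by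
  intro N hN S D _ _ _ hD A Bd ε hε hA hc
  classical
  obtain ⟨L, u, hL, hu⟩ := exists_words S D hN hD
  have := Fintype.ofFinite (D.map (QuotientGroup.mk' S))
  obtain ⟨C, θ, h0, h1, h⟩ := decay (Lt N) (toBraid N) (toBraid_append N)
    (by rw [card_Lt]; omega) hL u
    (fun f g e => Subtype.ext ((hu f).2.2.symm.trans (e ▸ (hu g).2.2))) fun f => (hu f).1
  set c : ℝ := (Nat.card (D.map (QuotientGroup.mk' S)) : ℝ) with hc'
  have c0 : 0 < c := by rw [hc']; exact_mod_cast Nat.card_pos
  let nb (P : Word → Prop) (β : BraidGroup N) : ℝ := (Nat.card {q // Rl S D P β q} : ℝ)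
  have nb0 (P β) : 0 ≤ nb P β := Nat.cast_nonneg _
  have nb1 (P β) : nb P β ≤ c := by
    simp only [nb, hc', card_rl P β 1]
    exact_mod_cast Finite.card_subtype_le _
  let Acl (β : BraidGroup N) : Prop :=
    ∃ w0 : Word, (∀ x ∈ w0, x.1 + 1 < N) ∧ A w0 ∧ (toBraid N w0)⁻¹ * β ∈ D
  let φ (β : BraidGroup N) : ℝ :=
    if Acl β then (if Rl S D Bd β β then 1 else 0) - nb Bd β / c else 0
  have f0 (β) : 0 ≤ nb Bd β / c := div_nonneg (nb0 _ _) c0.le
  have f1 (β) : nb Bd β / c ≤ 1 := (div_le_one c0).2 (nb1 _ _)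
  refine ⟨C, θ, h0, h1, fun n => ?_⟩
  have hb := h φ (fun β => ?_) (fun β γ => ?_) n 1
  · rw [card_Lt, Nat.cast_mul, Nat.cast_ofNat] at hb
    refine le_trans ?_ (add_le_add_right (le_of_abs_le hb) _)
    rw [wds_eq, wds_eq, mul_sum, ← sum_add_distrib]
    refine sum_le_sum fun w hw => ?_
    have hr : ∀ x ∈ w, x.1 + 1 < N := fun x hx => mem_Lt.1 (((mem_Wn _).1 hw).2 x hx)
    rw [one_mul]
    by_cases ha : A w
    · have e1 : Acl (toBraid N w) := ⟨w, hr, ha, by simpa using D.one_mem⟩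
      have e2 : nb Bd (toBraid N w) / c ≤ ε := by
        rw [div_le_iff₀ c0]
        exact (hc w hr ha).trans (mul_le_mul_of_nonneg_left (nb1 (fun _ => True) _) hε)
      simp only [φ, if_pos e1, ha, true_and, if_true]
      by_cases hb : Bd w
      · rw [if_pos hb, if_pos ⟨w, ⟨hr, by simpa using D.one_mem⟩, hb, rfl⟩]
        linarith
      · rw [if_neg hb]
        split_ifs <;> linarith
    · have e1 : ¬ Acl (toBraid N w) := fun ⟨w0, g1, g2, g3⟩ => ha (hA w0 w g1 ⟨hr, g3⟩ g2)
      simp [φ, if_neg e1, ha]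
  · have := f0 β
    have := f1 β
    simp only [φ]
    split_ifs <;> rw [abs_le] <;> constructor <;> linarith
  · have hd (f) : γ⁻¹ * toBraid N (u f) * γ ∈ D := by
      simpa using Subgroup.Normal.conj_mem ‹_› _ (hu f).2.1 γ⁻¹
    have e (f) : β * toBraid N (u f) * γ = β * γ * (γ⁻¹ * toBraid N (u f) * γ) := by group
    have ea (f) : Acl (β * γ * (γ⁻¹ * toBraid N (u f) * γ)) ↔ Acl (β * γ) := by
      simp only [Acl, ← mul_assoc _ (β * γ), D.mul_mem_cancel_right (hd f)]
    simp only [e, φ, ea, nb, rl_mul (hd _)]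
    split_ifs
    · rw [sum_sub_distrib, sum_boole, sum_const, card_univ, nsmul_eq_mul,
        ← Nat.card_eq_fintype_card, ← hc', mul_div_cancel₀ _ c0.ne', card_rl Bd (β * γ) γ,
        Nat.card_eq_fintype_card, Fintype.card_subtype, sub_eq_zero]
      simp only [QuotientGroup.mk_mul, QuotientGroup.mk_inv, (hu _).2.2]
      congr!
    · exact sum_const_zero

end Vale.Agent.Q258E
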