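import Vale.Agent.Q258E.RowsK
import Vale.Agent.Q258E.W1
import Vale.Agent.Q258E.W2

/-!
# Row W3: returns of the simple random walk to the derived subgroups
-/

set_option linter.all false

namespace Vale.Agent.Q258E

open Vale.Agent.P258.Braid Vale.Agent.N258B Vale.Agent.Q258D Finset Matrix

namespace W3

open Classical

variable {G : Type} [Group G]

/-- Finite models of the action on the cosets of `D` with few errors. -/
def Rt (D : Subgroup G) : Prop :=
  ∀ (K : Type) [Fintype K] (s : K → G) (ε : ℝ), 0 < ε → ∃ (I : Type) (_ : Fintype I)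
    (_ : Nonempty I) (g : I → G) (σ : K → Equiv.Perm I), ∀ k,
      ∑ i, (if (g (σ k i))⁻¹ * s k * g i ∈ D then (0 : ℝ) else 1) ≤ ε * Fintype.card I

theorem rt_fin (D : Subgroup G) [D.FiniteIndex] : Rt D := fun K _ s ε hε => by
  have : Fintype (G ⧸ D) := Fintype.ofFinite _
  refine ⟨G ⧸ D, this, inferInstance, Quotient.out, fun k => MulAction.toPerm (s k), fun k => ?_⟩
  refine (sum_eq_zero fun q _ => if_pos ?_).trans_le (by positivity)
  rw [mul_assoc, ← QuotientGroup.eq, QuotientGroup.out_eq']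
  exact (MulAction.Quotient.mk_smul_out D (s k) q).symm

theorem card_fib {T : Type} [Fintype T] [DecidableEq T] (L : ℕ) (t : T) :
    (∑ e : T → Fin (L + 1), if e t = Fin.last L then (1 : ℝ) else 0) * (L + 1) ≤
      Fintype.card (T → Fin (L + 1)) := by
  have h := Fintype.card_le_of_injective
    (fun z : {e : T → Fin (L + 1) // e t = Fin.last L} × Fin (L + 1) =>
      Function.update z.1.1 t z.2) fun z z' h => by
      have h1 : z.2 = z'.2 := by simpa using congrFun h t
      refine Prod.ext (Subtype.ext (funext fun a => ?_)) h1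
      by_cases ha : a = t
      · rw [ha, z.1.2, z'.1.2]
      · simpa [ha] using congrFun h a
  rw [Fintype.card_prod, Fintype.card_subtype, Fintype.card_fin] at h
  rw [sum_boole]
  exact_mod_cast h

theorem rt_comm {D : Subgroup G} (h : Rt D) : Rt ⁅D, D⁆ := fun K _ s ε hε => by
  obtain ⟨I, _, _, g, σ, hσ⟩ := h K s (ε / 2) (by positivity)
  obtain ⟨L, hL⟩ := exists_nat_gt (2 / ε)
  let c : K × I → D := fun t =>
    if h : (g (σ t.1 t.2))⁻¹ * s t.1 * g t.2 ∈ D then ⟨_, h⟩ else 1
  have hs : ∀ e : K × I → Fin (L + 1), ∃ y : D,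
      Abelianization.of y = ∏ t, Abelianization.of (c t) ^ (e t).val := fun e =>
    QuotientGroup.mk_surjective _
  choose y hy using hs
  refine ⟨I × (K × I → Fin (L + 1)), inferInstance, inferInstance, fun z => g z.1 * y z.2,
    fun k => (σ k).prodShear fun i => Equiv.addRight (Pi.single (k, i) 1), fun k => ?_⟩
  have key : ∀ (i : I) (e : K × I → Fin (L + 1)), (g (σ k i))⁻¹ * s k * g i ∈ D →
      e (k, i) ≠ Fin.last L →
      (g (σ k i) * y (e + Pi.single (k, i) 1))⁻¹ * s k * (g i * y e) ∈ ⁅D, D⁆ :=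
    fun i e h1 h2 => by
    have h3 : Abelianization.of (y (e + Pi.single (k, i) 1)) =
        Abelianization.of (c (k, i)) * Abelianization.of (y e) := by
      have h4 : ∀ t, ((e + Pi.single (k, i) 1 : K × I → Fin (L + 1)) t).val =
          (if t = (k, i) then 1 else 0) + (e t).val := fun t => by
        by_cases ht : t = (k, i)
        · subst ht
          rw [Pi.add_apply, Pi.single_eq_same, Fin.val_add_one_of_lt (Fin.lt_last_iff_ne_last.2 h2),
            if_pos rfl, add_comm]
        · simp [ht]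
      simp only [hy, h4, pow_add, prod_mul_distrib, pow_ite, pow_one, pow_zero, prod_ite_eq',
        mem_univ, if_true]
    have h5 : (y (e + Pi.single (k, i) 1))⁻¹ * (c (k, i) * y e) ∈ commutator D := by
      rw [← Abelianization.ker_of, MonoidHom.mem_ker, map_mul, map_inv, h3, map_mul,
        inv_mul_cancel]
    rw [← Subgroup.map_subtype_commutator]
    refine ⟨_, h5, ?_⟩
    simp only [c, dif_pos h1]
    simp [mul_assoc]
  have hL' : (0 : ℝ) < L + 1 := by positivity
  have h6 : ∀ i, (∑ e : K × I → Fin (L + 1), if e (k, i) = Fin.last L then (1 : ℝ) else 0) ≤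
      ε / 2 * Fintype.card (K × I → Fin (L + 1)) := fun i => by
    refine le_of_mul_le_mul_right ((card_fib L (k, i)).trans ?_) hL'
    rw [div_lt_iff₀ hε] at hL
    rw [mul_right_comm]
    exact le_mul_of_one_le_left (by positivity) (by nlinarith)
  calc _ ≤ ∑ i, ∑ e : K × I → Fin (L + 1),
        ((if (g (σ k i))⁻¹ * s k * g i ∈ D then (0 : ℝ) else 1) +
          if e (k, i) = Fin.last L then (1 : ℝ) else 0) := by
        rw [Fintype.sum_prod_type]
        refine sum_le_sum fun i _ => sum_le_sum fun e _ => ?_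
        by_cases h1 : (g (σ k i))⁻¹ * s k * g i ∈ D
        · by_cases h2 : e (k, i) = Fin.last L
          · rw [if_pos h1, if_pos h2]
            split_ifs <;> norm_num
          · rw [if_pos h1, if_neg h2, add_zero]
            exact (if_pos (key i e h1 h2)).le
        · rw [if_neg h1]
          split_ifs <;> norm_num
    _ ≤ _ := by
        simp only [sum_add_distrib, sum_const, nsmul_eq_mul, card_univ, ← mul_sum]
        have h7 := sum_le_sum fun i (_ : i ∈ univ) => h6 i
        have h8 := mul_le_mul_of_nonneg_left (hσ k)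
          (Nat.cast_nonneg (α := ℝ) (Fintype.card (K × I → Fin (L + 1))))
        rw [sum_const, nsmul_eq_mul, card_univ] at h7
        rw [Fintype.card_prod I, Nat.cast_mul]
        linarith

theorem rt_der (N : ℕ) : ∀ j, Rt (Der N 1 j)
  | 0 => have := rowW0 N; rt_fin (Tw N 1)
  | j + 1 => rt_comm (rt_der N j)

variable {I : Type} [Fintype I]

theorem logc (A : Matrix I I ℝ) (hA : Aᵀ = A) (u : I → ℝ) {t : ℝ} (ht : 0 ≤ t)
    (h : t * (u ⬝ᵥ u) ≤ u ⬝ᵥ A *ᵥ u) (n : ℕ) :
    t ^ (2 * n) * (u ⬝ᵥ u) ≤ (A ^ n *ᵥ u) ⬝ᵥ (A ^ n *ᵥ u) := by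
  have nn : ∀ x : I → ℝ, 0 ≤ x ⬝ᵥ x := fun x => sum_nonneg fun i _ => mul_self_nonneg _
  have cs : ∀ x y : I → ℝ, (x ⬝ᵥ y) ^ 2 ≤ (x ⬝ᵥ x) * (y ⬝ᵥ y) := fun x y => by
    simpa only [dotProduct, pow_two] using sum_mul_sq_le_sq_mul_sq univ x y
  have dv : ∀ {x z : ℝ}, 0 ≤ x → 0 ≤ z → t ^ 2 * x ^ 2 ≤ x * z → t ^ 2 * x ≤ z :=
    fun {x z} hx hz h => by
      rcases hx.eq_or_lt with rfl | hx
      · simpa using hz
      · exact le_of_mul_le_mul_left (by nlinarith) hx
  have sc : ∀ n, A ^ (n + 1) *ᵥ u = A *ᵥ (A ^ n *ᵥ u) := fun n => by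
    rw [mulVec_mulVec, pow_succ']
  have st : ∀ n, t ^ 2 * ((A ^ n *ᵥ u) ⬝ᵥ (A ^ n *ᵥ u)) ≤
      (A ^ (n + 1) *ᵥ u) ⬝ᵥ (A ^ (n + 1) *ᵥ u) := fun n => by
    induction n with
    | zero =>
      rw [sc, pow_zero, one_mulVec]
      refine dv (nn _) (nn _) (le_trans ?_ (cs _ _))
      rw [← mul_pow]
      exact pow_le_pow_left₀ (mul_nonneg ht (nn _)) h 2
    | succ n ih =>
      refine dv (nn _) (nn _) ?_
      have h1 := cs (A ^ n *ᵥ u) (A ^ (n + 1 + 1) *ᵥ u)
      rw [sc (n + 1), dotProduct_mulVec, ← mulVec_transpose, hA, ← sc, ← sc] at h1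
      refine (mul_le_mul_of_nonneg_left h1 (sq_nonneg t)).trans ?_
      rw [← mul_assoc]
      exact mul_le_mul_of_nonneg_right ih (nn _)
  induction n with
  | zero => simp
  | succ n ih =>
    refine le_trans ?_ (st n)
    rw [mul_add, pow_add, mul_comm (t ^ (2 * n)), mul_assoc]
    exact mul_le_mul_of_nonneg_left ih (sq_nonneg t)

theorem trace_le (A : Matrix I I ℝ) (hA : Aᵀ = A) (n : ℕ) :
    (A ^ n *ᵥ 1) ⬝ᵥ (A ^ n *ᵥ 1) ≤ Fintype.card I * ∑ i, (A ^ (2 * n)) i i := by
  rw [mul_sum]
  refine sum_le_sum fun i _ => ?_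
  have h1 : ∀ j, (A ^ n) j i = (A ^ n) i j := fun j => by
    rw [← transpose_apply (A ^ n), transpose_pow, hA]
  have h2 := sq_sum_le_card_mul_sum_sq (s := univ) (f := fun j => (A ^ n) i j)
  simpa [two_mul, pow_add, mul_apply, h1, mulVec, dotProduct, pow_two] using h2

end W3

open W3 W2 Classical in
theorem rowW3 : RowW3 := by
  intro N j θ h0 h1
  obtain ⟨I, _, _, g, σ, hσ⟩ := rt_der N j (Fin (N - 1)) (fun k => letter N (k.val, true)) (1 - θ)
    (by linarith)
  set D := Der N 1 j
  have hI : (0 : ℝ) < Fintype.card I := Nat.cast_pos.2 Fintype.card_pos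
  obtain ⟨B, hBd⟩ : ∃ B : Fin (N - 1) → I → I → ℝ, ∀ k a b, B k a b =
      if σ k b = a ∧ (g a)⁻¹ * letter N (k.val, true) * g b ∈ D then 1 else 0 :=
    ⟨_, fun _ _ _ => rfl⟩
  obtain ⟨A, hAd⟩ : ∃ A : Matrix I I ℝ, ∀ a b, A a b = ∑ k, (B k a b + B k b a) :=
    ⟨of fun a b => _, fun _ _ => rfl⟩
  have hA : Aᵀ = A := by
    ext a b
    simp only [transpose_apply, hAd, add_comm]
  have hB : ∀ k, θ * Fintype.card I ≤ ∑ b, ∑ a, B k a b := fun k => by
    have h2 : ∀ b, ∑ a, B k a b =
        1 - if (g (σ k b))⁻¹ * letter N (k.val, true) * g b ∈ D then (0 : ℝ) else 1 := fun b => by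
      rw [sum_eq_single (σ k b) (fun a _ ha => by rw [hBd, if_neg fun h => ha h.1.symm]) (by simp)]
      simp only [hBd, true_and]
      split_ifs <;> norm_num
    have := hσ k
    simp only [h2, sum_sub_distrib, sum_const, card_univ, nsmul_eq_mul, mul_one]
    linarith
  have h3 : θ * (2 * (N - 1 : ℕ)) * ((1 : I → ℝ) ⬝ᵥ 1) ≤ 1 ⬝ᵥ A *ᵥ 1 := by
    have h4 : (1 : I → ℝ) ⬝ᵥ A *ᵥ 1 = ∑ k, 2 * ∑ b, ∑ a, B k a b := by
      simp only [dotProduct, mulVec, Pi.one_apply, mul_one, one_mul, hAd]
      rw [sum_congr rfl fun a _ => sum_comm, sum_comm]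
      refine sum_congr rfl fun k _ => ?_
      simp only [sum_add_distrib, two_mul]
      rw [sum_comm]
    have h5 := sum_le_sum fun k (_ : k ∈ univ) =>
      mul_le_mul_of_nonneg_left (hB k) (zero_le_two (α := ℝ))
    rw [h4]
    refine le_trans (le_of_eq ?_) h5
    simp [dotProduct]
    ring
  have h6 : ∀ m a b, (A ^ m) a b ≤
      ∑ w ∈ Wn (Lt N) m, if (g a)⁻¹ * toBraid N w * g b ∈ D then (1 : ℝ) else 0 := fun m => by
    induction m with
    | zero =>
      intro a b
      by_cases h : a = b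
      · rw [h, Wn, sum_singleton, if_pos (by simp [toBraid]), pow_zero, one_apply_eq]
      · simp only [pow_zero, one_apply_ne h]
        exact sum_nonneg fun _ _ => by positivity
    | succ m ih =>
      intro a b
      have h7 : ∀ (x : ℕ × Bool) (c : I) (p : Prop) [Decidable p],
          (p → (g a)⁻¹ * letter N x * g c ∈ D) →
          (if p then (1 : ℝ) else 0) * (A ^ m) c b ≤ ∑ w ∈ Wn (Lt N) m,
            if (g a)⁻¹ * toBraid N (x :: w) * g b ∈ D then (1 : ℝ) else 0 := fun x c p _ hp => by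
        by_cases h : p
        · rw [if_pos h, one_mul]
          refine (ih c b).trans (sum_le_sum fun w _ => ?_)
          split_ifs with e1 e2
          · rfl
          · exact (e2 (by simpa [toBraid, mul_assoc] using D.mul_mem (hp h) e1)).elim
          · norm_num
          · rfl
        · rw [if_neg h, zero_mul]
          exact sum_nonneg fun _ _ => by positivity
      have h8 : ∀ f : List (ℕ × Bool) → ℝ, ∑ w ∈ Wn (Lt N) (m + 1), f w =
          ∑ k : Fin (N - 1), (∑ w ∈ Wn (Lt N) m, f ((k.val, true) :: w) +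
            ∑ w ∈ Wn (Lt N) m, f ((k.val, false) :: w)) := fun f => by
        rw [Wn, sum_map, sum_product]
        refine (sum_product _ _ _).trans ((sum_range _).trans ?_)
        simp only [Fintype.sum_bool]
        rfl
      rw [pow_succ', mul_apply, h8]
      simp only [hAd, sum_mul, add_mul]
      rw [sum_comm]
      refine sum_le_sum fun k _ => ?_
      rw [sum_add_distrib]
      refine add_le_add ?_ ?_
      · rw [sum_eq_single ((σ k).symm a) (fun c _ hc => by
          rw [hBd, if_neg fun h => hc ((Equiv.eq_symm_apply _).2 h.1), zero_mul]) (by simp), hBd]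
        exact h7 (k, true) _ _ fun h => h.2
      · rw [sum_eq_single (σ k a) (fun c _ hc => by
          rw [hBd, if_neg fun h => hc h.1.symm, zero_mul]) (by simp), hBd]
        refine h7 (k, false) _ _ fun h => ?_
        have := D.inv_mem h.2
        rwa [_root_.mul_inv_rev, _root_.mul_inv_rev, inv_inv, ← mul_assoc, ← letter_not] at this
  refine ⟨(Fintype.card I : ℝ)⁻¹, by positivity, fun n => ?_⟩
  have h8 := (logc A hA 1 (by positivity) h3 n).trans (trace_le A hA n)
  have h9 : ∑ i, (A ^ (2 * n)) i i ≤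
      Fintype.card I * (wds N (2 * n) fun w => toBraid N w ∈ D : ℝ) := by
    rw [wds_eq, ← card_univ, ← nsmul_eq_mul]
    refine sum_le_card_nsmul _ _ _ fun i _ => (h6 _ i i).trans (le_of_eq ?_)
    exact sum_congr rfl fun w _ => if_congr (by
      rw [mul_assoc, Subgroup.Normal.mem_comm_iff inferInstance, mul_inv_cancel_right]) rfl rfl
  rw [inv_mul_le_iff₀ hI]
  refine le_trans (le_of_mul_le_mul_left ?_ hI) h9
  simpa [dotProduct, mul_comm] using h8

end Vale.Agent.Q258E
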