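import Vale.Agent.Q258E.Rows

/-!
# The statement on returns to the derived subgroups
-/

namespace Vale.Agent.Q258E

open Vale.Agent.P258.Braid Vale.Agent.N258B Vale.Agent.Q258D

/-- many words lie in the derived subgroups of the pure braid group (input: `RowW0`) -/
def RowW3 : Prop :=
  ∀ (N j : ℕ) (θ : ℝ), 0 ≤ θ → θ < 1 → ∃ c : ℝ, 0 < c ∧ ∀ n : ℕ,
    c * (θ * (2 * (N - 1 : ℕ))) ^ (2 * n) ≤ wds N (2 * n) fun w => toBraid N w ∈ Der N 1 j

end Vale.Agent.Q258E
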