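import Vale.Agent.Q258E.HF
import Vale.Agent.Q258E.RowsK
import Vale.Agent.Q258E.W2
import Mathlib.Analysis.SpecificLimits.Normed

/-!
# The density among words
-/

set_option linter.all false

namespace Vale.Agent.Q258E

open Vale.Agent.P258.Braid Vale.Agent.N258B Vale.Agent.Q258D Filter Topology

theorem wds_append {N n : ℕ} {w0 : Word} (h0 : ∀ x ∈ w0, x.1 + 1 < N) {P Q : Word → Prop}
    (h : ∀ w, (∀ x ∈ w, x.1 + 1 < N) → P w → Q (w0 ++ w)) :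
    wds N n P ≤ wds N (w0.length + n) Q := by
  haveI := fin_wds N (w0.length + n) Q
  exact Nat.card_le_card_of_injective (fun w => ⟨w0 ++ w.1, by rw [List.length_append, w.2.1],
    fun x hx => (List.mem_append.1 hx).elim (h0 x) (w.2.2.1 x), h _ w.2.2.1 w.2.2.2⟩)
    fun w w' e => Subtype.ext (List.append_cancel_left (congrArg Subtype.val e))

/-- the words with the property `A` whose knot has Alexander polynomial one -/
def AA (k : ℕ) (A : BraidGroup (8 * k) → Prop) (w : Word) : Prop :=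
  toBraid (8 * k) w ∈ Tw (8 * k) 1 ∧ A (toBraid (8 * k) w) ∧ ForSome k w Alex

theorem aa_coset (h1 : RowE1) {k j : ℕ} (hk : 0 < k) {A : BraidGroup (8 * k) → Prop}
    (hA : ∀ β, A β → ∀ γ ∈ Der (8 * k) 1 (j + 1), A (β * γ)) {w0 w : Word}
    (hw0 : ∀ x ∈ w0, x.1 + 1 < 8 * k) (hw : InCoset (Der (8 * k) 1 (j + 1)) w0 w)
    (h0 : AA k A w0) : AA k A w :=
  ⟨by simpa using mul_mem h0.1 (der_le _ _ _ hw.2), by simpa using hA _ h0.2.1 _ hw.2,
    some_of_all (alex_coset h1 hk 1 j (pure_to hw0 h0.1) h0.2.2 hw)⟩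

theorem aa_lower (h1 : RowE1) (hW : RowW3) {k j : ℕ} (hk : 0 < k) {A : BraidGroup (8 * k) → Prop}
    (hA : ∀ β, A β → ∀ γ ∈ Der (8 * k) 1 (j + 1), A (β * γ)) {w0 : Word}
    (hw0 : ∀ x ∈ w0, x.1 + 1 < 8 * k) (h0 : AA k A w0) {θ : ℝ} (t0 : 0 ≤ θ) (t1 : θ < 1) :
    ∃ c : ℝ, 0 < c ∧ ∀ n : ℕ, c * (θ * (2 * (8 * k - 1 : ℕ))) ^ (2 * n) ≤
      wds (8 * k) (w0.length + 2 * n) (AA k A) := by
  obtain ⟨c, hc, h⟩ := hW (8 * k) (j + 1) θ t0 t1
  refine ⟨c, hc, fun n => (h n).trans (Nat.cast_le.2 (wds_append hw0 fun w hw hd => ?_))⟩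
  refine aa_coset h1 hk hA hw0 ⟨fun x hx => (List.mem_append.1 hx).elim (hw0 x) (hw x), ?_⟩ h0
  rwa [toBraid_append, inv_mul_cancel_left]

theorem aa_pos (h1 : RowE1) (hW : RowW3) {k j : ℕ} (hk : 0 < k) {A : BraidGroup (8 * k) → Prop}
    (hA : ∀ β, A β → ∀ γ ∈ Der (8 * k) 1 (j + 1), A (β * γ)) {w0 : Word}
    (hw0 : InCoset (Tw (8 * k) 1) [] w0) (h0 : A (toBraid (8 * k) w0) ∧ ForSome k w0 Alex) (n : ℕ) :
    0 < words (8 * k) (w0.length + 2 * n) fun w => A (toBraid (8 * k) w) ∧ ForSome k w Alex := by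
  obtain ⟨c, hc, h⟩ := aa_lower h1 hW hk hA hw0.1 ⟨pure_of hw0, h0⟩ (θ := 1 / 2) (by norm_num)
    (by norm_num)
  have h2 : (0 : ℝ) < (8 * k - 1 : ℕ) := by exact_mod_cast (by omega : 0 < 8 * k - 1)
  have h3 : (0 : ℝ) < wds (8 * k) (w0.length + 2 * n) (AA k A) :=
    lt_of_lt_of_le (by positivity) (h n)
  rw [words_eq]
  exact Nat.cast_pos.1 h3

/-- the density among words -/
theorem word_count (h1 : RowE1) (hH : RowH2) (hW3 : RowW3) (j : ℕ) : ∃ k0, ∀ k ≥ k0,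
    ∀ A : BraidGroup (8 * k) → Prop, (∀ β, A β → ∀ γ ∈ Der (8 * k) 1 (j + 1), A (β * γ)) →
      ∀ ε : ℝ, 0 < ε → ∃ n0, ∀ n ≥ n0,
        (words (8 * k) n fun w =>
          (A (toBraid (8 * k) w) ∧ ForSome k w Alex) ∧ ForSome k w Bad : ℝ) ≤
        ε * words (8 * k) n fun w => A (toBraid (8 * k) w) ∧ ForSome k w Alex := by
  obtain ⟨k0, h⟩ := coset_count h1 hH j
  refine ⟨k0 + 1, fun k hk A hA ε hε => ?_⟩
  have hk0 : 0 < k := by omega
  have hz : ∀ n, (∀ w : Word, w.length = n → (∀ x ∈ w, x.1 + 1 < 8 * k) → ¬ AA k A w) →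
      (words (8 * k) n fun w =>
          (A (toBraid (8 * k) w) ∧ ForSome k w Alex) ∧ ForSome k w Bad : ℝ) ≤
        ε * words (8 * k) n fun w => A (toBraid (8 * k) w) ∧ ForSome k w Alex := fun n hn => by
    haveI : IsEmpty {w : Word // w.length = n ∧ InCoset (Tw (8 * k) 1) [] w ∧
        (A (toBraid (8 * k) w) ∧ ForSome k w Alex) ∧ ForSome k w Bad} :=
      ⟨fun w => hn w.1 w.2.1 w.2.2.1.1 ⟨pure_of w.2.2.1, w.2.2.2.1⟩⟩
    rw [words, Nat.card_of_isEmpty, Nat.cast_zero]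
    positivity
  by_cases hex : ∃ w0 : Word, (∀ x ∈ w0, x.1 + 1 < 8 * k) ∧ AA k A w0
  swap
  · exact ⟨0, fun n _ => hz n fun w _ hw ha => hex ⟨w, hw, ha⟩⟩
  obtain ⟨w0, hw0, h0⟩ := hex
  obtain ⟨S, s1, s2, hS⟩ := h k (by omega) 1 one_pos (ε / 2) (half_pos hε)
  obtain ⟨C, θ, t0, t1, hW⟩ := rowW2 (8 * k) (by omega) S (Der (8 * k) 1 (j + 1)) (der_le _ _ _)
    (AA k A) (fun w => ForSome k w Bad) (ε / 2) (half_pos hε).le
    (fun w0 w hw0 hw h0 => aa_coset h1 hk0 hA hw0 hw h0)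
    fun w0 hw0 h0 => hS w0 (pure_to hw0 h0.1) h0.2.2
  obtain ⟨c, hc, hl⟩ := aa_lower h1 hW3 hk0 hA hw0 h0 (θ := (1 + θ) / 2) (by linarith)
    (by linarith)
  obtain ⟨a, ha⟩ := W2.even_length hw0 h0.1
  set q : ℝ := 2 * ((8 * k - 1 : ℕ) : ℝ) with hq
  have q0 : 0 ≤ q := by positivity
  have hτ : 0 < (1 + θ) / 2 := by linarith
  have hρ0 : 0 ≤ θ / ((1 + θ) / 2) := by positivity
  have hρ1 : θ / ((1 + θ) / 2) < 1 := (div_lt_one hτ).2 (by linarith)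
  have hρ2 : (θ / ((1 + θ) / 2)) ^ 2 < 1 := by nlinarith
  have h3 : Tendsto (fun r : ℕ => |C| * (θ * q) ^ w0.length * ((θ / ((1 + θ) / 2)) ^ 2) ^ r) atTop
      (𝓝 (|C| * (θ * q) ^ w0.length * 0)) :=
    (tendsto_pow_atTop_nhds_zero_of_lt_one (sq_nonneg _) hρ2).const_mul _
  rw [mul_zero] at h3
  obtain ⟨n0, hn0⟩ := eventually_atTop.1 (h3.eventually (gt_mem_nhds (mul_pos (half_pos hε) hc)))
  refine ⟨w0.length + 2 * n0, fun n hn => ?_⟩
  by_cases hev : Even n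
  · obtain ⟨r, rfl⟩ : ∃ r, n = w0.length + 2 * r := by
      obtain ⟨s, hs⟩ := hev
      exact ⟨s - a, by omega⟩
    have a1 := hW (w0.length + 2 * r)
    have a2 := (hn0 r (by omega)).le
    have a3 := hl r
    simp only [words_eq, ← and_assoc (a := toBraid (8 * k) _ ∈ Tw (8 * k) 1)]
    simp only [and_assoc (a := toBraid (8 * k) _ ∈ Tw (8 * k) 1) (b := A _)]
    refine le_trans a1 ?_
    change ε / 2 * (wds (8 * k) (w0.length + 2 * r) (AA k A) : ℝ) + _ ≤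
      ε * (wds (8 * k) (w0.length + 2 * r) (AA k A) : ℝ)
    generalize wds (8 * k) (w0.length + 2 * r) (AA k A) = x at a3 ⊢
    have a4 : C * (θ * q) ^ (w0.length + 2 * r) ≤ ε / 2 * x := by
      calc _ ≤ |C| * (θ * q) ^ (w0.length + 2 * r) :=
            mul_le_mul_of_nonneg_right (le_abs_self C) (by positivity)
        _ = |C| * (θ * q) ^ w0.length * ((θ / ((1 + θ) / 2)) ^ 2) ^ r *
            ((1 + θ) / 2 * q) ^ (2 * r) := by
            rw [← pow_mul, mul_assoc (|C| * _), ← mul_pow, pow_add, ← mul_assoc |C|,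
              ← mul_assoc (θ / _), div_mul_cancel₀ _ hτ.ne']
        _ ≤ ε / 2 * c * ((1 + θ) / 2 * q) ^ (2 * r) := by gcongr
        _ ≤ _ := by rw [mul_assoc]; gcongr
    linarith
  · exact hz n fun w hw h2 h3 => hev (hw ▸ W2.even_length h2 h3.1)

end Vale.Agent.Q258E
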