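import Vale.Agent.Q258E.Q1
import Vale.Agent.Q258E.Q2
import Vale.Agent.Q258E.Es
import Vale.Agent.Q258E.EH
import Vale.Agent.Q258E.St1
import Vale.Agent.Q258E.St2
import Vale.Agent.Q258E.S
import Vale.Agent.Q258E.Or
import Vale.Agent.Q258E.Cv
import Vale.Agent.Q258E.R1
import Vale.Agent.Q258E.R2
import Vale.Agent.Q258E.U1
import Vale.Agent.Q258E.U2
import Vale.Agent.Q258E.U3
import Vale.Agent.Q258E.W3
import Vale.Agent.Q258E.WG

/-!
# All rows together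
-/

namespace Vale.Agent.Q258E

theorem rowQ2' : RowQ2 := rowQ2 rowQ1

theorem rowEH' : RowEH := rowEH rowEs

theorem rowU1' : RowU1 := rowU1 rowEH' (rowS rowQ2' (rowSt2 rowSt1))

theorem rowU2' : RowU2 :=
  rowU2 rowQ2' rowEH' (rowR2 rowQ2' rowEH' (rowR1 rowQ2' (rowCv rowQ1 rowOr))) rowU1'

theorem rowH2' : RowH2 := rowH2 (rowG2 rowU2' (rowU3 rowEH' rowU1' rowU2'))

end Vale.Agent.Q258E
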