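import Vale.Agent.Q258E.Rows
import Vale.Agent.Q258D.D3
import Mathlib.Analysis.InnerProductSpace.Rayleigh
import Mathlib.Analysis.InnerProductSpace.Adjoint
import Mathlib.Analysis.SpecialFunctions.Complex.CircleAddChar

/-!
# Row Q1: products of six conjugacy classes of `SL(2, p)` are equidistributed
-/

namespace Vale.Agent.Q258E

namespace Q1

open Finset Vale.Agent.Q258D Vale.Agent.Q258D.D1 Vale.Agent.Q258D.D3
open scoped InnerProductSpace

theorem top_eig {V : Type} [NormedAddCommGroup V] [InnerProductSpace ℂ V] [FiniteDimensional ℂ V]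
    [Nontrivial V] (L : V →ₗ[ℂ] V) : ∃ lam : ℝ, (∀ f, ‖L f‖ ^ 2 ≤ lam * ‖f‖ ^ 2) ∧
      ∃ f ≠ 0, ∀ h, ⟪L h, L f⟫_ℂ = lam * ⟪h, f⟫_ℂ := by
  have hT := L.isSymmetric_adjoint_mul_self
  obtain ⟨f, hf⟩ := hT.hasEigenvalue_iSup_of_finiteDimensional.exists_hasEigenvector
  refine ⟨⨆ x : {x : V // x ≠ 0}, RCLike.re ⟪(LinearMap.adjoint L * L) x, x⟫_ℂ / ‖(x : V)‖ ^ 2,
    fun x => ?_, f, hf.2, fun h => ?_⟩
  rotate_left
  · rw [← LinearMap.adjoint_inner_right, ← inner_smul_right]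
    exact congrArg _ hf.apply_eq_smul
  by_cases hx : x = 0
  · simp [hx]
  have hb : BddAbove (Set.range fun x : {x : V // x ≠ 0} =>
      RCLike.re ⟪(LinearMap.adjoint L * L) x, x⟫_ℂ / ‖(x : V)‖ ^ 2) :=
    ⟨‖LinearMap.toContinuousLinearMap (LinearMap.adjoint L * L)‖, by
      rintro _ ⟨x, rfl⟩
      exact (le_abs_self _).trans (ContinuousLinearMap.rayleighQuotient_le_norm
        (LinearMap.toContinuousLinearMap (LinearMap.adjoint L * L)) x.1)⟩
  have h1 := le_ciSup hb ⟨x, hx⟩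
  rwa [div_le_iff₀ (pow_pos (norm_pos_iff.2 hx) 2), Module.End.mul_apply,
    LinearMap.adjoint_inner_left, inner_self_eq_norm_sq] at h1

section Group

variable {G : Type} [Group G] [Fintype G]

/-- functions on the group -/
abbrev V (G : Type) [Fintype G] : Type := EuclideanSpace ℂ G

/-- right translation -/
noncomputable def R (x : G) : V G →ₗ[ℂ] V G where
  toFun f := WithLp.toLp 2 fun g => f (g * x)
  map_add' _ _ := rfl
  map_smul' _ _ := rfl

theorem R_apply (x : G) (f : V G) (g : G) : R x f g = f (g * x) := rfl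

theorem R_R (x y : G) (f : V G) : R x (R y f) = R (x * y) f := by
  ext g
  simp only [R_apply, mul_assoc]

theorem R_one (f : V G) : R 1 f = f := by
  ext g
  simp only [R_apply, mul_one]

theorem inner_R (x : G) (f h : V G) : ⟪R x f, R x h⟫_ℂ = ⟪f, h⟫_ℂ := by
  simp only [PiLp.inner_apply, R_apply]
  exact Equiv.sum_comp (Equiv.mulRight x) fun g => ⟪f g, h g⟫_ℂ

/-- convolution from the left -/
noncomputable def L (ν : G → ℝ) : V G →ₗ[ℂ] V G where
  toFun f := WithLp.toLp 2 fun g => ∑ a, (ν (g * a⁻¹) : ℂ) * f a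
  map_add' f h := by
    ext g
    simp [mul_add, sum_add_distrib]
  map_smul' c f := by
    ext g
    simp [mul_sum, mul_left_comm]

theorem L_apply (ν : G → ℝ) (f : V G) (g : G) : L ν f g = ∑ a, (ν (g * a⁻¹) : ℂ) * f a := rfl

theorem L_R (ν : G → ℝ) (x : G) (f : V G) : L ν (R x f) = R x (L ν f) := by
  ext g
  rw [R_apply, L_apply, L_apply, ← Equiv.sum_comp (Equiv.mulRight x)
    fun a => (ν (g * x * a⁻¹) : ℂ) * f a]
  simp [R_apply, mul_assoc]

/-- every invariant space with a nonconstant function has dimension at least `d` -/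
def QR (G : Type) [Group G] [Fintype G] (d : ℝ) : Prop :=
  ∀ E : Submodule ℂ (V G), (∀ x, ∀ f ∈ E, R x f ∈ E) → (∃ f ∈ E, ∃ x, R x f ≠ f) →
    ∃ (S : Type) (_ : Fintype S) (e : S → V G), d ≤ Fintype.card S ∧ Orthonormal ℂ e ∧ ∀ i, e i ∈ E

/-- convolution -/
def cv (f h : G → ℝ) (g : G) : ℝ := ∑ a, f (g * a⁻¹) * h a

/-- the sum of the squares -/
def sq2 (f : G → ℝ) : ℝ := ∑ a, f a ^ 2

theorem sq2_nonneg (f : G → ℝ) : 0 ≤ sq2 f := sum_nonneg fun _ _ => sq_nonneg _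

theorem sum_tr {M : Type} [AddCommMonoid M] (f : G → M) (g : G) : ∑ a, f (g * a⁻¹) = ∑ a, f a :=
  Equiv.sum_comp ((Equiv.inv G).trans (Equiv.mulLeft g)) f

theorem norm_real (f : G → ℝ) : ‖(WithLp.toLp 2 fun a => (f a : ℂ) : V G)‖ ^ 2 = sq2 f := by
  rw [EuclideanSpace.norm_sq_eq, sq2]
  simp

theorem quasi {d : ℝ} (hG : QR G d) (ν f : G → ℝ) (hν : ∑ a, ν a = 0) :
    d * sq2 (cv ν f) ≤ Fintype.card G * sq2 ν * sq2 f := by
  obtain ⟨lam, h1, f0, h0, h2⟩ := top_eig (L ν)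
  have h3 := h1 (WithLp.toLp 2 fun a => (f a : ℂ))
  have e : L ν (WithLp.toLp 2 fun a => (f a : ℂ)) = WithLp.toLp 2 fun a => (cv ν f a : ℂ) := by
    ext g
    simp [L_apply, cv]
  rw [e, norm_real, norm_real] at h3
  have p1 := sq2_nonneg f
  have p2 : 0 ≤ Fintype.card G * sq2 ν := mul_nonneg (Nat.cast_nonneg _) (sq2_nonneg ν)
  have p3 := sq2_nonneg (cv ν f)
  by_cases hd : d ≤ 0
  · nlinarith [mul_nonneg p2 p1]
  rcases le_or_gt lam 0 with hl | hl
  · have : sq2 (cv ν f) = 0 := le_antisymm (by nlinarith) p3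
    rw [this, mul_zero]
    exact mul_nonneg p2 p1
  let E : Submodule ℂ (V G) :=
    { carrier := {f | ∀ h, ⟪L ν h, L ν f⟫_ℂ = lam * ⟪h, f⟫_ℂ}
      zero_mem' := fun h => by simp
      add_mem' := fun ha hb h => by rw [map_add, inner_add_right, inner_add_right, ha, hb, mul_add]
      smul_mem' := fun c f hf h => by
        rw [map_smul, inner_smul_right, inner_smul_right, hf, mul_left_comm] }
  obtain ⟨S, _, e, hS, he, hE⟩ := hG E (fun x f hf h => by
    rw [← inner_R x⁻¹, ← inner_R x⁻¹ h, ← L_R, ← L_R, R_R, inv_mul_cancel, R_one]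
    exact hf _) ⟨f0, h2, by
      by_contra c
      push Not at c
      have c1 : ∀ x, f0 x = f0 1 := fun x => by rw [← c x⁻¹, R_apply, mul_inv_cancel, c]
      have c2 : L ν f0 = 0 := by
        ext g
        simp only [L_apply, c1, ← sum_mul]
        rw [sum_tr (fun a => (ν a : ℂ)) g, ← Complex.ofReal_sum, hν]
        simp
      have c3 := h2 f0
      rw [c2, inner_zero_left, eq_comm, mul_eq_zero, inner_self_eq_zero] at c3
      exact c3.elim (fun c => hl.ne' (by exact_mod_cast c)) h0⟩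
  have k1 : ∀ i, ‖L ν (e i)‖ ^ 2 = lam := fun i => by
    have := hE i (e i)
    rw [inner_self_eq_norm_sq_to_K, inner_self_eq_norm_sq_to_K, he.1 i] at this
    exact_mod_cast (by simpa using this : ((‖L ν (e i)‖ : ℂ)) ^ 2 = lam)
  have k2 : ∀ g, ∑ i, ‖L ν (e i) g‖ ^ 2 ≤ sq2 ν := fun g => by
    have := he.sum_inner_products_le (WithLp.toLp 2 fun a => (ν (g * a⁻¹) : ℂ)) (s := univ)
    rw [norm_real fun a => ν (g * a⁻¹), sq2, sum_tr (fun a => ν a ^ 2) g] at this
    refine le_of_eq_of_le (sum_congr rfl fun i _ => ?_) this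
    rw [← norm_inner_symm, PiLp.inner_apply, L_apply]
    simp [mul_comm]
  have k3 : Fintype.card S * lam ≤ Fintype.card G * sq2 ν := by
    calc Fintype.card S * lam = ∑ i, ‖L ν (e i)‖ ^ 2 := by simp [k1]
      _ = ∑ g, ∑ i, ‖L ν (e i) g‖ ^ 2 := by
        simp only [EuclideanSpace.norm_sq_eq]
        exact sum_comm
      _ ≤ ∑ _g : G, sq2 ν := sum_le_sum fun g _ => k2 g
      _ = _ := by simp
  have k4 : d * lam ≤ Fintype.card G * sq2 ν := (mul_le_mul_of_nonneg_right hS hl.le).trans k3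
  calc d * sq2 (cv ν f) ≤ d * (lam * sq2 f) := mul_le_mul_of_nonneg_left h3 (not_le.1 hd).le
    _ ≤ _ := by rw [← mul_assoc]; exact mul_le_mul_of_nonneg_right k4 p1

theorem cv_assoc (f h k : G → ℝ) : cv (cv f h) k = cv f (cv h k) := by
  funext g
  simp only [cv, sum_mul, mul_sum]
  rw [sum_comm (f := fun c b => f (g * c⁻¹) * (h (c * b⁻¹) * k b))]
  refine sum_congr rfl fun b _ => ?_
  rw [← Equiv.sum_comp (Equiv.mulRight b) fun c => f (g * c⁻¹) * (h (c * b⁻¹) * k b)]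
  simp [mul_assoc]

theorem sum_cv (f h : G → ℝ) : ∑ g, cv f h g = (∑ a, f a) * ∑ a, h a := by
  simp only [cv]
  rw [sum_comm, mul_sum]
  refine sum_congr rfl fun a _ => ?_
  rw [← sum_mul]
  exact congrArg (· * _) (Equiv.sum_comp (Equiv.mulRight a⁻¹) f)

theorem cv_nonneg {f h : G → ℝ} (hf : ∀ a, 0 ≤ f a) (hh : ∀ a, 0 ≤ h a) (g : G) : 0 ≤ cv f h g :=
  sum_nonneg fun _ _ => mul_nonneg (hf _) (hh _)

theorem cv_sq (f h : G → ℝ) (g : G) : cv f h g ^ 2 ≤ sq2 f * sq2 h := by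
  have := sum_mul_sq_le_sq_mul_sq univ (fun a => f (g * a⁻¹)) h
  rwa [sum_tr (fun a => f a ^ 2) g] at this

/-- three factors -/
theorem three {d C N : ℝ} (hG : QR G d) (hN : N = Fintype.card G) {ν₁ ν₂ ν₃ : G → ℝ}
    (s1 : ∑ a, ν₁ a = N ^ 2) (s2 : ∑ a, ν₂ a = N ^ 2) (s3 : ∑ a, ν₃ a = N ^ 2)
    (q1 : sq2 ν₁ ≤ C * N ^ 3) (q2 : sq2 ν₂ ≤ C * N ^ 3) (q3 : sq2 ν₃ ≤ C * N ^ 3) (hd : 0 ≤ d)
    (g : G) : d * (cv ν₁ (cv ν₂ ν₃) g - N ^ 5) ^ 2 ≤ C ^ 3 * N ^ 10 := by
  have hN0 : 0 ≤ N := hN ▸ Nat.cast_nonneg _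
  have e0 : ∑ a, (ν₂ a - N) = 0 := by
    rw [sum_sub_distrib, s2]
    simp [← hN, sq]
  have e1 : sq2 (fun a => ν₂ a - N) = sq2 ν₂ - N ^ 3 := by
    simp only [sq2, sub_sq, sum_add_distrib, sum_sub_distrib, ← sum_mul, ← mul_sum, s2]
    simp [← hN]
    ring
  have e2 : cv ν₁ (cv ν₂ ν₃) g - N ^ 5 = cv ν₁ (cv (fun a => ν₂ a - N) ν₃) g := by
    have : cv (fun a => ν₂ a - N) ν₃ = fun a => cv ν₂ ν₃ a - N ^ 3 := by
      funext a
      simp only [cv, sub_mul, sum_sub_distrib, ← mul_sum, s3]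
      ring
    rw [this]
    simp only [cv, mul_sub, sum_sub_distrib, ← sum_mul]
    rw [sum_tr ν₁ g, s1]
    ring
  have h1 := quasi hG _ ν₃ e0
  have h2 := cv_sq ν₁ (cv (fun a => ν₂ a - N) ν₃) g
  have p0 := sq2_nonneg fun a => ν₂ a - N
  have p1 := sq2_nonneg ν₁
  have q2' : sq2 (fun a => ν₂ a - N) ≤ C * N ^ 3 := by rw [e1]; nlinarith [pow_nonneg hN0 3]
  rw [e2, ← hN] at *
  calc d * _ ≤ d * (sq2 ν₁ * sq2 (cv (fun a => ν₂ a - N) ν₃)) := mul_le_mul_of_nonneg_left h2 hd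
    _ = sq2 ν₁ * (d * sq2 (cv (fun a => ν₂ a - N) ν₃)) := by ring
    _ ≤ C * N ^ 3 * (N * (C * N ^ 3) * (C * N ^ 3)) :=
      mul_le_mul q1 (h1.trans (mul_le_mul (mul_le_mul_of_nonneg_left q2' hN0) q3 (sq2_nonneg _)
        (mul_nonneg hN0 (p0.trans q2')))) (mul_nonneg hd (sq2_nonneg _)) (p1.trans q1)
    _ = _ := by ring

variable [DecidableEq G]

/-- the number of ways to conjugate `c` to `g` -/
def mc (c g : G) : ℝ := ∑ x, if x⁻¹ * c * x = g then 1 else 0

theorem mc_nonneg (c g : G) : 0 ≤ mc c g := sum_nonneg fun _ _ => by positivity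

theorem sum_mc (c : G) : ∑ g, mc c g = Fintype.card G := by
  simp only [mc]
  rw [sum_comm]
  simp

theorem mc_conj (c a b : G) : mc c (a * b) = mc c (b * a) := by
  rw [mc, mc, ← Equiv.sum_comp (Equiv.mulRight b)]
  refine sum_congr rfl fun x _ => if_congr ?_ rfl rfl
  rw [Equiv.coe_mulRight, show (x * b)⁻¹ * c * (x * b) = b⁻¹ * (x⁻¹ * c * x) * b by group,
    mul_left_inj, inv_mul_eq_iff_eq_mul]

theorem cv_mc_comm (c : G) (f : G → ℝ) : cv (mc c) f = cv f (mc c) := by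
  funext g
  rw [cv, cv, ← Equiv.sum_comp ((Equiv.inv G).trans (Equiv.mulRight g))
    fun a => f (g * a⁻¹) * mc c a]
  exact sum_congr rfl fun a _ => by simp [mc_conj c g, mul_comm]

theorem cv_mc' (c : G) (f : G → ℝ) (g : G) : cv f (mc c) g = ∑ x, f (g * (x⁻¹ * c * x)⁻¹) := by
  simp only [cv, mc, mul_sum]
  rw [sum_comm]
  simp

theorem cv_mc (c : G) (f : G → ℝ) (g : G) : cv (mc c) f g = ∑ x, f ((x⁻¹ * c * x)⁻¹ * g) := by
  simp only [cv, mc, sum_mul]
  rw [sum_comm]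
  refine sum_congr rfl fun x _ => ?_
  rw [sum_eq_single ((x⁻¹ * c * x)⁻¹ * g) (fun a _ ha => ?_) (by simp)]
  · rw [if_pos (by group), one_mul]
  · rw [if_neg fun h => ha (by rw [h]; group), zero_mul]

/-- the number of ways to write `g` as a product of conjugates -/
def rl (l : List G) : G → ℝ := l.foldr (fun c f => cv (mc c) f) fun g => if 1 = g then 1 else 0

theorem rl_cons (c : G) (l : List G) : rl (c :: l) = cv (mc c) (rl l) := rfl

theorem rl_nonneg (l : List G) : ∀ g, 0 ≤ rl l g := by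
  induction l with
  | nil => exact fun g => by simp only [rl, List.foldr_nil]; positivity
  | cons c l ih => exact cv_nonneg (mc_nonneg c) ih

theorem sum_rl (l : List G) : ∑ g, rl l g = (Fintype.card G : ℝ) ^ l.length := by
  induction l with
  | nil => simp [rl]
  | cons c l ih => rw [rl_cons, sum_cv, sum_mc, ih, List.length_cons, pow_succ']

theorem rl_perm {l l' : List G} (h : l.Perm l') : rl l = rl l' := by
  induction h with
  | nil => rfl
  | cons c _ ih => rw [rl_cons, rl_cons, ih]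
  | swap a b l => simp only [rl_cons, ← cv_assoc]; rw [cv_mc_comm b (mc a)]
  | trans _ _ h h' => exact h.trans h'

theorem rl_ofFn (n : ℕ) (c : Fin n → G) (g : G) : rl (List.ofFn c) g =
    ∑ x : Fin n → G, if (List.ofFn fun i => (x i)⁻¹ * c i * x i).prod = g then 1 else 0 := by
  induction n generalizing g with
  | zero => simp [rl]
  | succ n ih =>
    rw [List.ofFn_succ, rl_cons, cv_mc, ← (Fin.consEquiv fun _ => G).sum_comp,
      Fintype.sum_prod_type]
    refine sum_congr rfl fun x _ => (ih _ _).trans (sum_congr rfl fun y _ => if_congr ?_ rfl rfl)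
    rw [eq_inv_mul_iff_mul_eq]
    simp [List.ofFn_succ, Fin.consEquiv]

theorem mc_le (c g : G) : mc c g ≤ Nat.card {x : G // x * c = c * x} := by
  rw [mc, sum_boole, Nat.card_eq_fintype_card, Fintype.card_subtype, Nat.cast_le]
  rcases (univ.filter fun x => x⁻¹ * c * x = g).eq_empty_or_nonempty with h | ⟨y, hy⟩
  · simp [h]
  refine card_le_card_of_injOn (· * y⁻¹) (fun x hx => ?_) fun _ _ _ _ h => mul_right_cancel h
  have h1 : x⁻¹ * c * x = y⁻¹ * c * y := (mem_filter.1 hx).2.trans (mem_filter.1 hy).2.symm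
  refine mem_filter.2 ⟨mem_univ _, ?_⟩
  calc x * y⁻¹ * c = x * (y⁻¹ * c * y) * y⁻¹ := by group
    _ = _ := by rw [← h1]; group

theorem spread {F ρ : G → ℝ} {a b : ℝ} (hρ : ∀ x, 0 ≤ ρ x) (h : ∀ g, |F g - a| ≤ b) (g : G) :
    |cv F ρ g - a * ∑ x, ρ x| ≤ b * ∑ x, ρ x := by
  rw [cv, mul_sum, mul_sum, ← sum_sub_distrib]
  refine (abs_sum_le_sum_abs _ _).trans (sum_le_sum fun x _ => ?_)
  rw [← sub_mul, abs_mul, abs_of_nonneg (hρ x)]
  exact mul_le_mul_of_nonneg_right (h _) (hρ x)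

end Group

variable {p : ℕ} [Fact p.Prime]

/-- diagonal matrices -/
def dg (a : ZMod p) (h : a ≠ 0) : SLp p := mk4 a⁻¹ 0 0 a (by simp [h])

theorem eig [Fintype (SLp p)] {E : Submodule ℂ (V (SLp p))} (hE : ∀ x, ∀ f ∈ E, R x f ∈ E)
    (h : ∃ f ∈ E, ∃ x, R x f ≠ f) :
    ∃ f ∈ E, f ≠ 0 ∧ ∃ t ≠ 0, ∀ u, R (up u) f = ZMod.stdAddChar (t * u : ZMod p) • f := by
  by_contra c
  push Not at c
  have h1 : ∀ f ∈ E, ∀ u, R (up u) f = f := fun f hf u => by
    let F : ZMod p → V (SLp p) := fun t => ∑ s, ZMod.stdAddChar (t * -s : ZMod p) • R (up s) f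
    have e1 : ∀ t u, R (up u) (F t) = ZMod.stdAddChar (t * u : ZMod p) • F t := fun t u => by
      simp only [F, map_sum, map_smul, R_R, ← up_add, smul_sum, smul_smul,
        ← AddChar.map_add_eq_mul]
      rw [← Equiv.sum_comp (Equiv.addLeft u)
        fun s => ZMod.stdAddChar (t * u + t * -s : ZMod p) • R (up s) f]
      exact sum_congr rfl fun s _ => by congr 2; simp; ring
    have e2 : ∀ t ≠ 0, F t = 0 := fun t ht => by
      by_contra c2
      obtain ⟨u, hu⟩ := c (F t) (E.sum_mem fun s _ => E.smul_mem _ (hE _ _ hf)) c2 t ht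
      exact hu (e1 t u)
    have e3 : ∑ t, F t = (p : ℂ) • f := by
      rw [sum_comm]
      simp only [← sum_smul, AddChar.sum_mulShift _ (ZMod.isPrimitive_stdAddChar p)]
      rw [sum_eq_single 0 (fun s _ hs => by simp [hs]) (by simp)]
      simp [up_zero, R_one]
    rw [sum_eq_single 0 (fun t _ => e2 t) (by simp)] at e3
    have e4 := e1 0 u
    rw [e3, zero_mul, AddChar.map_zero_eq_one, one_smul, map_smul] at e4
    exact smul_right_injective _ (Nat.cast_ne_zero.2 (Fact.out : p.Prime).ne_zero) e4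
  let K : Subgroup (SLp p) :=
    { carrier := {x | ∀ f ∈ E, R x f = f}
      one_mem' := fun f _ => R_one f
      mul_mem' := fun ha hb f hf => by rw [← R_R, hb f hf, ha f hf]
      inv_mem' := fun {x} hx f hf => by
        conv_lhs => rw [← hx f hf, R_R, inv_mul_cancel, R_one] }
  have h2 : K = ⊤ := eq_top_of_up (fun s f hf => h1 f hf s) (a := lo (-1)) (fun f hf => by
    have : mk4 0 (-1) 1 0 (by simp) * lo (-1 : ZMod p) = up 1 * mk4 0 (-1) 1 0 (by simp) := by
      apply ext2 <;> simp only [mul2, up, lo, mk4_ent] <;> ring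
    rw [eq_inv_mul_of_mul_eq this, ← R_R, ← R_R, h1 _ (hE _ f hf), R_R, inv_mul_cancel, R_one])
    (neg_ne_zero.2 one_ne_zero)
  obtain ⟨f, hf, x, hx⟩ := h
  exact hx ((h2.symm ▸ Subgroup.mem_top x : x ∈ K) f hf)

theorem qr [Fintype (SLp p)] : QR (SLp p) ((p - 1) / 2) := fun E hE h => by
  classical
  obtain ⟨f, hf, h0, t, ht, h1⟩ := eig hE h
  have h2 : ∀ b : {b : ZMod p // ∃ a ≠ 0, a ^ 2 = b}, ∃ x, R (up 1) (R x f) =
      ZMod.stdAddChar (t * b : ZMod p) • R x f := fun ⟨b, a, ha, hb⟩ => ⟨dg a ha, by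
    have : up 1 * dg a ha = dg a ha * up b := by
      apply ext2 <;> simp only [mul2, up, dg, mk4_ent, ← hb] <;> field_simp <;> ring
    rw [R_R, this, ← R_R, h1, map_smul]⟩
  choose x hx using h2
  have hn : ‖f‖ ≠ 0 := norm_ne_zero_iff.2 h0
  refine ⟨{b : ZMod p // ∃ a ≠ 0, a ^ 2 = b}, inferInstance,
    fun b => ((‖f‖ : ℂ))⁻¹ • R (x b) f, ?_, orthonormal_iff_ite.2 fun b b' => ?_,
    fun b => E.smul_mem _ (hE _ _ hf)⟩
  · have := card_le_fib (fun a : ZMod p => a ≠ 0) (fun b => ∃ a ≠ 0, a ^ 2 = b) (· ^ 2) 2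
      (fun a ha => ⟨a, ha, rfl⟩) fun b _ => roots2 (A := 1) (B := 0) (C := -b)
        (Or.inl one_ne_zero) fun s hs => by linear_combination hs.2
    rw [Nat.card_eq_fintype_card, Nat.card_eq_fintype_card, Fintype.card_subtype_compl,
      ZMod.card, Fintype.card_subtype_eq, tsub_le_iff_right] at this
    have : (p : ℝ) ≤ 2 * Fintype.card {b : ZMod p // ∃ a ≠ 0, a ^ 2 = b} + 1 := by
      exact_mod_cast this
    linarith
  rw [inner_smul_left, inner_smul_right]
  split_ifs with c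
  · rw [c, inner_R, inner_self_eq_norm_sq_to_K]
    simp [hn, sq]
  · have e := inner_R (up 1) (R (x b) f) (R (x b') f)
    rw [hx, hx, inner_smul_left, inner_smul_right, ← AddChar.map_neg_eq_conj, ← mul_assoc,
      ← AddChar.map_add_eq_mul, ← sub_eq_zero, ← sub_one_mul, mul_eq_zero, sub_eq_zero,
      ← (ZMod.stdAddChar (N := p)).map_zero_eq_one] at e
    rcases e with e | e
    · exact absurd (Subtype.ext (mul_left_cancel₀ ht
        (neg_add_eq_zero.1 (ZMod.injective_stdAddChar e)))) c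
    · rw [e, mul_zero, mul_zero]

theorem pair [Fintype (SLp p)] [DecidableEq (SLp p)] {c c' : SLp p}
    (hc : c ∉ Subgroup.center (SLp p)) (hc' : c' ∉ Subgroup.center (SLp p)) :
    sq2 (cv (mc c) (mc c')) ≤ 72 * (Fintype.card (SLp p) : ℝ) ^ 3 := by
  classical
  have h1 : ∀ g, mc c g ≤ 2 * p := fun g => (mc_le c g).trans (by
    have := count3 hc
    rw [Nat.card_zmod] at this
    exact_mod_cast this)
  have h2 : ∀ g, cv (mc c) (mc c') g ≤ Fintype.card (SLp p) * (2 * p) := fun g => by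
    rw [cv_mc']
    exact (sum_le_sum fun x _ => h1 _).trans (by simp)
  have h3 : ∀ g ∉ Subgroup.center (SLp p), cv (mc c) (mc c') g ≤ 8 * Fintype.card (SLp p) := by
    intro g hg
    have k := count1 hg (fun h => hc' (inv_mem_iff.1 h)) (c.1 0 0 + c.1 1 1)
    rw [Nat.card_zmod, Nat.card_eq_fintype_card, Nat.card_eq_fintype_card,
      Fintype.card_subtype] at k
    have k' := (Nat.cast_le (α := ℝ)).2 k
    rw [cv_mc']
    calc _ ≤ ∑ x : SLp p, 2 * p * if (g * (x⁻¹ * c'⁻¹ * x)).1 0 0 + (g * (x⁻¹ * c'⁻¹ * x)).1 1 1 =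
          c.1 0 0 + c.1 1 1 then (1 : ℝ) else 0 := sum_le_sum fun x _ => by
          split_ifs with h
          · rw [mul_one]
            exact h1 _
          · rw [mul_zero]
            refine (sum_eq_zero fun y _ => if_neg fun e => h ?_).le
            rw [← tr_conj c y, e, show (x⁻¹ * c' * x)⁻¹ = x⁻¹ * c'⁻¹ * x by group]
      _ ≤ _ := by
          rw [← mul_sum, sum_boole]
          push_cast at k'
          linarith
  have h4 : (p : ℝ) ^ 2 ≤ Fintype.card (SLp p) := by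
    have hp := (Fact.out : p.Prime).two_le
    rw [← Nat.card_eq_fintype_card, card_eq]
    have : p ≤ p ^ 2 - 1 := Nat.le_sub_one_of_lt (by nlinarith)
    exact_mod_cast (sq p).trans_le (Nat.mul_le_mul_left p this)
  have h5 := card_center (F := ZMod p)
  rw [Nat.card_eq_fintype_card, Fintype.card_subtype] at h5
  have h6 := (Nat.cast_le (α := ℝ)).2 h5
  have h7 := cv_nonneg (mc_nonneg c) (mc_nonneg c')
  calc _ ≤ ∑ g : SLp p, ((8 * Fintype.card (SLp p) : ℝ) ^ 2 + (Fintype.card (SLp p) * (2 * p)) ^ 2 *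
        if g ∈ Subgroup.center (SLp p) then (1 : ℝ) else 0) := sum_le_sum fun g _ => by
        split_ifs with h
        · rw [mul_one]
          exact (pow_le_pow_left₀ (h7 g) (h2 g) 2).trans (le_add_of_nonneg_left (sq_nonneg _))
        · rw [mul_zero, add_zero]
          exact pow_le_pow_left₀ (h7 g) (h3 g h) 2
    _ ≤ _ := by
        rw [sum_add_distrib, ← mul_sum, sum_boole, sum_const, card_univ, nsmul_eq_mul]
        generalize (Fintype.card (SLp p) : ℝ) = N at h4 ⊢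
        have := mul_le_mul_of_nonneg_left h6 (sq_nonneg (N * (2 * p)))
        have := mul_le_mul_of_nonneg_left h4 (sq_nonneg N)
        push_cast at *
        nlinarith

theorem six [Fintype (SLp p)] [DecidableEq (SLp p)] {η : ℝ} (hη : 0 < η)
    (hp : 72 ^ 3 ≤ ((p : ℝ) - 1) / 2 * η ^ 2) (l : List (SLp p))
    (hl : 6 ≤ (l.filter fun c => c ∉ Subgroup.center (SLp p)).length) (g : SLp p) :
    |Fintype.card (SLp p) * rl l g - (Fintype.card (SLp p) : ℝ) ^ l.length| ≤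
      η * (Fintype.card (SLp p) : ℝ) ^ l.length := by
  have h1 := List.filter_append_perm (fun c => c ∉ Subgroup.center (SLp p)) l
  have h2 : ∀ c ∈ l.filter fun c => c ∉ Subgroup.center (SLp p), c ∉ Subgroup.center (SLp p) :=
    fun c hc => of_decide_eq_true (List.mem_filter.1 hc).2
  rw [← rl_perm h1, ← h1.length_eq]
  generalize l.filter (fun c => c ∉ Subgroup.center (SLp p)) = a at hl h2
  generalize l.filter _ = b
  obtain _ | ⟨c1, _ | ⟨c2, _ | ⟨c3, _ | ⟨c4, _ | ⟨c5, _ | ⟨c6, a⟩⟩⟩⟩⟩⟩ := a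
  iterate 6 simp at hl
  have hd : 0 < ((p : ℝ) - 1) / 2 := (mul_pos_iff_of_pos_right (pow_pos hη 2)).1 (by linarith)
  have hN : (0 : ℝ) ≤ Fintype.card (SLp p) := Nat.cast_nonneg _
  have s : ∀ x y : SLp p, ∑ a, cv (mc x) (mc y) a = (Fintype.card (SLp p) : ℝ) ^ 2 :=
    fun x y => by rw [sum_cv, sum_mc, sum_mc, sq]
  have h3 := spread (rl_nonneg (a ++ b)) (b := η * (Fintype.card (SLp p) : ℝ) ^ 5) (fun x => by
    have := three qr rfl (s c1 c2) (s c3 c4) (s c5 c6) (pair (h2 _ (by simp)) (h2 _ (by simp)))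
      (pair (h2 _ (by simp)) (h2 _ (by simp))) (pair (h2 _ (by simp)) (h2 _ (by simp))) hd.le x
    refine abs_le_of_sq_le_sq (le_of_mul_le_mul_left (this.trans ?_) hd) (by positivity)
    calc _ ≤ ((p : ℝ) - 1) / 2 * η ^ 2 * (Fintype.card (SLp p) : ℝ) ^ 10 :=
          mul_le_mul_of_nonneg_right hp (by positivity)
      _ = _ := by ring) g
  have h4 := mul_le_mul_of_nonneg_left h3 hN
  rw [← abs_of_nonneg hN, ← abs_mul, abs_of_nonneg hN, sum_rl] at h4
  simp only [List.cons_append, rl_cons, List.length_cons, cv_assoc] at h4 ⊢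
  exact (congrArg _ (by ring)).trans_le (h4.trans_eq (by ring))

end Q1

open Q1 Vale.Agent.Q258D in
theorem rowQ1 : RowQ1 := fun η hη => by
  classical
  obtain ⟨p0, h0⟩ := exists_nat_ge (2 * 72 ^ 3 / η ^ 2 + 1)
  refine ⟨p0, fun p _ hp n c hc g => ?_⟩
  have := Fintype.ofFinite (SLp p)
  have h1 : (72 : ℝ) ^ 3 ≤ ((p : ℝ) - 1) / 2 * η ^ 2 := by
    have : (p0 : ℝ) ≤ p := by exact_mod_cast hp
    have : 2 * 72 ^ 3 / η ^ 2 ≤ p - 1 := by linarith
    rw [div_le_iff₀ (pow_pos hη 2)] at this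
    linarith
  have h2 := six hη h1 (List.ofFn c) (hc.trans_eq (by
    rw [Nat.card_eq_fintype_card, Fintype.card_subtype, ← List.countP_eq_length_filter,
      List.ofFn_eq_map, List.countP_map, List.countP_eq_length_filter]
    rfl)) g
  rw [rl_ofFn, Finset.sum_boole, List.length_ofFn, abs_le, ← Fintype.card_subtype,
    ← Nat.card_eq_fintype_card, ← Nat.card_eq_fintype_card] at h2
  constructor <;> linarith [h2.1, h2.2]

end Vale.Agent.Q258E
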